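import Vale.Agent.P119.RM.Real
import Vale.Agent.P119.MM.Stat
import Vale.Agent.P119.AU.World

/-!
# P119: measurability of the numbers of exposed particles and felt trees, of the stopping times and
of the stopped events (`helper758`)

* `Inc N`: increasing measurable processes; thresholds are time sets, first passage times are
  measurable;
* `Cnt Y F W s`: the sum of the weights `F W a` over the exposed labels, `firstE`;
* `Felt Φ ε L Y W s`: the felt trees, `FCnt`: sums over them;
* `tau`, `hor`: first passage time and horizon; stopped touch events.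
* random worlds made from `insert`, `∪`, `filter`, configurations.
-/

open MeasureTheory Filter Topology Set
open scoped ENNReal

noncomputable section

namespace Vale.Agent.P119.RM

open KU M CTree MM FB

/-! ### Increasing processes -/

section inc

variable {X Y : Type*} [MeasurableSpace X] [MeasurableSpace Y] {N N' : X → ℝ → ℝ≥0∞}
  {c : X → ℝ≥0∞} {t : X → ℝ}

/-- Increasing measurable processes. -/
structure Inc (N : X → ℝ → ℝ≥0∞) : Prop where
  mono : ∀ x, Monotone (N x)
  meas : Measurable fun p : X × ℝ => N p.1 p.2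

theorem Inc.at (h : Inc N) (ht : Measurable t) : Measurable fun x => N x (t x) :=
  h.meas.comp (measurable_id.prodMk ht)

theorem Inc.comp (h : Inc N) {f : Y → X} (hf : Measurable f) : Inc fun y => N (f y) where
  mono y := h.mono (f y)
  meas := h.meas.comp ((hf.comp measurable_fst).prodMk measurable_snd)

theorem Inc.add (h : Inc N) (h' : Inc N') : Inc fun x s => N x s + N' x s where
  mono x _ _ hst := add_le_add (h.mono x hst) (h'.mono x hst)
  meas := h.meas.add h'.meas

theorem Inc.mul (h : Inc N) (h' : Inc N') : Inc fun x s => N x s * N' x s where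
  mono x _ _ hst := mul_le_mul' (h.mono x hst) (h'.mono x hst)
  meas := h.meas.mul h'.meas

theorem Inc.const (hc : Measurable c) : Inc fun x _ => c x where
  mono _ _ _ _ := le_rfl
  meas := hc.comp measurable_fst

theorem Inc.ge (h : Inc N) (hc : Measurable c) : SC fun x => {s | c x ≤ N x s} :=
  SC.of_up (fun x _ _ hs hst => le_trans hs (h.mono x hst)) fun _ ht =>
    measurableSet_le hc (h.at ht)

theorem Inc.gt (h : Inc N) (hc : Measurable c) : SC fun x => {s | c x < N x s} :=
  SC.of_up (fun x _ _ hs hst => lt_of_lt_of_le hs (h.mono x hst)) fun _ ht =>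
    measurableSet_lt hc (h.at ht)

theorem Inc.le (h : Inc N) (hc : Measurable c) : SC fun x => {s | N x s ≤ c x} :=
  SC.of_down (fun x _ _ hs hst => (h.mono x hst).trans hs) fun _ ht =>
    measurableSet_le (h.at ht) hc

theorem Inc.lt (h : Inc N) (hc : Measurable c) : SC fun x => {s | N x s < c x} :=
  SC.of_down (fun x _ _ hs hst => lt_of_le_of_lt (h.mono x hst) hs) fun _ ht =>
    measurableSet_lt (h.at ht) hc

/-- The indicator of an increasing time set. -/
theorem Inc.indicator {A : X → Set ℝ} (hA : SC A) (hup : ∀ x s t, s ∈ A x → s ≤ t → t ∈ A x) :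
    Inc fun x s => (A x).indicator (fun _ => (1 : ℝ≥0∞)) s where
  mono x s t hst := by
    by_cases h : s ∈ A x
    · change (A x).indicator _ s ≤ (A x).indicator _ t
      rw [indicator_of_mem h, indicator_of_mem (hup x s t h hst)]
    · change (A x).indicator _ s ≤ (A x).indicator _ t
      rw [indicator_of_notMem h]
      exact bot_le
  meas := by
    classical
    have h1 : MeasurableSet {p : X × ℝ | p.2 ∈ A p.1} :=
      (hA.comp (measurable_fst (α := X) (β := ℝ))).mem measurable_snd
    have h2 : (fun p : X × ℝ => (A p.1).indicator (fun _ => (1 : ℝ≥0∞)) p.2) =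
        fun p : X × ℝ => if p ∈ {p : X × ℝ | p.2 ∈ A p.1} then (1 : ℝ≥0∞) else 0 := by
      funext p
      by_cases hp : p.2 ∈ A p.1
      · rw [indicator_of_mem hp, if_pos (show p ∈ {p : X × ℝ | p.2 ∈ A p.1} from hp)]
      · rw [indicator_of_notMem hp, if_neg (show p ∉ {p : X × ℝ | p.2 ∈ A p.1} from hp)]
    rw [h2]
    exact Measurable.ite h1 measurable_const measurable_const

/-- The first time at which the process is at least `c`. -/
def tau (N : ℝ → ℝ≥0∞) (c : ℝ≥0∞) : EReal := hT {s | c ≤ N s}

theorem Inc.measurable_tau (h : Inc N) (hc : Measurable c) : Measurable fun x => tau (N x) (c x) :=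
  (h.ge hc).measurable_hT

/-- The horizon `min t τ`. -/
def hor (t : ℝ) (τ : EReal) : ℝ := (min (t : EReal) τ).toReal

theorem measurable_hor {τ : X → EReal} (ht : Measurable t) (hτ : Measurable τ) :
    Measurable fun x => hor (t x) (τ x) :=
  ((measurable_coe_real_ereal.comp ht).min hτ).ereal_toReal

theorem hor_eq_coe {t : ℝ} {τ : EReal} (h : τ ≠ ⊥) : ((hor t τ : ℝ) : EReal) = min (t : EReal) τ := by
  unfold hor
  rw [EReal.coe_toReal]
  · exact ne_of_lt ((min_le_left _ _).trans_lt (EReal.coe_lt_top t))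
  · intro h1
    rcases min_eq_bot.1 h1 with h2 | h2
    · exact EReal.coe_ne_bot t h2
    · exact h h2

theorem le_hor_iff {t s : ℝ} {τ : EReal} (h : τ ≠ ⊥) : s ≤ hor t τ ↔ s ≤ t ∧ (s : EReal) ≤ τ := by
  rw [← EReal.coe_le_coe_iff, hor_eq_coe h, le_min_iff, EReal.coe_le_coe_iff]

theorem lt_hor_iff {t s : ℝ} {τ : EReal} (h : τ ≠ ⊥) : s < hor t τ ↔ s < t ∧ (s : EReal) < τ := by
  rw [← EReal.coe_lt_coe_iff, hor_eq_coe h, lt_min_iff, EReal.coe_lt_coe_iff]

theorem hor_le {t : ℝ} {τ : EReal} (h : τ ≠ ⊥) : hor t τ ≤ t := ((le_hor_iff h).1 le_rfl).1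

end inc

/-! ### Weights -/

/-- Measurable weights. -/
structure MWt {α β : Type} [MeasurableSpace α] [MeasurableSpace β] (F : Finset α → β → ℝ≥0∞) :
    Prop where
  meas : ∀ {X : Type} [MeasurableSpace X] {W : X → Finset α} {f : X → β},
    RS (fun x => (W x : Set α)) → Measurable f → Measurable fun x => F (W x) (f x)

theorem MWt.const {α β : Type} [MeasurableSpace α] [MeasurableSpace β] {F : β → ℝ≥0∞}
    (hF : Measurable F) : MWt fun (_ : Finset α) (b : β) => F b :=
  ⟨fun _ hf => hF.comp hf⟩

/-! ### Sums over the exposed labels -/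

section exposed

variable {α S : Type} [MeasurableSpace α] {Y : Sys α S} {F : Finset α → α → ℝ≥0∞}
  {X : Type} [MeasurableSpace X] {W : X → Finset α}

/-- The sum of the weights of the exposed labels. -/
def Cnt (Y : Sys α S) (F : Finset α → α → ℝ≥0∞) (W : Finset α) (s : ℝ) : ℝ≥0∞ :=
  ∑' a : {a | Y.Exp W a s}, F W a

omit [MeasurableSpace α] in
theorem cnt_mono (Y : Sys α S) (F : Finset α → α → ℝ≥0∞) (W : Finset α) :
    Monotone (Cnt Y F W) := fun _ _ hst =>
  ENNReal.tsum_mono_subtype (F W) fun _ h => Sys.Exp.mono h hst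

omit [MeasurableSpace α] in
open Classical in
theorem cnt_eq_sum (Y : Sys α S) (F : Finset α → α → ℝ≥0∞) (W : Finset α) (s : ℝ) :
    Cnt Y F W s = ∑ a ∈ W with Y.Exp W a s, F W a := by
  unfold Cnt
  rw [tsum_subtype {a | Y.Exp W a s} (F W), tsum_eq_sum (s := W.filter fun a => Y.Exp W a s)]
  · refine Finset.sum_congr rfl fun a ha => ?_
    exact indicator_of_mem (s := {a | Y.Exp W a s}) (Finset.mem_filter.1 ha).2 _
  · intro a ha
    refine indicator_of_notMem (fun h => ha ?_) _
    exact Finset.mem_filter.2 ⟨Sys.Exp.mem h, h⟩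

theorem inc_cnt [MeasurableEq α] (hY : MSys Y) (hF : MWt F)
    (hW : RS fun x => (W x : Set α)) : Inc fun x s => Cnt Y F (W x) s where
  mono x := cnt_mono Y F (W x)
  meas := by
    have hW' : RS fun p : X × ℝ => (W p.1 : Set α) := hW.comp measurable_fst
    have h1 : Measurable fun q : (X × ℝ) × α => F (W q.1.1) q.2 :=
      hF.meas (hW'.comp (measurable_fst (α := X × ℝ) (β := α))) measurable_snd
    exact hY.measurable_sum_exp hW' measurable_snd h1

/-- The first exposure time. -/
def firstE (Y : Sys α S) (W : Finset α) (a : α) : ℝ := (hT {s | Y.Exp W a s}).toReal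

theorem measurable_firstE (hY : MSys Y) (hW : RS fun x => (W x : Set α)) {f : X → α}
    (hf : Measurable f) : Measurable fun x => firstE Y (W x) (f x) :=
  (hY.measurable_firstExp hW hf).ereal_toReal

end exposed

/-! ### Random worlds -/

section worlds

variable {X : Type*} [MeasurableSpace X] {α : Type*} [MeasurableSpace α] {W W' : X → Finset α}

theorem rs_insert [DecidableEq α] (hW : RS fun x => (W x : Set α)) {f : X → α}
    (hf : Measurable f) : RS fun x => ((insert (f x) (W x) : Finset α) : Set α) :=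
  (RS.insert hW hf).congr fun _ => Finset.coe_insert _ _

theorem rs_union [DecidableEq α] (hW : RS fun x => (W x : Set α))
    (hW' : RS fun x => (W' x : Set α)) : RS fun x => ((W x ∪ W' x : Finset α) : Set α) :=
  (hW.union hW').congr fun _ => Finset.coe_union _ _

theorem rs_sdiff [DecidableEq α] [MeasurableEq α] (hW : RS fun x => (W x : Set α))
    (hW' : RS fun x => (W' x : Set α)) : RS fun x => ((W x \ W' x : Finset α) : Set α) :=
  (hW.sdiff hW').congr fun _ => Finset.coe_sdiff _ _

theorem rs_filter {P : Set (X × α)} (hP : MeasurableSet P) (hW : RS fun x => (W x : Set α))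
    [∀ x, DecidablePred fun a => (x, a) ∈ P] :
    RS fun x => (((W x).filter fun a => (x, a) ∈ P : Finset α) : Set α) :=
  (hW.inter_pred hP).congr fun x => by
    ext a
    simp only [Finset.coe_filter, mem_ofPred_eq, Finset.mem_coe]

theorem rs_singleton {f : X → α} (hf : Measurable f) :
    RS fun x => (({f x} : Finset α) : Set α) :=
  (RS.singleton hf).congr fun _ => Finset.coe_singleton _

/-- The ordinary world of a configuration. -/
theorem rs_wS {c : X → GC.Conf Ph} (hc : Measurable c) :
    RS fun x => ((AU.wS (GC.pts (c x)) : Finset Src) : Set Src) :=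
  (RS.world_pts hc).congr fun _ => AU.coe_wS _

end worlds

/-- The world without the leaves of a tree. -/
def wout (W : Finset Src) (T : CTree) : Finset Src := by
  classical exact W.filter fun a => a ∉ T.leaves

theorem mem_wout {W : Finset Src} {T : CTree} {a : Src} : a ∈ wout W T ↔ a ∈ W ∧ a ∉ T.leaves := by
  classical
  unfold wout
  rw [Finset.mem_filter]

theorem coe_wout (W : Finset Src) (T : CTree) : (wout W T : Set Src) = (W : Set Src) \ T.leaves := by
  ext a
  rw [Finset.mem_coe, mem_wout, Set.mem_sdiff, Finset.mem_coe]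

theorem rs_wout {X : Type*} [MeasurableSpace X] {W : X → Finset Src} {T : X → CTree}
    (hW : RS fun x => (W x : Set Src)) (hT : Measurable T) :
    RS fun x => ((wout (W x) (T x) : Finset Src) : Set Src) :=
  (RS.sdiff_leaves hW hT).congr fun _ => coe_wout _ _

/-! ### Felt trees -/

section felt

variable {Φ : E3 → ℝ} {ε : ℝ} {L : ℕ} {S : Type} {Y : Sys Src S} {F : Finset Src → CTree → ℝ≥0∞}
  {X : Type} [MeasurableSpace X] {W : X → Finset Src} {t : X → ℝ}

/-- **The felt trees** of the world `W` at time `s`. -/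
def Felt (Φ : E3 → ℝ) (ε : ℝ) (L : ℕ) (Y : Sys Src S) (W : Finset Src) (s : ℝ) : Set CTree :=
  {T | T.leaves ⊆ W ∧ CTree.ext Φ ε T ≤ s ∧ M.alive Φ ε L (W : Set Src) T (CTree.ext Φ ε T) ∧
    ¬Y.Exp W T.root (CTree.ext Φ ε T) ∧ Y.Touch (wout W T) W s}

theorem felt_mono {W : Finset Src} {s t : ℝ} (hst : s ≤ t) :
    Felt Φ ε L Y W s ⊆ Felt Φ ε L Y W t := fun _ ⟨h1, h2, h3, h4, h5⟩ =>
  ⟨h1, h2.trans hst, h3, h4, Sys.Touch.mono h5 hst⟩

theorem rs_felt (hΦ : IsPotential Φ) (hε : 0 < ε) (hY : MSys Y)
    (hW : RS fun x => (W x : Set Src)) (ht : Measurable t) :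
    RS fun x => Felt Φ ε L Y (W x) (t x) := by
  have hW' : RS fun p : X × CTree => (W p.1 : Set Src) := hW.comp measurable_fst
  have ht' : Measurable fun p : X × CTree => t p.1 := ht.comp measurable_fst
  have hext : Measurable fun p : X × CTree => CTree.ext Φ ε p.2 := meas_ext hΦ hε.ne' measurable_snd
  have h1 : MeasurableSet {p : X × CTree | CTree.ext Φ ε p.2 ≤ t p.1} := measurableSet_le hext ht'
  have h2 : MeasurableSet {p : X × CTree |
      M.alive Φ ε L (W p.1 : Set Src) p.2 (CTree.ext Φ ε p.2)} :=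
    measurableSet_tree_alive hΦ hε hW' measurable_snd hext
  have h3 : MeasurableSet {p : X × CTree | Y.Exp (W p.1) p.2.root (CTree.ext Φ ε p.2)} :=
    hY.measurableSet_exp hW' (meas_root measurable_snd) hext
  have h4 : MeasurableSet {p : X × CTree | Y.Touch (wout (W p.1) p.2) (W p.1) (t p.1)} :=
    hY.measurableSet_touch (rs_wout hW' measurable_snd) hW' ht'
  refine ((RS.trees hW).inter_pred (h1.inter (h2.inter (h3.compl.inter h4)))).congr fun x => ?_
  ext T
  simp only [Felt, mem_ofPred_eq, mem_inter_iff, mem_compl_iff]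

/-- The sum of the weights of the felt trees. -/
def FCnt (Φ : E3 → ℝ) (ε : ℝ) (L : ℕ) (Y : Sys Src S) (F : Finset Src → CTree → ℝ≥0∞)
    (W : Finset Src) (s : ℝ) : ℝ≥0∞ := ∑' T : Felt Φ ε L Y W s, F W T

theorem fcnt_mono (F : Finset Src → CTree → ℝ≥0∞) (W : Finset Src) :
    Monotone (FCnt Φ ε L Y F W) := fun _ _ hst =>
  ENNReal.tsum_mono_subtype (F W) (felt_mono hst)

theorem inc_fcnt (hΦ : IsPotential Φ) (hε : 0 < ε) (hY : MSys Y) (hF : MWt F)
    (hW : RS fun x => (W x : Set Src)) : Inc fun x s => FCnt Φ ε L Y F (W x) s where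
  mono x := fcnt_mono F (W x)
  meas := by
    have hW' : RS fun p : X × ℝ => (W p.1 : Set Src) := hW.comp measurable_fst
    have h1 : Measurable fun q : (X × ℝ) × CTree => F (W q.1.1) q.2 :=
      hF.meas (hW'.comp (measurable_fst (α := X × ℝ) (β := CTree))) measurable_snd
    exact (rs_felt hΦ hε hY hW' measurable_snd (L := L)).measurable_tsum h1

theorem measurable_lnv (hΦ : IsPotential Φ) (hε : 0 < ε) :
    Measurable fun T : CTree => ENNReal.ofReal (1 + ‖(CTree.ln Φ ε T).2‖) :=
  (measurable_const.add (measurable_snd.comp (meas_ln hΦ hε.ne' measurable_id)).norm).ennreal_ofReal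

end felt

end Vale.Agent.P119.RM
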