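import Vale.Agent.P119.RM.NI
import Vale.Agent.P119.IND.Good
import Vale.Agent.P119.PB.Felt

/-!
# P119: measurability of the good events (`helper758`)

* `SC.not_same`, `SC.same`: the two worlds of a label are (are not) the same up to a time;
* `measurableSet_NI1`, `measurableSet_NI2` (`helper810`), `measurableSet_IGood`,
  `measurableSet_IGood_rs` (random finite index set);
* `mgood_iff`, `measurableSet_MGood`, `measurableSet_MGood_rs` (`helper472`);
* `measurableSet_GoodT` (`helper423`).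
-/

open MeasureTheory Filter Topology Set
open scoped ENNReal

noncomputable section

namespace Vale.Agent.P119.RM

open KU M CTree MM FB IND

variable {Φ : E3 → ℝ} {ε : ℝ} {L : ℕ}

section same

variable {X : Type*} [MeasurableSpace X] {V A B : X → Set Src} {f : X → Src} {t : X → ℝ}

theorem not_same_iff {W₁ W₂ : Set Src} {a : Src} {t : ℝ} :
    ¬Same Φ ε L W₁ W₂ a t ↔ (a ∈ W₁ ∧ a ∉ W₂) ∨ (a ∉ W₁ ∧ a ∈ W₂) ∨
      ∃ r ≤ t, stat Φ ε L W₁ a r ≠ stat Φ ε L W₂ a r := by
  unfold Same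
  constructor
  · intro h
    by_contra hcon
    push Not at hcon
    obtain ⟨h1, h2, h3⟩ := hcon
    exact h ⟨⟨h1, fun h4 => by_contra fun h5 => h2 h5 h4⟩, h3⟩
  · rintro h ⟨h1, h2⟩
    rcases h with h | h | ⟨r, hr, h⟩
    · exact h.2 (h1.1 h.1)
    · exact h.1 (h1.2 h.2)
    · exact h (h2 r hr)

theorem SC.not_same (hΦ : IsPotential Φ) (hε : 0 < ε) (hA : RS A) (fA : ∀ x, (A x).Finite)
    (hB : RS B) (fB : ∀ x, (B x).Finite) (hf : Measurable f) :
    SC fun x => {s | ¬Same Φ ε L (A x) (B x) (f x) s} := by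
  have m0 := hA.measurableSet_mem_of hf
  have m1 := hB.measurableSet_mem_of hf
  refine ((SC.cond (m0.inter m1.compl)).or ((SC.cond (m0.compl.inter m1)).or
    (SC.up (SC.rs_stat_ne hΦ hε hA fA hB fB hf (L := L))))).congr fun x s => ?_
  exact not_same_iff

theorem SC.same (hΦ : IsPotential Φ) (hε : 0 < ε) (hA : RS A) (fA : ∀ x, (A x).Finite)
    (hB : RS B) (fB : ∀ x, (B x).Finite) (hf : Measurable f) :
    SC fun x => {s | Same Φ ε L (A x) (B x) (f x) s} := by
  refine (SC.compl_up (SC.not_same hΦ hε hA fA hB fB hf (L := L))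
    fun _ _ _ h hst h' => h (h'.mono hst)).congr fun x s => ?_
  exact not_not.symm

theorem measurableSet_same (hΦ : IsPotential Φ) (hε : 0 < ε) (hA : RS A)
    (fA : ∀ x, (A x).Finite) (hB : RS B) (fB : ∀ x, (B x).Finite) (hf : Measurable f)
    (ht : Measurable t) : MeasurableSet {x | Same Φ ε L (A x) (B x) (f x) (t x)} :=
  (SC.same hΦ hε hA fA hB fB hf).mem ht

/-- **One inserted set.** -/
theorem measurableSet_NI1 (hΦ : IsPotential Φ) (hε : 0 < ε) (hV : RS V)
    (fV : ∀ x, (V x).Finite) (hA : RS A) (fA : ∀ x, (A x).Finite) (ht : Measurable t) :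
    MeasurableSet {x | NI1 Φ ε L (V x) (A x) (t x)} := by
  have hVA : RS fun x => V x ∪ A x := hV.union hA
  have fVA : ∀ x, (V x ∪ A x).Finite := fun x => (fV x).union (fA x)
  have hbad : MeasurableSet {x | ∃ a b s, s ≤ t x ∧
      (Same Φ ε L (V x) (V x ∪ A x) a s ∧ ¬Same Φ ε L (V x) (V x ∪ A x) b s ∧
      ((stat Φ ε L (V x) a s ≠ none ∧ RB.mcon Φ ε L (V x) s a b) ∨
        (stat Φ ε L (V x ∪ A x) a s ≠ none ∧ RB.mcon Φ ε L (V x ∪ A x) s a b)))} := by
    refine measurableSet_exists_pair (E := fun x a b => {s |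
      Same Φ ε L (V x) (V x ∪ A x) a s ∧ ¬Same Φ ε L (V x) (V x ∪ A x) b s ∧
      ((stat Φ ε L (V x) a s ≠ none ∧ RB.mcon Φ ε L (V x) s a b) ∨
        (stat Φ ε L (V x ∪ A x) a s ≠ none ∧ RB.mcon Φ ε L (V x ∪ A x) s a b))}) hVA hVA ht
      ?_ ?_ ?_
    · have ha : Measurable fun q : (X × Src) × Src => q.1.2 := measurable_fst.snd
      have hb : Measurable fun q : (X × Src) × Src => q.2 := measurable_snd
      have hx : Measurable fun q : (X × Src) × Src => q.1.1 := measurable_fst.fst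
      exact (SC.same hΦ hε (hV.comp hx) (fun q => fV _) (hVA.comp hx) (fun q => fVA _) ha).and
        ((SC.not_same hΦ hε (hV.comp hx) (fun q => fV _) (hVA.comp hx) (fun q => fVA _) hb).and
        (((SC.rs_stat_ne_none hΦ hε (hV.comp hx) (fun q => fV _) ha).and
          (SC.mcon hΦ hε (hV.comp hx) ha hb)).or
        ((SC.rs_stat_ne_none hΦ hε (hVA.comp hx) (fun q => fVA _) ha).and
          (SC.mcon hΦ hε (hVA.comp hx) ha hb))))
    · rintro x a b s ⟨-, -, ⟨-, h⟩ | ⟨-, h⟩⟩
      · exact Or.inl h.mem.1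
      · exact h.mem.1
    · rintro x a b s ⟨-, -, ⟨-, h⟩ | ⟨-, h⟩⟩
      · exact Or.inl h.mem.2
      · exact h.mem.2
  convert (hV.measurableSet_disjoint hA).inter hbad.compl using 1
  ext x
  simp only [mem_ofPred_eq, mem_inter_iff, mem_compl_iff]
  constructor
  · intro h
    refine ⟨h.disj, ?_⟩
    rintro ⟨a, b, s, hs, h1, h2, ⟨h3, h4⟩ | ⟨h3, h4⟩⟩
    · exact (h.nobad s hs a b h1 h2).1 h3 h4
    · exact (h.nobad s hs a b h1 h2).2 h3 h4
  · rintro ⟨h1, h2⟩
    exact ⟨h1, fun s hs a b h3 h4 => ⟨fun h5 h6 => h2 ⟨a, b, s, hs, h3, h4, Or.inl ⟨h5, h6⟩⟩,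
      fun h5 h6 => h2 ⟨a, b, s, hs, h3, h4, Or.inr ⟨h5, h6⟩⟩⟩⟩

/-- **Two inserted sets.** -/
theorem measurableSet_NI2 (hΦ : IsPotential Φ) (hε : 0 < ε) (hV : RS V)
    (fV : ∀ x, (V x).Finite) (hA : RS A) (fA : ∀ x, (A x).Finite) (hB : RS B)
    (fB : ∀ x, (B x).Finite) (ht : Measurable t) :
    MeasurableSet {x | NI2 Φ ε L (V x) (A x) (B x) (t x)} := by
  have hVA : RS fun x => V x ∪ A x := hV.union hA
  have fVA : ∀ x, (V x ∪ A x).Finite := fun x => (fV x).union (fA x)
  have hVB : RS fun x => V x ∪ B x := hV.union hB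
  have fVB : ∀ x, (V x ∪ B x).Finite := fun x => (fV x).union (fB x)
  -- membership of the trees
  have sl : ∀ {x : X} {C : Set Src} {T : CTree} {s : ℝ},
      ¬(live Φ ε L (V x) T s ↔ live Φ ε L (V x ∪ C) T s) → T.leaves ⊆ V x ∪ C := by
    intro x C T s h
    by_cases h3 : live Φ ε L (V x) T s
    · exact h3.sub.trans subset_union_left
    · have h4 : live Φ ε L (V x ∪ C) T s := by tauto
      exact h4.sub
  have sa : ∀ {x : X} {C : Set Src} {T : CTree} {s : ℝ},
      ¬(alive Φ ε L (V x) T s ↔ alive Φ ε L (V x ∪ C) T s) → T.leaves ⊆ V x ∪ C := by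
    intro x C T s h
    by_cases h3 : alive Φ ε L (V x) T s
    · exact (alive_pre h3).sub.trans subset_union_left
    · have h4 : alive Φ ε L (V x ∪ C) T s := by tauto
      exact (alive_pre h4).sub
  have hbad1 : MeasurableSet {x | ∃ T T' s, s ≤ t x ∧
      (¬(live Φ ε L (V x) T s ↔ live Φ ε L (V x ∪ A x) T s) ∧
      ¬(alive Φ ε L (V x) T' s ↔ alive Φ ε L (V x ∪ B x) T' s) ∧ hit Φ ε T T' s)} := by
    refine measurableSet_exists_pair (E := fun x T T' => {s |
      ¬(live Φ ε L (V x) T s ↔ live Φ ε L (V x ∪ A x) T s) ∧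
      ¬(alive Φ ε L (V x) T' s ↔ alive Φ ε L (V x ∪ B x) T' s) ∧ hit Φ ε T T' s})
      hVA.trees hVB.trees ht ?_ (fun x T T' s h => sl h.1) (fun x T T' s h => sa h.2.1)
    have hT : Measurable fun q : (X × CTree) × CTree => q.1.2 := measurable_fst.snd
    have hT' : Measurable fun q : (X × CTree) × CTree => q.2 := measurable_snd
    have hx : Measurable fun q : (X × CTree) × CTree => q.1.1 := measurable_fst.fst
    exact (SC.tree_ne_live hΦ hε (hV.comp hx) (hVA.comp hx) hT).and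
      ((SC.tree_ne_alive hΦ hε (hV.comp hx) (fun q => fV _) (hVB.comp hx)
        (fun q => fVB _) hT').and (SC.tree_hit hΦ hε.ne' hT hT'))
  have hbad2 : MeasurableSet {x | ∃ T T₁ T₂ s, s ≤ t x ∧
      (live Φ ε L (V x) T s ∧
      ¬(alive Φ ε L (V x) T₁ s ↔ alive Φ ε L (V x ∪ A x) T₁ s) ∧
      ¬(alive Φ ε L (V x) T₂ s ↔ alive Φ ε L (V x ∪ B x) T₂ s) ∧
      hit Φ ε T T₁ s ∧ hit Φ ε T T₂ s)} := by
    refine measurableSet_exists_triple (E := fun x T T₁ T₂ => {s |
      live Φ ε L (V x) T s ∧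
      ¬(alive Φ ε L (V x) T₁ s ↔ alive Φ ε L (V x ∪ A x) T₁ s) ∧
      ¬(alive Φ ε L (V x) T₂ s ↔ alive Φ ε L (V x ∪ B x) T₂ s) ∧
      hit Φ ε T T₁ s ∧ hit Φ ε T T₂ s})
      hV.trees hVA.trees hVB.trees ht ?_ (fun x T T₁ T₂ s h => h.1.sub)
      (fun x T T₁ T₂ s h => sa h.2.1) (fun x T T₁ T₂ s h => sa h.2.2.1)
    have hT : Measurable fun q : ((X × CTree) × CTree) × CTree => q.1.1.2 :=
      measurable_fst.fst.snd
    have hT₁ : Measurable fun q : ((X × CTree) × CTree) × CTree => q.1.2 := measurable_fst.snd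
    have hT₂ : Measurable fun q : ((X × CTree) × CTree) × CTree => q.2 := measurable_snd
    have hx : Measurable fun q : ((X × CTree) × CTree) × CTree => q.1.1.1 :=
      measurable_fst.fst.fst
    exact (SC.tree_live hΦ hε (hV.comp hx) hT).and
      ((SC.tree_ne_alive hΦ hε (hV.comp hx) (fun q => fV _) (hVA.comp hx)
        (fun q => fVA _) hT₁).and
      ((SC.tree_ne_alive hΦ hε (hV.comp hx) (fun q => fV _) (hVB.comp hx)
        (fun q => fVB _) hT₂).and
      ((SC.tree_hit hΦ hε.ne' hT hT₁).and (SC.tree_hit hΦ hε.ne' hT hT₂))))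
  have hbad3 : ∀ W W' : X → Set Src, RS W → RS W' → MeasurableSet {x | ∃ T T' s, s ≤ t x ∧
      (T.root ≠ T'.root ∧ ¬Same Φ ε L (V x) (V x ∪ A x) T.root s ∧
      ¬Same Φ ε L (V x) (V x ∪ B x) T'.root s ∧
      live Φ ε L (W x) T s ∧ live Φ ε L (W' x) T' s ∧ Ctc ε (st Φ ε T s) (st Φ ε T' s))} := by
    intro W W' hW hW'
    refine measurableSet_exists_pair (E := fun x T T' => {s |
      T.root ≠ T'.root ∧ ¬Same Φ ε L (V x) (V x ∪ A x) T.root s ∧
      ¬Same Φ ε L (V x) (V x ∪ B x) T'.root s ∧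
      live Φ ε L (W x) T s ∧ live Φ ε L (W' x) T' s ∧ Ctc ε (st Φ ε T s) (st Φ ε T' s)})
      hW.trees hW'.trees ht ?_ (fun x T T' s h => h.2.2.2.1.sub)
      (fun x T T' s h => h.2.2.2.2.1.sub)
    have hT : Measurable fun q : (X × CTree) × CTree => q.1.2 := measurable_fst.snd
    have hT' : Measurable fun q : (X × CTree) × CTree => q.2 := measurable_snd
    have hx : Measurable fun q : (X × CTree) × CTree => q.1.1 := measurable_fst.fst
    exact (SC.cond (measurableSet_src_eq (meas_root hT) (meas_root hT')).compl).and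
      ((SC.not_same hΦ hε (hV.comp hx) (fun q => fV _) (hVA.comp hx) (fun q => fVA _)
        (meas_root hT)).and
      ((SC.not_same hΦ hε (hV.comp hx) (fun q => fV _) (hVB.comp hx) (fun q => fVB _)
        (meas_root hT')).and
      ((SC.tree_live hΦ hε (hW.comp hx) hT).and ((SC.tree_live hΦ hε (hW'.comp hx) hT').and
        (SC.path_ctc (MPath.tree hΦ hε hT) (MPath.tree hΦ hε hT'))))))
  convert (hA.measurableSet_disjoint hB).inter (hbad1.compl.inter (hbad2.compl.inter
    ((((hbad3 _ _ hV hV).union (hbad3 _ _ hV hVB)).union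
      ((hbad3 _ _ hVA hV).union (hbad3 _ _ hVA hVB))).compl))) using 1
  ext x
  simp only [mem_ofPred_eq, mem_inter_iff, mem_compl_iff, mem_union]
  constructor
  · intro h
    refine ⟨h.disj, ?_, ?_, ?_⟩
    · rintro ⟨T, T', s, hs, h1, h2, h3⟩
      exact h.nohit s hs T T' h1 h2 h3
    · rintro ⟨T, T₁, T₂, s, hs, h1, h2, h3, h4, h5⟩
      exact h.notie s hs T T₁ T₂ h1 h2 h3 h4 h5
    · have key : ∀ W W' : Set Src, (W = V x ∨ W = V x ∪ A x) → (W' = V x ∨ W' = V x ∪ B x) →
          ¬∃ T T' s, s ≤ t x ∧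
          (T.root ≠ T'.root ∧ ¬Same Φ ε L (V x) (V x ∪ A x) T.root s ∧
          ¬Same Φ ε L (V x) (V x ∪ B x) T'.root s ∧
          live Φ ε L W T s ∧ live Φ ε L W' T' s ∧ Ctc ε (st Φ ε T s) (st Φ ε T' s)) := by
        rintro W W' hW hW' ⟨T, T', s, hs, h1, h2, h3, h4, h5, h6⟩
        exact h.nocon s hs _ _ h1 h2 h3 W W' hW hW' T T' rfl rfl h4 h5 h6
      rintro ((h1 | h1) | (h1 | h1))
      · exact key _ _ (Or.inl rfl) (Or.inl rfl) h1
      · exact key _ _ (Or.inl rfl) (Or.inr rfl) h1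
      · exact key _ _ (Or.inr rfl) (Or.inl rfl) h1
      · exact key _ _ (Or.inr rfl) (Or.inr rfl) h1
  · rintro ⟨h1, h2, h3, h4⟩
    refine ⟨h1, fun s hs T T' g1 g2 g3 => h2 ⟨T, T', s, hs, g1, g2, g3⟩,
      fun s hs T T₁ T₂ g1 g2 g3 g4 g5 => h3 ⟨T, T₁, T₂, s, hs, g1, g2, g3, g4, g5⟩, ?_⟩
    rintro s hs a b hab ha hb W W' hW hW' T T' rfl rfl g1 g2 g3
    rcases hW with rfl | rfl <;> rcases hW' with rfl | rfl
    · exact h4 (Or.inl (Or.inl ⟨T, T', s, hs, hab, ha, hb, g1, g2, g3⟩))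
    · exact h4 (Or.inl (Or.inr ⟨T, T', s, hs, hab, ha, hb, g1, g2, g3⟩))
    · exact h4 (Or.inr (Or.inl ⟨T, T', s, hs, hab, ha, hb, g1, g2, g3⟩))
    · exact h4 (Or.inr (Or.inr ⟨T, T', s, hs, hab, ha, hb, g1, g2, g3⟩))

end same

/-! ### The good events -/

section good

variable {X : Type*} [MeasurableSpace X] {t : X → ℝ}

/-- **The good event, fixed index set.** -/
theorem measurableSet_IGood (hΦ : IsPotential Φ) (hε : 0 < ε) {ι : Type*} {V : X → Set Src}
    {Z : X → ι → Set Src} {K : Finset ι} (hV : RS V) (fV : ∀ x, (V x).Finite)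
    (hZ : ∀ i ∈ K, RS fun x => Z x i) (fZ : ∀ i ∈ K, ∀ x, (Z x i).Finite) (ht : Measurable t) :
    MeasurableSet {x | IGood Φ ε L (V x) (Z x) K (t x)} := by
  classical
  have h1 : MeasurableSet (⋂ i ∈ K, {x | NI1 Φ ε L (V x) (Z x i) (t x)}) :=
    K.measurableSet_biInter fun i hi => measurableSet_NI1 hΦ hε hV fV (hZ i hi) (fZ i hi) ht
  have h2 : MeasurableSet (⋂ i ∈ K, ⋂ j ∈ K, {x | i ≠ j →
      NI2 Φ ε L (V x) (Z x i) (Z x j) (t x)}) := by
    refine K.measurableSet_biInter fun i hi => K.measurableSet_biInter fun j hj => ?_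
    by_cases hij : i = j
    · simp [hij]
    · simp only [ne_eq, hij, not_false_eq_true, true_implies]
      exact measurableSet_NI2 hΦ hε hV fV (hZ i hi) (fZ i hi) (hZ j hj) (fZ j hj) ht
  convert h1.inter h2 using 1
  ext x
  simp only [mem_ofPred_eq, mem_iInter, mem_inter_iff]
  exact ⟨fun h => ⟨h.one, h.two⟩, fun h => ⟨h.1, h.2⟩⟩

/-- **The good event, random index set.** -/
theorem measurableSet_IGood_rs (hΦ : IsPotential Φ) (hε : 0 < ε) {ι : Type*}
    [MeasurableSpace ι] [MeasurableEq ι] {V : X → Set Src} {Z : X → ι → Set Src}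
    {K : X → Finset ι} (hV : RS V) (fV : ∀ x, (V x).Finite)
    (hZ : RS fun p : X × ι => Z p.1 p.2) (fZ : ∀ x i, (Z x i).Finite)
    (hK : RS fun x => (K x : Set ι)) (ht : Measurable t) :
    MeasurableSet {x | IGood Φ ε L (V x) (Z x) (K x) (t x)} := by
  have h1 : MeasurableSet {p : X × ι | NI1 Φ ε L (V p.1) (Z p.1 p.2) (t p.1)} :=
    measurableSet_NI1 hΦ hε (hV.comp measurable_fst) (fun p => fV _) hZ (fun p => fZ _ _)
      (ht.comp measurable_fst)
  have h2 : MeasurableSet {p : (X × ι) × ι | p.1.2 ≠ p.2 →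
      NI2 Φ ε L (V p.1.1) (Z p.1.1 p.1.2) (Z p.1.1 p.2) (t p.1.1)} := by
    have hi : Measurable fun p : (X × ι) × ι => (p.1.1, p.1.2) := measurable_fst
    have hj : Measurable fun p : (X × ι) × ι => (p.1.1, p.2) :=
      measurable_fst.fst.prodMk measurable_snd
    have h3 := measurableSet_NI2 (L := L) hΦ hε
      (hV.comp (measurable_fst.fst : Measurable fun p : (X × ι) × ι => p.1.1)) (fun p => fV _)
      (hZ.comp hi) (fun p => fZ _ _) (hZ.comp hj) (fun p => fZ _ _) (ht.comp measurable_fst.fst)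
    have h4 : MeasurableSet {p : (X × ι) × ι | p.1.2 = p.2} :=
      measurableSet_eq_fun measurable_fst.snd measurable_snd
    convert h4.union h3 using 1
    ext p
    simp only [mem_ofPred_eq, mem_union]
    tauto
  have h5 := (hK.comp (measurable_fst (α := X) (β := ι))).measurableSet_forall h2
  have h6 := hK.measurableSet_forall h5
  have h7 := hK.measurableSet_forall h1
  convert h7.inter h6 using 1
  ext x
  simp only [mem_ofPred_eq, mem_inter_iff]
  exact ⟨fun h => ⟨h.one, h.two⟩, fun h => ⟨h.1, h.2⟩⟩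

/-- The two good events are the same. -/
theorem mgood_iff {ι : Type*} {V : Finset Src} {Z : ι → Finset Src} {K : Finset ι} {t : ℝ} :
    M.Good Φ ε L V Z K t ↔ (∀ a ∈ V, 0 ≤ a.1 ∧ a.2.2 ≤ L) ∧
      (∀ i ∈ K, ∀ a ∈ Z i, 0 ≤ a.1 ∧ a.2.2 ≤ L) ∧
      IGood Φ ε L (V : Set Src) (fun i => (Z i : Set Src)) K t := by
  constructor
  · intro h
    have e0 : (wF V Z ∅ : Set Src) = (V : Set Src) := by rw [wF_empty]
    have e1 : ∀ i, (wF V Z {i} : Set Src) = (V : Set Src) ∪ (Z i : Set Src) := fun i =>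
      coe_wF_singleton
    refine ⟨h.birthV, h.birth, fun i hi => ⟨Finset.disjoint_coe.2 (h.disjV i hi), ?_⟩,
      fun i hi j hj hij => ⟨Finset.disjoint_coe.2 (h.disj i hi j hj hij), ?_, ?_, ?_⟩⟩
    · intro s hs a b h1 h2
      have ha : ¬altd Φ ε L (fun J => (wF V Z J : Set Src)) i a s := by
        unfold altd
        rw [not_not]
        beta_reduce
        rw [e0, e1]
        exact h1
      have hb : altd Φ ε L (fun J => (wF V Z J : Set Src)) i b s := by
        unfold altd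
        beta_reduce
        rw [e0, e1]
        exact h2
      have k := h.nib.nobad i hi s hs a b ha hb
      refine ⟨fun h3 h4 => ?_, fun h3 h4 => ?_⟩
      · have k1 := k ∅ (Finset.empty_subset _)
        beta_reduce at k1
        rw [e0] at k1
        exact k1 h3 h4
      · have k1 := k {i} (Finset.Subset.refl _)
        beta_reduce at k1
        rw [e1] at k1
        exact k1 h3 h4
    · intro s hs T T' h1 h2 h3
      refine h.ni.nohit i hi j hj hij s hs T T' ?_ ?_ h3
      · rw [e0, e1]; exact h1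
      · rw [e0, e1]; exact h2
    · intro s hs T T₁ T₂ h0 h1 h2 h3 h4
      refine h.ni.notie i hi j hj hij s hs T T₁ T₂ ?_ ?_ ?_ h3 h4
      · rw [e0]; exact h0
      · rw [e0, e1]; exact h1
      · rw [e0, e1]; exact h2
    · intro s hs a b hab h1 h2 W W' hW hW' T T' hT hT' h3 h4 h5
      have ha : altd Φ ε L (fun J => (wF V Z J : Set Src)) i a s := by
        unfold altd
        beta_reduce
        rw [e0, e1]
        exact h1
      have hb : altd Φ ε L (fun J => (wF V Z J : Set Src)) j b s := by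
        unfold altd
        beta_reduce
        rw [e0, e1]
        exact h2
      have k := h.nib.nocon i hi j hj hij s hs a b hab ha hb
      have kI : ∀ (l : ι) (U : Set Src), (U = (V : Set Src) ∨ U = (V : Set Src) ∪ (Z l : Set Src)) →
          ∃ I ⊆ ({l} : Finset ι), (wF V Z I : Set Src) = U := by
        rintro l U (rfl | rfl)
        · exact ⟨∅, Finset.empty_subset _, e0⟩
        · exact ⟨{l}, Finset.Subset.refl _, e1 l⟩
      obtain ⟨I, hI, eI⟩ := kI i W hW
      obtain ⟨J, hJ, eJ⟩ := kI j W' hW'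
      refine k I hI J hJ T T' hT hT' ?_ ?_ h5
      · rw [eI]; exact h3
      · rw [eJ]; exact h4
  · rintro ⟨h1, h2, h3⟩
    exact h3.good h1 h2

/-- A measurable condition on the births and depths. -/
theorem measurableSet_births {V : X → Set Src} (hV : RS V) :
    MeasurableSet {x | ∀ a ∈ V x, 0 ≤ a.1 ∧ a.2.2 ≤ L} := by
  have h : MeasurableSet {p : X × Src | 0 ≤ p.2.1 ∧ p.2.2.2 ≤ L} :=
    (measurableSet_le measurable_const measurable_snd.fst).inter
      (measurable_snd.snd.snd (measurableSet_Iic (a := L)))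
  exact hV.measurableSet_forall h

/-- **The good event of `helper472`, fixed index set.** -/
theorem measurableSet_MGood (hΦ : IsPotential Φ) (hε : 0 < ε) {ι : Type*} {V : X → Finset Src}
    {Z : X → ι → Finset Src} {K : Finset ι} (hV : RS fun x => (V x : Set Src))
    (hZ : ∀ i ∈ K, RS fun x => (Z x i : Set Src)) (ht : Measurable t) :
    MeasurableSet {x | M.Good Φ ε L (V x) (Z x) K (t x)} := by
  classical
  simp only [mgood_iff]
  have h1 : MeasurableSet {x | ∀ i ∈ K, ∀ a ∈ Z x i, 0 ≤ a.1 ∧ a.2.2 ≤ L} := by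
    have e : {x | ∀ i ∈ K, ∀ a ∈ Z x i, 0 ≤ a.1 ∧ a.2.2 ≤ L} =
        ⋂ i ∈ K, {x | ∀ a ∈ (Z x i : Set Src), 0 ≤ a.1 ∧ a.2.2 ≤ L} := by
      ext x
      simp only [mem_ofPred_eq, mem_iInter, Finset.mem_coe]
    rw [e]
    exact K.measurableSet_biInter fun i hi => measurableSet_births (hZ i hi)
  exact (measurableSet_births hV).inter (h1.inter (measurableSet_IGood hΦ hε hV
    (fun x => (V x).finite_toSet) hZ (fun i _ x => (Z x i).finite_toSet) ht))

/-- **The good event of `helper472`, random index set.** -/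
theorem measurableSet_MGood_rs (hΦ : IsPotential Φ) (hε : 0 < ε) {ι : Type*}
    [MeasurableSpace ι] [MeasurableEq ι] {V : X → Finset Src} {Z : X → ι → Finset Src}
    {K : X → Finset ι} (hV : RS fun x => (V x : Set Src))
    (hZ : RS fun p : X × ι => (Z p.1 p.2 : Set Src)) (hK : RS fun x => (K x : Set ι))
    (ht : Measurable t) :
    MeasurableSet {x | M.Good Φ ε L (V x) (Z x) (K x) (t x)} := by
  simp only [mgood_iff]
  have h0 : MeasurableSet {p : X × ι | ∀ a ∈ (Z p.1 p.2 : Set Src), 0 ≤ a.1 ∧ a.2.2 ≤ L} :=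
    measurableSet_births hZ
  have h1 := hK.measurableSet_forall h0
  exact (measurableSet_births hV).inter (h1.inter (measurableSet_IGood_rs hΦ hε hV
    (fun x => (V x).finite_toSet) hZ (fun x i => (Z x i).finite_toSet) hK ht))

end good

/-! ### The lines of a tree (`PB/Felt.lean`) -/

section goodT

variable {X : Type*} [MeasurableSpace X] {U : X → Finset Src} {T : X → CTree} {t : X → ℝ}

theorem rs_srcs (hΦ : IsPotential Φ) (hε : 0 < ε) (hT : Measurable T) :
    RS fun x => (PB.srcs Φ ε (T x) : Set Src) :=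
  ((rs_outs hT).image_of_measurable (M.measurable_rsrc hΦ hε.ne')).congr fun _ => PB.coe_srcs

/-- The sources of the histories are distinct: a measurable event. -/
theorem measurableSet_inj_rsrc (hΦ : IsPotential Φ) (hε : 0 < ε) (hT : Measurable T) :
    MeasurableSet {x | InjOn (rsrc Φ ε) (TL.outs (T x))} := by
  have h1 : MeasurableSet {q : (X × CTree) × CTree |
      rsrc Φ ε q.1.2 = rsrc Φ ε q.2 → q.1.2 = q.2} := by
    have e1 : MeasurableSet {q : (X × CTree) × CTree | rsrc Φ ε q.1.2 = rsrc Φ ε q.2} :=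
      measurableSet_eq_fun ((M.measurable_rsrc hΦ hε.ne').comp measurable_fst.snd)
        ((M.measurable_rsrc hΦ hε.ne').comp measurable_snd)
    have e2 : MeasurableSet {q : (X × CTree) × CTree | q.1.2 = q.2} :=
      measurableSet_eq_fun measurable_fst.snd measurable_snd
    convert e1.compl.union e2 using 1
    ext q
    simp only [mem_ofPred_eq, mem_union, mem_compl_iff]
    tauto
  have h2 := (rs_outs (hT.comp (measurable_fst (α := X) (β := CTree)))).measurableSet_forall h1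
  exact (rs_outs hT).measurableSet_forall h2

/-- **The good event of P3.** -/
theorem measurableSet_GoodT (hΦ : IsPotential Φ) (hε : 0 < ε) (hU : RS fun x => (U x : Set Src))
    (hT : Measurable T) (ht : Measurable t) :
    MeasurableSet {x | PB.GoodT Φ ε L (U x) (T x) (t x)} := by
  have h1 := hU.measurableSet_disjoint (RS.leaves hT)
  have h2 := measurableSet_inj_rsrc hΦ hε hT
  have hZ : RS fun p : X × Src => ((PB.sgl p.2 : Finset Src) : Set Src) := by
    refine (RS.singleton (measurable_snd (α := X) (β := Src))).congr fun p => ?_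
    unfold PB.sgl
    exact Finset.coe_singleton _
  have h3 := measurableSet_MGood_rs (L := L) hΦ hε (V := U) (Z := fun _ => PB.sgl) hU hZ
    (rs_srcs hΦ hε hT) ht
  convert h1.inter (h2.inter h3) using 1
  ext x
  exact ⟨fun h => ⟨h.disj, h.inj, h.good⟩, fun h => ⟨h.1, h.2.1, h.2.2⟩⟩

end goodT

end Vale.Agent.P119.RM
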