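import Vale.Agent.P119.RM.Weight

/-!
# P119: measurability of contacts with the exposed particles (`helper758`)

`P : X → ℝ → Ph` is a path which is measurable in the parameter and continuous in time.  The times
at which it is in contact with the real path of an exposed source, with the M-path of an exposed
source, with the M-path of a random tree, with the line of a member of a random set, are time sets.
-/

open MeasureTheory Filter Topology Set
open scoped ENNReal

noncomputable section

namespace Vale.Agent.P119.RM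

open KU M CTree MM FB

variable {Φ : E3 → ℝ} {ε : ℝ} {L : ℕ}

/-- Random paths. -/
structure MPath {X : Type*} [MeasurableSpace X] (P : X → ℝ → Ph) : Prop where
  meas : ∀ s, Measurable fun x => P x s
  cont : ∀ x, Continuous (P x)

section paths

variable {X Y : Type*} [MeasurableSpace X] [MeasurableSpace Y]

theorem MPath.comp {P : X → ℝ → Ph} (h : MPath P) {g : Y → X} (hg : Measurable g) :
    MPath fun y => P (g y) := ⟨fun s => (h.meas s).comp hg, fun y => h.cont (g y)⟩

/-- Lines. -/
theorem MPath.line {l : X → Ph} (hl : Measurable l) : MPath fun x s => KU.free s (l x) :=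
  ⟨fun _ => measurable_free hl measurable_const, fun _ => continuous_free_time _⟩

/-- Paths of trees. -/
theorem MPath.tree (hΦ : IsPotential Φ) (hε : 0 < ε) {T : X → CTree} (hT : Measurable T) :
    MPath fun x s => CTree.st Φ ε (T x) s :=
  ⟨fun _ => meas_st hΦ hε.ne' hT measurable_const, fun _ => continuous_st hΦ _⟩

/-- Two-body paths. -/
theorem MPath.pair₁ (hΦ : IsPotential Φ) {l l' : X → Ph} (hl : Measurable l)
    (hl' : Measurable l') : MPath fun x s => (pairLine Φ ε (l x, l' x) s).1 := by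
  refine ⟨fun s => ?_, fun x => continuous_fst.comp (continuous_pairLine hΦ _)⟩
  have h1 : Measurable fun x => ((s, (l x, l' x)) : ℝ × (Ph × Ph)) :=
    measurable_const.prodMk (hl.prodMk hl')
  exact ((measurable_pairLine (Φ := Φ) (ε := ε) hΦ).comp h1).fst

theorem MPath.pair₂ (hΦ : IsPotential Φ) {l l' : X → Ph} (hl : Measurable l)
    (hl' : Measurable l') : MPath fun x s => (pairLine Φ ε (l x, l' x) s).2 := by
  refine ⟨fun s => ?_, fun x => continuous_snd.comp (continuous_pairLine hΦ _)⟩
  have h1 : Measurable fun x => ((s, (l x, l' x)) : ℝ × (Ph × Ph)) :=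
    measurable_const.prodMk (hl.prodMk hl')
  exact ((measurable_pairLine (Φ := Φ) (ε := ε) hΦ).comp h1).snd

theorem SC.path_ctc {P Q : X → ℝ → Ph} (hP : MPath P) (hQ : MPath Q) :
    SC fun x => {s | Ctc ε (P x s) (Q x s)} :=
  SC.ctc hP.meas hQ.meas hP.cont hQ.cont

end paths

/-- Real paths. -/
theorem MPath.real (hΦ : IsPotential Φ) (hε : 0 < ε) {X : Type*} [MeasurableSpace X]
    {W : X → Finset Src} (hW : RS fun x => (W x : Set Src)) {f : X → Src} (hf : Measurable f) :
    MPath fun x s => RB.XR Φ ε (W x) s (f x) :=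
  ⟨fun s => RB.measurable_XR hΦ hε hW hf (t := fun _ => s) measurable_const,
    fun _ => RB.XR_continuous hΦ hε _ _⟩

section contact

variable {X : Type} [MeasurableSpace X] {W : X → Finset Src} {P : X → ℝ → Ph}

/-- **Contact with the real path of an exposed source.** -/
theorem SC.ctc_real (hΦ : IsPotential Φ) (hε : 0 < ε) (hW : RS fun x => (W x : Set Src))
    (hP : MPath P) : SC fun x => {r | ∃ b, (RB.Y Φ ε L hΦ hε).Exp (W x) b r ∧
      Ctc ε (P x r) (RB.XR Φ ε (W x) r b)} := by
  have h := SC.exists_mem (A := fun x b => {r | (RB.Y Φ ε L hΦ hε).Exp (W x) b r ∧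
    Ctc ε (P x r) (RB.XR Φ ε (W x) r b)}) hW fun f hf =>
      ((msys_Y hΦ hε).exp hW hf).and (SC.path_ctc hP (MPath.real hΦ hε hW hf))
  refine h.congr fun x r => ?_
  constructor
  · rintro ⟨b, h1, h2⟩
    exact ⟨b, Sys.Exp.mem h1, h1, h2⟩
  · rintro ⟨b, -, h1, h2⟩
    exact ⟨b, h1, h2⟩

/-- **Contact with the M-path of an exposed source.** -/
theorem SC.ctc_ghost (hΦ : IsPotential Φ) (hε : 0 < ε) (hW : RS fun x => (W x : Set Src))
    (hP : MPath P) : SC fun x => {r | ∃ b T, (RB.Y Φ ε L hΦ hε).Exp (W x) b r ∧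
      stat Φ ε L (W x : Set Src) b r = some T ∧ Ctc ε (P x r) (CTree.st Φ ε T r)} := by
  have h := SC.exists_mem (A := fun x b => {r | ∃ T ∈ {T : CTree | T.leaves ⊆ W x},
    r ∈ {r | (RB.Y Φ ε L hΦ hε).Exp (W x) b r ∧
      stat Φ ε L (W x : Set Src) b r = some T ∧ Ctc ε (P x r) (CTree.st Φ ε T r)}}) hW
    fun f hf => SC.exists_mem (A := fun x T => {r | (RB.Y Φ ε L hΦ hε).Exp (W x) (f x) r ∧
      stat Φ ε L (W x : Set Src) (f x) r = some T ∧ Ctc ε (P x r) (CTree.st Φ ε T r)})
      (RS.trees hW) fun T hT => ((msys_Y hΦ hε).exp hW hf).and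
        ((SC.rs_stat_some hΦ hε hW (fun x => (W x).finite_toSet) hf hT).and
          (SC.path_ctc hP (MPath.tree hΦ hε hT)))
  refine h.congr fun x r => ?_
  constructor
  · rintro ⟨b, T, h1, h2, h3⟩
    exact ⟨b, Sys.Exp.mem h1, T,
      ((stat_eq_some_iff hΦ hε (W x).finite_toSet).1 h2).2.sub, h1, h2, h3⟩
  · rintro ⟨b, -, T, -, h1, h2, h3⟩
    exact ⟨b, T, h1, h2, h3⟩

/-- Contact with the M-position of an exposed living source. -/
theorem SC.ctc_mpos (hΦ : IsPotential Φ) (hε : 0 < ε) (hW : RS fun x => (W x : Set Src))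
    (hP : MPath P) : SC fun x => {r | ∃ b, (RB.Y Φ ε L hΦ hε).Exp (W x) b r ∧
      stat Φ ε L (W x : Set Src) b r ≠ none ∧
      Ctc ε (P x r) (mpos Φ ε L (W x : Set Src) b r)} := by
  refine (SC.ctc_ghost hΦ hε hW hP (L := L)).congr fun x r => ?_
  constructor
  · rintro ⟨b, h1, h2, h3⟩
    obtain ⟨T, hT⟩ := Option.ne_none_iff_exists'.1 h2
    rw [mpos_eq hT] at h3
    exact ⟨b, T, h1, hT, h3⟩
  · rintro ⟨b, T, h1, h2, h3⟩
    refine ⟨b, h1, by rw [h2]; exact Option.some_ne_none T, ?_⟩
    rw [mpos_eq h2]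
    exact h3

/-- Contact with the line of a member of a random set of sources or trees, at the times `r` with
`r ∈ A x b`. -/
theorem SC.ctc_family {β : Type*} [MeasurableSpace β] {V : X → Set β} (hV : RS V)
    {A : X → β → Set ℝ} (hA : ∀ f : X → β, Measurable f → SC fun x => A x (f x))
    {Q : X → β → ℝ → Ph} (hQ : ∀ f : X → β, Measurable f → MPath fun x => Q x (f x))
    (hP : MPath P) : SC fun x => {r | ∃ b ∈ V x, r ∈ A x b ∧ Ctc ε (P x r) (Q x b r)} :=
  SC.exists_mem (A := fun x b => {r | r ∈ A x b ∧ Ctc ε (P x r) (Q x b r)}) hV fun f hf =>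
    (hA f hf).and (SC.path_ctc hP (hQ f hf))

/-- **Direct contact** before a measurable time: an event. -/
theorem measurableSet_direct (hΦ : IsPotential Φ) (hε : 0 < ε)
    (hW : RS fun x => (W x : Set Src)) (hP : MPath P) {l u : X → ℝ} (hl : Measurable l)
    (hu : Measurable u) : MeasurableSet {x | ∃ r, l x ≤ r ∧ r ≤ u x ∧ ∃ b,
      (RB.Y Φ ε L hΦ hε).Exp (W x) b r ∧ (Ctc ε (P x r) (RB.XR Φ ε (W x) r b) ∨
        stat Φ ε L (W x : Set Src) b r ≠ none ∧
          Ctc ε (P x r) (mpos Φ ε L (W x : Set Src) b r))} := by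
  have h := ((SC.ctc_real hΦ hε hW hP (L := L)).or (SC.ctc_mpos hΦ hε hW hP (L := L))).meet hl hu
  convert h using 1
  ext x
  simp only [mem_ofPred_eq]
  refine exists_congr fun r => and_congr_right fun _ => and_congr_right fun _ => ?_
  rw [← exists_or]
  exact exists_congr fun b => and_or_left

end contact

end Vale.Agent.P119.RM
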