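import Vale.Agent.P119.RM.Def
import Vale.Agent.P119.RM.Contact
import Vale.Agent.P119.PB.Src

/-!
# P119: measurability of the source terms of `PB/Src.lean` (`helper758`)

`CC`, `DirC`, `PairC`, `FeltC`, `HitC` for random worlds, and (with the worlds `wS (pts c)`) the
integrands and the functions `dirS`, `pairS`, `feltS`, `overS`, `hitS`, `thL`.
-/

open MeasureTheory Filter Topology Set
open scoped ENNReal

noncomputable section

namespace Vale.Agent.P119.RM

open KU M CTree MM FB PB

variable {Φ : E3 → ℝ} {ε : ℝ} {L : ℕ} {hΦ : IsPotential Φ} {hε : 0 < ε}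

section basic

variable {X : Type} [MeasurableSpace X] {W : X → Finset Src} {f : X → Src} {T : X → CTree}
  {t η w : X → ℝ}

/-- Positions at distance at most `ε`. -/
theorem SC.near {P Q : X → ℝ → E3} (hP : ∀ s, Measurable fun x => P x s)
    (hQ : ∀ s, Measurable fun x => Q x s) (cP : ∀ x, Continuous (P x))
    (cQ : ∀ x, Continuous (Q x)) : SC fun x => {s | ‖P x s - Q x s‖ ≤ ε} := by
  refine (SC.closed (F := fun x s => ‖P x s - Q x s‖ - ε)
    (fun s => ((hP s).sub (hQ s)).norm.sub measurable_const)
    (fun x => ((cP x).sub (cQ x)).norm.sub continuous_const)).congr fun x s => ?_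
  simp only [mem_ofPred_eq, sub_nonpos]

/-- **Contact of a position with the exposed labels.** -/
theorem SC.CC {P : X → ℝ → E3} (hW : RS fun x => (W x : Set Src))
    (hP : ∀ s, Measurable fun x => P x s) (cP : ∀ x, Continuous (P x)) :
    SC fun x => {r | PB.CC L hΦ hε (W x) r (P x r)} := by
  have h1 : SC fun x => {r | ∃ a ∈ (W x : Set Src), r ∈ {r | a ∈ ex L hΦ hε (W x) r ∧
      ‖P x r - (RB.XR Φ ε (W x) r a).1‖ ≤ ε}} :=
    SC.exists_mem (A := fun x a => {r | a ∈ ex L hΦ hε (W x) r ∧
      ‖P x r - (RB.XR Φ ε (W x) r a).1‖ ≤ ε}) hW fun f hf => by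
        have h2 := (msys_Y hΦ hε (L := L)).exp hW hf
        have h3 := MPath.real hΦ hε hW hf
        exact (h2.congr fun x s => mem_ex).and
          (SC.near hP (fun s => (h3.meas s).fst) cP fun x => continuous_fst.comp (h3.cont x))
  have h2 : SC fun x => {r | ∃ T ∈ {T : CTree | T.leaves ⊆ (W x : Set Src)},
      r ∈ {r | T.root ∈ ex L hΦ hε (W x) r ∧ live Φ ε L (W x : Set Src) T r ∧
        ‖P x r - (st Φ ε T r).1‖ ≤ ε}} :=
    SC.exists_mem (A := fun x T => {r | T.root ∈ ex L hΦ hε (W x) r ∧
      live Φ ε L (W x : Set Src) T r ∧ ‖P x r - (st Φ ε T r).1‖ ≤ ε}) (RS.trees hW)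
      fun T hT => by
        have h2 := (msys_Y hΦ hε (L := L)).exp hW (meas_root hT)
        have h3 := MPath.tree hΦ hε hT
        exact (h2.congr fun x s => mem_ex).and ((SC.tree_live hΦ hε hW hT).and
          (SC.near hP (fun s => (h3.meas s).fst) cP fun x => continuous_fst.comp (h3.cont x)))
  refine (h1.or h2).congr fun x r => ?_
  simp only [mem_ofPred_eq, PB.CC]
  constructor
  · rintro ⟨a, h3, h4 | ⟨T, rfl, h5, h6⟩⟩
    · exact Or.inl ⟨a, ex_subset h3, h3, h4⟩
    · exact Or.inr ⟨T, h5.sub, h3, h5, h6⟩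
  · rintro (⟨a, -, h3, h4⟩ | ⟨T, -, h3, h5, h6⟩)
    · exact ⟨a, h3, Or.inl h4⟩
    · exact ⟨_, h3, Or.inr ⟨T, rfl, h5, h6⟩⟩

theorem measurableSet_DirC (hW : RS fun x => (W x : Set Src)) (hη : Measurable η)
    (ht : Measurable t) (hw : Measurable w) (hf : Measurable f) :
    MeasurableSet {x | DirC L hΦ hε (η x) (t x) (w x) (W x) (f x)} := by
  have hl : Measurable fun x => (f x).2.1 := measurable_fst.comp (measurable_snd.comp hf)
  have h1 := MPath.line hl
  exact (SC.CC hW (P := fun x r => (f x).2.1.1 + r • (f x).2.1.2) (fun s => (h1.meas s).fst)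
    (fun x => continuous_fst.comp (h1.cont x))).meet hf.fst
      ((measurable_hz hW hη ht).min (hf.fst.add hw))

theorem measurableSet_PairC (hW : RS fun x => (W x : Set Src)) (hη : Measurable η)
    (ht : Measurable t) (hw : Measurable w) (hf : Measurable f) {z' : X → Ph}
    (hz' : Measurable z') :
    MeasurableSet {x | PairC L hΦ hε (η x) (t x) (w x) (W x) (f x) (z' x)} := by
  have hl : Measurable fun x => (f x).2.1 := measurable_fst.comp (measurable_snd.comp hf)
  have hp : Measurable fun x => ((f x).2.1, z' x) := hl.prodMk hz'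
  have h1 := MPath.pair₁ hΦ hl hz' (ε := ε)
  have h2 := MPath.pair₂ hΦ hl hz' (ε := ε)
  have hh : Measurable fun x => hitT ε ((f x).2.1, z' x) := measurable_hitT.comp hp
  have h3 := ((SC.CC hW (hΦ := hΦ) (hε := hε) (L := L)
    (P := fun x r => (pairLine Φ ε ((f x).2.1, z' x) r).1.1) (fun s => (h1.meas s).fst)
    (fun x => continuous_fst.comp (h1.cont x))).or (SC.CC hW (hΦ := hΦ) (hε := hε) (L := L)
    (P := fun x r => (pairLine Φ ε ((f x).2.1, z' x) r).2.1) (fun s => (h2.meas s).fst)
    (fun x => continuous_fst.comp (h2.cont x)))).meet hh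
      ((measurable_hz (hΦ := hΦ) (hε := hε) (L := L) hW hη ht).min (hf.fst.add hw))
  exact (measurableSet_meets.preimage hp).inter ((measurableSet_lt hf.fst hh).inter h3)

theorem measurableSet_FeltC (hW : RS fun x => (W x : Set Src)) (hη : Measurable η)
    (ht : Measurable t) (hw : Measurable w) (hf : Measurable f) (hT : Measurable T) :
    MeasurableSet {x | FeltC L hΦ hε (η x) (t x) (w x) (W x) (f x) (T x)} := by
  have hl : Measurable fun x => ((f x).2.1, ln Φ ε (T x)) :=
    (measurable_fst.comp (measurable_snd.comp hf)).prodMk (meas_ln hΦ hε.ne' hT)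
  have hh : Measurable fun x => hitT ε ((f x).2.1, ln Φ ε (T x)) := measurable_hitT.comp hl
  exact (measurableSet_meets.preimage hl).inter ((measurableSet_lt hf.fst hh).inter
    ((measurableSet_le hh ((measurable_hz hW hη ht).min (hf.fst.add hw))).inter
      (measurableSet_fl hW hT hh)))

theorem measurableSet_HitC (hΦ : IsPotential Φ) (hε : 0 < ε)
    (hW : RS fun x => (W x : Set Src)) (ht : Measurable t) (hf : Measurable f)
    (hT : Measurable T) : MeasurableSet {x | HitC Φ ε L (t x) (W x) (f x) (T x)} := by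
  have hl : Measurable fun x => ((f x).2.1, ln Φ ε (T x)) :=
    (measurable_fst.comp (measurable_snd.comp hf)).prodMk (meas_ln hΦ hε.ne' hT)
  have hh : Measurable fun x => hitT ε ((f x).2.1, ln Φ ε (T x)) := measurable_hitT.comp hl
  have he := meas_ext hΦ hε.ne' hT
  exact (measurableSet_meets.preimage hl).inter ((measurableSet_lt hf.fst hh).inter
    ((measurableSet_le hh ht).inter ((measurableSet_le he ht).inter
      (measurableSet_tree_alive hΦ hε hW hT he))))

/-! ### Sums over the trees of a world -/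

theorem rs_trs (hW : RS fun x => (W x : Set Src)) :
    RS fun x => (trs L (W x) : Set CTree) := by
  refine ((RS.trees hW).inter_pred (P := {p : X × CTree | p.2.depth ≤ L})
    (meas_depth measurable_snd (measurableSet_Iic (a := L)))).congr fun x => ?_
  ext T
  rw [Finset.mem_coe, mem_trs]
  rfl

theorem measurable_sum_rs {β : Type*} [MeasurableSpace β] [MeasurableEq β] {V : X → Finset β}
    (hV : RS fun x => (V x : Set β)) {F : X × β → ℝ≥0∞} (hF : Measurable F) :
    Measurable fun x => ∑ b ∈ V x, F (x, b) := by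
  have h := hV.measurable_tsum_indicator hF
  convert h using 2 with x
  classical
  rw [tsum_eq_sum (s := V x)]
  · exact Finset.sum_congr rfl fun b hb =>
      (indicator_of_mem (Finset.mem_coe.2 hb) fun b => F (x, b)).symm
  · exact fun b hb => indicator_of_notMem (fun h => hb (Finset.mem_coe.1 h)) _

theorem measurable_sum_trs (hW : RS fun x => (W x : Set Src)) {F : X × CTree → ℝ≥0∞}
    (hF : Measurable F) : Measurable fun x => ∑ T ∈ trs L (W x), F (x, T) :=
  measurable_sum_rs (rs_trs hW) hF

/-- The number of felt trees which are hit by a source. -/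
theorem measurable_sum_FeltC (hW : RS fun x => (W x : Set Src)) (hη : Measurable η)
    (ht : Measurable t) (hw : Measurable w) (hf : Measurable f) :
    Measurable fun x => ∑ T ∈ trs L (W x),
      ind (FeltC L hΦ hε (η x) (t x) (w x) (W x) (f x) T) :=
  measurable_sum_trs hW (F := fun p : X × CTree =>
    ind (FeltC L hΦ hε (η p.1) (t p.1) (w p.1) (W p.1) (f p.1) p.2))
    (measurable_ind (measurableSet_FeltC (hW.comp measurable_fst) (hη.comp measurable_fst)
      (ht.comp measurable_fst) (hw.comp measurable_fst) (hf.comp measurable_fst)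
        measurable_snd))

/-- The number of trees which are hit by a source. -/
theorem measurable_sum_HitC (hΦ : IsPotential Φ) (hε : 0 < ε)
    (hW : RS fun x => (W x : Set Src)) (ht : Measurable t) (hf : Measurable f) :
    Measurable fun x => ∑ T ∈ trs L (W x), ind (HitC Φ ε L (t x) (W x) (f x) T) :=
  measurable_sum_trs hW (F := fun p : X × CTree => ind (HitC Φ ε L (t p.1) (W p.1) (f p.1) p.2))
    (measurable_ind (measurableSet_HitC hΦ hε (hW.comp measurable_fst)
      (ht.comp measurable_fst) (hf.comp measurable_fst) measurable_snd))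

end basic

/-! ### Ordinary worlds -/

section conf

variable {f₀ : Ph → ℝ} {b : ℝ} {α : ℕ → ℝ≥0∞} (η t w : ℝ)

theorem rs_conf_snd {Z : Type*} [MeasurableSpace Z] :
    RS fun p : Z × GC.Conf Ph => (AU.wS (GC.pts p.2) : Set Src) := rs_wS measurable_snd

/-- `(σ, c) ↦ 1{DirC}`. -/
theorem measurable_DirC : Measurable fun p : Src × GC.Conf Ph =>
    ind (DirC L hΦ hε η t w (AU.wS (GC.pts p.2)) p.1) :=
  measurable_ind (measurableSet_DirC rs_conf_snd measurable_const measurable_const
    measurable_const measurable_fst)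

/-- `((σ, z'), c) ↦ 1{PairC}`. -/
theorem measurable_PairC : Measurable fun p : (Src × Ph) × GC.Conf Ph =>
    ind (PairC L hΦ hε η t w (AU.wS (GC.pts p.2)) p.1.1 p.1.2) :=
  measurable_ind (measurableSet_PairC rs_conf_snd measurable_const measurable_const
    measurable_const measurable_fst.fst measurable_fst.snd)

/-- `(σ, c) ↦ ∑ 1{FeltC}`. -/
theorem measurable_FeltC : Measurable fun p : Src × GC.Conf Ph =>
    ∑ T ∈ trs L (AU.wS (GC.pts p.2)),
      ind (FeltC L hΦ hε η t w (AU.wS (GC.pts p.2)) p.1 T) :=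
  measurable_sum_FeltC rs_conf_snd measurable_const measurable_const measurable_const
    measurable_fst

/-- `(σ, c) ↦ ∑ 1{HitC}`. -/
theorem measurable_HitC (hΦ : IsPotential Φ) (hε : 0 < ε) :
    Measurable fun p : Src × GC.Conf Ph => ∑ T ∈ trs L (AU.wS (GC.pts p.2)),
      ind (HitC Φ ε L t (AU.wS (GC.pts p.2)) p.1 T) :=
  measurable_sum_HitC hΦ hε rs_conf_snd measurable_const measurable_fst

/-- `(σ, c) ↦ 1{TT}`. -/
theorem measurable_TT : Measurable fun p : Src × GC.Conf Ph =>
    ind (TT L hΦ hε η t w (AU.wS (GC.pts p.2)) p.1) :=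
  measurable_ind (measurableSet_TT rs_conf_snd measurable_const measurable_const
    measurable_const measurable_fst)

/-- `(c, r) ↦ eW (hz η r)`. -/
theorem measurable_eW_conf : Measurable fun p : GC.Conf Ph × ℝ =>
    eW L hΦ hε (AU.wS (GC.pts p.1)) (hz L hΦ hε η p.2 (AU.wS (GC.pts p.1))) :=
  measurable_eW_hz (rs_wS measurable_fst) measurable_const measurable_snd

/-- `(c, r) ↦ fW (hz η r)`. -/
theorem measurable_fW_conf : Measurable fun p : GC.Conf Ph × ℝ =>
    fW L hΦ hε (AU.wS (GC.pts p.1)) (hz L hΦ hε η p.2 (AU.wS (GC.pts p.1))) :=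
  measurable_fW_hz (rs_wS measurable_fst) measurable_const measurable_snd

theorem measurable_nW_conf : Measurable fun p : GC.Conf Ph × ℝ =>
    nW L hΦ hε (AU.wS (GC.pts p.1)) (hz L hΦ hε η p.2 (AU.wS (GC.pts p.1))) :=
  measurable_nW (rs_wS measurable_fst) (measurable_hz (rs_wS measurable_fst) measurable_const
    measurable_snd)

theorem measurable_hz_conf : Measurable fun p : GC.Conf Ph × ℝ =>
    hz L hΦ hε η p.2 (AU.wS (GC.pts p.1)) :=
  measurable_hz (rs_wS measurable_fst) measurable_const measurable_snd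

theorem measurable_overS (ε b : ℝ) (α : ℕ → ℝ≥0∞) (L : ℕ) (t : ℝ) :
    Measurable (overS ε b α L t) := by
  have hq : Measurable fun p : Src × Ph => (p.1.2.1, p.2) :=
    (measurable_fst.comp (measurable_snd.comp measurable_fst)).prodMk measurable_snd
  have hh : Measurable fun p : Src × Ph => hitT ε (p.1.2.1, p.2) := measurable_hitT.comp hq
  have hS : MeasurableSet {p : Src × Ph | Meets ε (p.1.2.1, p.2) ∧ p.1.1 < hitT ε (p.1.2.1, p.2) ∧
      hitT ε (p.1.2.1, p.2) ≤ t} :=
    (measurableSet_meets.preimage hq).inter ((measurableSet_lt measurable_fst.fst hh).inter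
      (measurableSet_le hh measurable_const))
  have h1 : Measurable fun σ : Src => ∫⁻ z' in {z' : Ph | Meets ε (σ.2.1, z') ∧
      σ.1 < hitT ε (σ.2.1, z') ∧ hitT ε (σ.2.1, z') ≤ t}, gw b z'.2 := by
    have h2 : Measurable fun p : Src × Ph => {p : Src × Ph | Meets ε (p.1.2.1, p.2) ∧
        p.1.1 < hitT ε (p.1.2.1, p.2) ∧ hitT ε (p.1.2.1, p.2) ≤ t}.indicator
          (fun p => gw b p.2.2) p :=
      ((measurable_gw b).comp (measurable_snd.comp measurable_snd)).indicator hS
    have h3 := h2.lintegral_prod_right' (ν := (volume : Measure Ph))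
    convert h3 using 2 with σ
    rw [← lintegral_indicator (s := {z' : Ph | Meets ε (σ.2.1, z') ∧
      σ.1 < hitT ε (σ.2.1, z') ∧ hitT ε (σ.2.1, z') ≤ t}) (measurable_prodMk_left hS)]
    rfl
  refine Measurable.const_mul (Measurable.tsum fun n => ?_) _
  refine Measurable.const_mul (Measurable.mul ?_ h1) _
  have h4 : MeasurableSet {σ : Src | L < max σ.2.2 n + 1} := by
    have h5 : Measurable fun σ : Src => max σ.2.2 n + 1 :=
      ((measurable_snd.comp measurable_snd).max measurable_const).add_const 1
    exact h5 (measurableSet_Ioi (a := L))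
  exact Measurable.ite h4 measurable_const measurable_const

variable [SFinite (GC.PP f₀ ε)]

theorem measurable_theta' : Measurable (theta L hΦ hε f₀ η t w) :=
  (measurable_TT η t w).lintegral_prod_right'

theorem measurable_thL : Measurable (thL L hΦ hε f₀ η t w) := by
  have h : MeasurableSet {σ : Src | σ.2.2 ≤ L} :=
    (measurable_snd.comp measurable_snd) (measurableSet_Iic (a := L))
  exact Measurable.ite h (measurable_theta' η t w) measurable_const

theorem measurable_dirS : Measurable (dirS L hΦ hε f₀ η t w) :=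
  (measurable_DirC η t w).lintegral_prod_right'

theorem measurable_feltS : Measurable (feltS L hΦ hε f₀ η t w) :=
  (measurable_FeltC η t w).lintegral_prod_right'

theorem measurable_hitS (hΦ : IsPotential Φ) (hε : 0 < ε) : Measurable (hitS Φ ε L f₀ t) :=
  (measurable_HitC t hΦ hε).lintegral_prod_right'

theorem measurable_pairS : Measurable (pairS L hΦ hε f₀ b α η t w) := by
  have h1 : Measurable fun p : Src × Ph =>
      ∫⁻ c, ind (PairC L hΦ hε η t w (AU.wS (GC.pts c)) p.1 p.2) ∂(GC.PP f₀ ε) :=
    (measurable_PairC η t w).lintegral_prod_right'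
  have h2 : Measurable fun σ : Src => ∫⁻ z', gw b z'.2 *
      ∫⁻ c, ind (PairC L hΦ hε η t w (AU.wS (GC.pts c)) σ z') ∂(GC.PP f₀ ε) :=
    (((measurable_gw b).comp (measurable_snd.comp measurable_snd)).mul h1).lintegral_prod_right'
      (ν := (volume : Measure Ph))
  exact Measurable.const_mul (Measurable.tsum fun n => Measurable.const_mul h2 _) _

end conf

end Vale.Agent.P119.RM
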