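import Vale.Agent.P119.RM.Src
import Vale.Agent.P119.PB.Marks2
import Vale.Agent.P119.ML.CapDef
import Vale.Agent.P119.TL.Inst

/-!
# P119: measurability of the exhausts, of the alive trees and of the worlds of lines (`helper758`)

* `measurable_lft`, `measurable_rgt`, `measurable_sw`: the two children and the swapped tree;
* `rs_sub`, `rs_exs`, `rs_outs`: the subtrees, the exhausts, the final histories of a random tree
  are countable random sets; `measurable_exsum`, `measurable_exsum₂`;
* `measurableSet_AL`, `measurableSet_ALt`, `SC.ALt`;
* the random worlds `insert (rsrc y) (wS (pts c))`.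
-/

open MeasureTheory Filter Topology Set
open scoped ENNReal

noncomputable section

namespace Vale.Agent.P119.RM

open KU M CTree MM FB

variable {Φ : E3 → ℝ} {ε : ℝ} {L : ℕ}

/-! ### Children -/

/-- The first child. -/
def lft : CTree → CTree
  | .leaf σ => .leaf σ
  | .node a _ => a

/-- The second child. -/
def rgt : CTree → CTree
  | .leaf σ => .leaf σ
  | .node _ b => b

/-- The swapped tree. -/
def sw : CTree → CTree
  | .leaf σ => .leaf σ
  | .node a b => .node b a

theorem lft_node (a b : CTree) : lft (node a b) = a := rfl

theorem rgt_node (a b : CTree) : rgt (node a b) = b := rfl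

theorem sw_node (a b : CTree) : sw (node a b) = node b a := rfl

theorem measurable_lft : Measurable lft := by
  have h : Measurable fun T : CTree => (T, lft T) :=
    measurable_rec (f := fun T : CTree => (T, lft T))
      (g := fun q : (CTree × CTree) × (CTree × CTree) => (node q.1.1 q.2.1, q.1.1))
      (h := fun σ => (leaf σ, leaf σ))
      ((M.measurable_node.comp (measurable_fst.fst.prodMk measurable_snd.fst)).prodMk
        measurable_fst.fst)
      (M.measurable_leaf.prodMk M.measurable_leaf) (fun _ => rfl) (fun _ _ => rfl)
  exact h.snd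

theorem measurable_rgt : Measurable rgt := by
  have h : Measurable fun T : CTree => (T, rgt T) :=
    measurable_rec (f := fun T : CTree => (T, rgt T))
      (g := fun q : (CTree × CTree) × (CTree × CTree) => (node q.1.1 q.2.1, q.2.1))
      (h := fun σ => (leaf σ, leaf σ))
      ((M.measurable_node.comp (measurable_fst.fst.prodMk measurable_snd.fst)).prodMk
        measurable_snd.fst)
      (M.measurable_leaf.prodMk M.measurable_leaf) (fun _ => rfl) (fun _ _ => rfl)
  exact h.snd

theorem measurable_sw : Measurable sw := by
  have h : Measurable fun T : CTree => (T, sw T) :=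
    measurable_rec (f := fun T : CTree => (T, sw T))
      (g := fun q : (CTree × CTree) × (CTree × CTree) => (node q.1.1 q.2.1, node q.2.1 q.1.1))
      (h := fun σ => (leaf σ, leaf σ))
      ((M.measurable_node.comp (measurable_fst.fst.prodMk measurable_snd.fst)).prodMk
        (M.measurable_node.comp (measurable_snd.fst.prodMk measurable_fst.fst)))
      (M.measurable_leaf.prodMk M.measurable_leaf) (fun _ => rfl) (fun _ _ => rfl)
  exact h.snd

/-- The nodes. -/
theorem measurableSet_isNode : MeasurableSet {T : CTree | ∃ a b, T = node a b} := by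
  have h : {T : CTree | ∃ a b, T = node a b} = {T : CTree | T = node (lft T) (rgt T)} := by
    ext T
    constructor
    · rintro ⟨a, b, rfl⟩
      rfl
    · intro h
      exact ⟨_, _, h⟩
  rw [h]
  exact measurableSet_eq_fun measurable_id
    (M.measurable_node.comp (measurable_lft.prodMk measurable_rgt))

/-! ### Subtrees -/

/-- The subtree at the end of a path. -/
def stp : List Bool → CTree → CTree
  | [], T => T
  | b :: p, T => stp p (if b then rgt T else lft T)

theorem measurable_stp (p : List Bool) : Measurable (stp p) := by
  induction p with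
  | nil => exact measurable_id
  | cons b p ih =>
    cases b
    · exact ih.comp measurable_lft
    · exact ih.comp measurable_rgt

theorem stp_leaf (p : List Bool) (σ : Src) : stp p (leaf σ) = leaf σ := by
  induction p with
  | nil => rfl
  | cons b p ih => cases b <;> exact ih

theorem sub_iff {S T : CTree} : TL.Sub S T ↔ ∃ p, stp p T = S := by
  constructor
  · intro h
    induction h with
    | refl => exact ⟨[], rfl⟩
    | left b _ ih =>
      obtain ⟨p, hp⟩ := ih
      exact ⟨false :: p, hp⟩
    | right a _ ih =>
      obtain ⟨p, hp⟩ := ih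
      exact ⟨true :: p, hp⟩
  · rintro ⟨p, rfl⟩
    induction p generalizing T with
    | nil => exact TL.Sub.refl _
    | cons b p ih =>
      cases T with
      | leaf σ =>
        rw [stp_leaf]
        exact TL.Sub.refl _
      | node a c =>
        cases b
        · exact TL.Sub.left c (ih (T := a))
        · exact TL.Sub.right a (ih (T := c))

section rs

variable {X : Type*} [MeasurableSpace X] {T U : X → CTree}

theorem rs_sub (hT : Measurable T) : RS fun x => {S | TL.Sub S (T x)} :=
  (RS.range (z := fun (p : List Bool) x => stp p (T x)) fun p => (measurable_stp p).comp hT).congr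
    fun x => by
      ext S
      exact sub_iff

theorem rs_exs (hT : Measurable T) : RS fun x => TL.exs (T x) := by
  have h := ((rs_sub hT).inter_pred (P := {p : X × CTree | ∃ a b, p.2 = node a b})
    (measurable_snd measurableSet_isNode)).image_of_measurable measurable_sw
  refine h.congr fun x => ?_
  ext S
  rw [TL.exs_iff, mem_image]
  constructor
  · rintro ⟨a, b, h1, rfl⟩
    exact ⟨node a b, ⟨h1, a, b, rfl⟩, rfl⟩
  · rintro ⟨_, ⟨h1, a, b, rfl⟩, rfl⟩
    exact ⟨a, b, h1, rfl⟩

theorem rs_outs (hT : Measurable T) : RS fun x => TL.outs (T x) := (rs_exs hT).insert hT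

theorem meas_mem_exs (hT : Measurable T) (hU : Measurable U) :
    MeasurableSet {x | U x ∈ TL.exs (T x)} := (rs_exs hT).measurableSet_mem_of hU

theorem meas_mem_outs (hT : Measurable T) (hU : Measurable U) :
    MeasurableSet {x | U x ∈ TL.outs (T x)} := (rs_outs hT).measurableSet_mem_of hU

theorem measurableSet_mem_exs : MeasurableSet {p : CTree × CTree | p.2 ∈ TL.exs p.1} :=
  meas_mem_exs measurable_fst measurable_snd

/-- **Sums over the exhausts are measurable.** -/
theorem measurable_exsum (hT : Measurable T) {F : X × CTree → ℝ≥0∞} (hF : Measurable F) :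
    Measurable fun x => exsum (T x) fun y => F (x, y) := by
  classical
  have h := (rs_exs hT).measurable_tsum_indicator hF
  convert h using 2 with x
  unfold exsum
  refine tsum_congr fun y => ?_
  by_cases hy : y ∈ TL.exs (T x)
  · rw [if_pos hy]
    exact (indicator_of_mem hy fun y => F (x, y)).symm
  · rw [if_neg hy]
    exact (indicator_of_notMem hy fun y => F (x, y)).symm

/-- The same for a curried function. -/
theorem measurable_exsum' (hT : Measurable T) {F : X → CTree → ℝ≥0∞}
    (hF : Measurable fun p : X × CTree => F p.1 p.2) : Measurable fun x => exsum (T x) (F x) :=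
  measurable_exsum hT hF

open Classical in
/-- **Sums over the pairs of distinct exhausts are measurable.** -/
theorem measurable_exsum₂ (hT : Measurable T) {F : X × CTree × CTree → ℝ≥0∞} (hF : Measurable F) :
    Measurable fun x => exsum (T x) fun y => exsum (T x) fun y' =>
      if y = y' then 0 else F (x, y, y') := by
  refine measurable_exsum' hT (F := fun x y => exsum (T x) fun y' =>
      if y = y' then 0 else F (x, y, y')) ?_
  refine measurable_exsum' (X := X × CTree) (T := fun p => T p.1) (hT.comp measurable_fst)
    (F := fun p y' => if p.2 = y' then 0 else F (p.1, p.2, y')) ?_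
  refine Measurable.ite (measurableSet_eq_fun measurable_fst.snd measurable_snd) measurable_const ?_
  exact hF.comp (measurable_fst.fst.prodMk (measurable_fst.snd.prodMk measurable_snd))

end rs

/-! ### The exhausts as sources -/

section worlds

variable {X : Type*} [MeasurableSpace X] {T : X → CTree} {W : X → Finset Src} {ρ : X → ℝ}
  {c : X → GC.Conf Ph}

theorem meas_rsrc (hΦ : IsPotential Φ) (hε : 0 < ε) (hT : Measurable T) :
    Measurable fun x => rsrc Φ ε (T x) := (M.measurable_rsrc hΦ hε.ne').comp hT

theorem rs_pts (hc : Measurable c) : RS fun x => ((AU.wS (GC.pts (c x)) : Finset Src) : Set Src) :=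
  rs_conf.comp hc

/-- The world with the source of the root line of a tree. -/
theorem rs_insert_rsrc (hΦ : IsPotential Φ) (hε : 0 < ε) [DecidableEq Src]
    (hW : RS fun x => (W x : Set Src)) (hT : Measurable T) :
    RS fun x => ((insert (rsrc Φ ε (T x)) (W x) : Finset Src) : Set Src) :=
  rs_insert hW (meas_rsrc hΦ hε hT)

/-- The exhausts of a tree, as sources. -/
theorem rs_exl (hΦ : IsPotential Φ) (hε : 0 < ε) (hT : Measurable T) :
    RS fun x => (TL.exl Φ ε (T x) : Set Src) :=
  ((rs_exs hT).image_of_measurable (M.measurable_rsrc hΦ hε.ne')).congr fun _ => TL.coe_exl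

/-- **The worlds of lines.** -/
theorem rs_lnw (hΦ : IsPotential Φ) (hε : 0 < ε) (hW : RS fun x => (W x : Set Src))
    (hT : Measurable T) (hρ : Measurable ρ) :
    RS fun x => (TL.lnw Φ ε (W x) (T x) (ρ x) : Set Src) := by
  classical
  have h1 : Measurable fun x => ((ρ x, ln Φ ε (T x), (T x).depth) : Src) :=
    hρ.prodMk ((meas_ln hΦ hε.ne' hT).prodMk (meas_depth hT))
  refine ((hW.union (rs_exl hΦ hε hT)).union (RS.singleton h1)).congr fun x => ?_
  unfold TL.lnw
  rw [Finset.coe_union, Finset.coe_union, Finset.coe_singleton]

/-- The worlds with the leaves of a tree (sets of sources). -/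
theorem rs_union_leaves {V : X → Set Src} (hV : RS V) (hT : Measurable T) :
    RS fun x => V x ∪ (T x).leaves := hV.union (RS.leaves hT)

end worlds

/-! ### The trees alive in an environment -/

section alive

variable {X : Type} [MeasurableSpace X] {T : X → CTree} {w : X → Set Ph} {t : X → ℝ}
  {c : X → GC.Conf Ph}

/-- **`T` is alive in `world w ∪ leaves T` at the time `t`: a measurable event.** -/
theorem measurableSet_ALt (hΦ : IsPotential Φ) (hε : 0 < ε) (hw : RS w) (hT : Measurable T)
    (ht : Measurable t) : MeasurableSet {x | Cap.ALt Φ ε L (w x) (T x) (t x)} :=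
  measurableSet_tree_alive hΦ hε (hw.world.union (RS.leaves hT)) hT ht

theorem SC.ALt (hΦ : IsPotential Φ) (hε : 0 < ε) (hw : RS w) (hfin : ∀ x, (w x).Finite)
    (hT : Measurable T) : SC fun x => {s | Cap.ALt Φ ε L (w x) (T x) s} :=
  SC.tree_alive hΦ hε (hw.world.union (RS.leaves hT))
    (fun x => ((hfin x).image src).union (T x).leaves_finite) hT

theorem measurableSet_AL (hΦ : IsPotential Φ) (hε : 0 < ε) (hw : RS w) (hT : Measurable T)
    (ht : Measurable t) : MeasurableSet {x | T x ∈ Cap.AL Φ ε L (t x) (w x)} :=
  (measurableSet_ALt hΦ hε hw hT (meas_ext hΦ hε.ne' hT)).inter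
    (measurableSet_le (meas_ext hΦ hε.ne' hT) ht)

theorem rs_conf_pts (hc : Measurable c) : RS fun x => ((GC.pts (c x) : Finset Ph) : Set Ph) :=
  RS.pts hc

/-- The alive trees of an ordinary configuration. -/
theorem measurableSet_AL_pts (hΦ : IsPotential Φ) (hε : 0 < ε) (hc : Measurable c)
    (hT : Measurable T) (ht : Measurable t) :
    MeasurableSet {x | T x ∈ Cap.AL Φ ε L (t x) (GC.pts (c x) : Set Ph)} :=
  measurableSet_AL hΦ hε (RS.pts hc) hT ht

theorem measurableSet_AL_prod (hΦ : IsPotential Φ) (hε : 0 < ε) (t : ℝ) :
    MeasurableSet {p : GC.Conf Ph × CTree | p.2 ∈ Cap.AL Φ ε L t (GC.pts p.1 : Set Ph)} :=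
  measurableSet_AL_pts hΦ hε measurable_fst measurable_snd measurable_const

end alive

end Vale.Agent.P119.RM
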