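import Vale.Agent.P119.RM.Exs
import Vale.Agent.P119.PB.Thr
import Vale.Agent.P119.PB.ThrTL2
import Vale.Agent.P119.FB.Cube
import Vale.Agent.P119.M.Sup

/-!
# P119: measurability of the dependence events (`helper758`)

For random worlds (`RS`), measurable trees and times:
* `SC.tree_not_live`, `SC.tree_ne_alive`, `SC.tree_ne_live`;
* `measurableSet_mem_DY`, `measurableSet_D_subset`, `measurableSet_square`, `measurableSet_cube`;
* `measurableSet_Rel`, `measurable_relW` (`helper185`);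
* `measurableSet_LGood`, `measurableSet_IndT`, `measurableSet_DepT`, `measurable_relT`
  (`helper119`, `helper456`);
* `measurableSet_NI`, `measurableSet_CubeW` (`helper472`).
-/

open MeasureTheory Filter Topology Set
open scoped ENNReal

noncomputable section

namespace Vale.Agent.P119.RM

open KU M CTree MM FB PB

variable {Φ : E3 → ℝ} {ε : ℝ} {L : ℕ}

section live

variable {X : Type*} [MeasurableSpace X] {W V : X → Set Src} {T T' : X → CTree} {t : X → ℝ}

theorem SC.tree_not_live (hΦ : IsPotential Φ) (hε : 0 < ε) (hW : RS W) (hT : Measurable T) :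
    SC fun x => {s | ¬M.live Φ ε L (W x) (T x) s} := by
  refine ((SC.cond (measurableSet_tree_base hΦ hε hW hT (L := L)).compl).or
    ((SC.lt (meas_sig hΦ hε.ne' hT)).or (SC.gt_e (meas_ktm hΦ hε hW hT (L := L))))).congr
    fun x s => ?_
  simp only [mem_ofPred_eq, mem_compl_iff]
  rw [live_iff_kt, base_iff_ktm (P := fun k => sig Φ ε (T x) ≤ s ∧ (s : EReal) ≤ k),
    not_and_or, not_and_or, not_le, not_le]

/-- `T` is alive in exactly one of the two worlds. -/
theorem SC.tree_ne_alive (hΦ : IsPotential Φ) (hε : 0 < ε) (hW : RS W)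
    (hf : ∀ x, (W x).Finite) (hV : RS V) (hf' : ∀ x, (V x).Finite) (hT : Measurable T) :
    SC fun x => {s | ¬(M.alive Φ ε L (W x) (T x) s ↔ M.alive Φ ε L (V x) (T x) s)} := by
  refine (((SC.tree_alive hΦ hε hW hf hT (L := L)).and
    (SC.tree_not_alive hΦ hε hV hf' hT (L := L))).or
    ((SC.tree_not_alive hΦ hε hW hf hT (L := L)).and
      (SC.tree_alive hΦ hε hV hf' hT (L := L)))).congr fun x s => ?_
  simp only [mem_ofPred_eq]
  tauto

theorem SC.tree_ne_live (hΦ : IsPotential Φ) (hε : 0 < ε) (hW : RS W) (hV : RS V)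
    (hT : Measurable T) :
    SC fun x => {s | ¬(M.live Φ ε L (W x) (T x) s ↔ M.live Φ ε L (V x) (T x) s)} := by
  refine (((SC.tree_live hΦ hε hW hT (L := L)).and (SC.tree_not_live hΦ hε hV hT (L := L))).or
    ((SC.tree_not_live hΦ hε hW hT (L := L)).and (SC.tree_live hΦ hε hV hT (L := L)))).congr
    fun x s => ?_
  simp only [mem_ofPred_eq]
  tauto

end live

/-! ### Squares and cubes -/

section square

variable {hΦ : IsPotential Φ} {hε : 0 < ε}

theorem stat_of_notMem (hΦ : IsPotential Φ) (hε : 0 < ε) {W : Set Src} (hW : W.Finite) {a : Src}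
    (ha : a ∉ W) (s : ℝ) : stat Φ ε L W a s = none := by
  by_contra h
  obtain ⟨T, hT⟩ := Option.ne_none_iff_exists'.1 h
  have h2 := (stat_eq_some_iff hΦ hε hW).1 hT
  exact ha (h2.1 ▸ h2.2.sub T.root_mem_leaves)

/-- The labels with different histories belong to one of the worlds. -/
theorem D_subset {W₁ W₂ : Finset Src} {t : ℝ} {a : Src}
    (h : a ∈ (RB.Y Φ ε L hΦ hε).D W₁ W₂ t) : a ∈ W₁ ∨ a ∈ W₂ := by
  by_contra hcon
  rw [not_or] at hcon
  obtain ⟨s, -, hs⟩ := h
  refine hs ?_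
  change RB.sta Φ ε L (W₁ : Set Src) a s = RB.sta Φ ε L (W₂ : Set Src) a s
  have h1 : a ∉ (W₁ : Set Src) := fun h => hcon.1 (Finset.mem_coe.1 h)
  have h2 : a ∉ (W₂ : Set Src) := fun h => hcon.2 (Finset.mem_coe.1 h)
  refine Prod.ext (propext (iff_of_false h1 h2)) (Prod.ext ?_ (propext (iff_of_false ?_ ?_)))
  · exact (stat_of_notMem hΦ hε W₁.finite_toSet h1 s).trans
      (stat_of_notMem hΦ hε W₂.finite_toSet h2 s).symm
  · exact fun h => h1 h.mem
  · exact fun h => h2 h.mem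

variable {X : Type} [MeasurableSpace X] {W₁ W₂ W₃ W₄ : X → Finset Src} {f : X → Src}
  {t t' : X → ℝ}

theorem measurableSet_mem_DY (h₁ : RS fun x => (W₁ x : Set Src))
    (h₂ : RS fun x => (W₂ x : Set Src)) (hf : Measurable f) (ht : Measurable t) :
    MeasurableSet {x | f x ∈ (RB.Y Φ ε L hΦ hε).D (W₁ x) (W₂ x) (t x)} :=
  (msys_Y hΦ hε).measurableSet_mem_D h₁ h₂ hf ht

/-- A statement about all the labels which have different histories. -/
theorem measurableSet_forall_D (h₁ : RS fun x => (W₁ x : Set Src))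
    (h₂ : RS fun x => (W₂ x : Set Src)) (ht : Measurable t) {P : Set (X × Src)}
    (hP : MeasurableSet P) :
    MeasurableSet {x | ∀ a ∈ (RB.Y Φ ε L hΦ hε).D (W₁ x) (W₂ x) (t x), (x, a) ∈ P} := by
  have h := (h₁.union h₂).measurableSet_forall (P := {p : X × Src |
    p.2 ∉ (RB.Y Φ ε L hΦ hε).D (W₁ p.1) (W₂ p.1) (t p.1)} ∪ P)
    ((measurableSet_mem_DY (h₁.comp measurable_fst) (h₂.comp measurable_fst) measurable_snd
      (ht.comp measurable_fst)).compl.union hP)
  convert h using 1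
  ext x
  simp only [mem_ofPred_eq, mem_union, Finset.mem_coe]
  constructor
  · intro h a _
    by_cases ha : a ∈ (RB.Y Φ ε L hΦ hε).D (W₁ x) (W₂ x) (t x)
    · exact Or.inr (h a ha)
    · exact Or.inl ha
  · intro h a ha
    exact (h a (D_subset ha)).resolve_left fun h' => h' ha

theorem measurableSet_D_subset (h₁ : RS fun x => (W₁ x : Set Src))
    (h₂ : RS fun x => (W₂ x : Set Src)) (h₃ : RS fun x => (W₃ x : Set Src))
    (h₄ : RS fun x => (W₄ x : Set Src)) (ht : Measurable t) (ht' : Measurable t') :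
    MeasurableSet {x | (RB.Y Φ ε L hΦ hε).D (W₁ x) (W₂ x) (t x) ⊆
      (RB.Y Φ ε L hΦ hε).D (W₃ x) (W₄ x) (t' x)} :=
  measurableSet_forall_D h₁ h₂ ht (measurableSet_mem_DY (h₃.comp measurable_fst)
    (h₄.comp measurable_fst) measurable_snd (ht'.comp measurable_fst))

theorem measurableSet_D_disjoint (h₁ : RS fun x => (W₁ x : Set Src))
    (h₂ : RS fun x => (W₂ x : Set Src)) (h₃ : RS fun x => (W₃ x : Set Src))
    (h₄ : RS fun x => (W₄ x : Set Src)) (ht : Measurable t) (ht' : Measurable t') :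
    MeasurableSet {x | ∀ a ∈ (RB.Y Φ ε L hΦ hε).D (W₁ x) (W₂ x) (t x),
      a ∉ (RB.Y Φ ε L hΦ hε).D (W₃ x) (W₄ x) (t' x)} :=
  measurableSet_forall_D h₁ h₂ ht (measurableSet_mem_DY (h₃.comp measurable_fst)
    (h₄.comp measurable_fst) measurable_snd (ht'.comp measurable_fst)).compl

theorem square_iff {P Q R V : Finset Src} {t : ℝ} :
    FB.Sys.Square (RB.Y Φ ε L hΦ hε) P Q R V t ↔
      (∀ a ∈ (RB.Y Φ ε L hΦ hε).D P Q t, a ∉ (RB.Y Φ ε L hΦ hε).D P R t) ∧
      (RB.Y Φ ε L hΦ hε).D R V t ⊆ (RB.Y Φ ε L hΦ hε).D P Q t ∧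
      (RB.Y Φ ε L hΦ hε).D Q V t ⊆ (RB.Y Φ ε L hΦ hε).D P R t := by
  constructor
  · intro h
    refine ⟨h.disj, fun a ha => ?_, fun a ha => ?_⟩
    · rwa [h.D_RV] at ha
    · rwa [h.D_QV] at ha
  · rintro ⟨h1, h2, h3⟩
    refine ⟨h1, fun a ha s hs => ?_, fun a ha s hs => ?_⟩
    · exact FB.Sys.not_mem_D.1 (fun h => ha (h2 h)) s hs
    · exact FB.Sys.not_mem_D.1 (fun h => ha (h3 h)) s hs

/-- **Squares are measurable.** -/
theorem measurableSet_square (h₁ : RS fun x => (W₁ x : Set Src))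
    (h₂ : RS fun x => (W₂ x : Set Src)) (h₃ : RS fun x => (W₃ x : Set Src))
    (h₄ : RS fun x => (W₄ x : Set Src)) (ht : Measurable t) :
    MeasurableSet {x | FB.Sys.Square (RB.Y Φ ε L hΦ hε) (W₁ x) (W₂ x) (W₃ x) (W₄ x) (t x)} := by
  simp only [square_iff]
  exact (measurableSet_D_disjoint h₁ h₂ h₁ h₃ ht ht).inter
    ((measurableSet_D_subset h₃ h₄ h₁ h₂ ht ht).inter
      (measurableSet_D_subset h₂ h₄ h₁ h₃ ht ht))

end square

section cube

variable {hΦ : IsPotential Φ} {hε : 0 < ε} {X : Type} [MeasurableSpace X] {ι : Type*}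
  [DecidableEq ι] {W : X → Finset ι → Finset Src} {K : Finset ι} {t : X → ℝ}

/-- **Cubes are measurable.** -/
theorem measurableSet_cube (hW : ∀ I ⊆ K, RS fun x => (W x I : Set Src)) (ht : Measurable t) :
    MeasurableSet {x | FB.Sys.Cube (RB.Y Φ ε L hΦ hε) (W x) K (t x)} := by
  classical
  have h0 : RS fun x => (W x ∅ : Set Src) := hW ∅ (Finset.empty_subset _)
  have h1 : ∀ i ∈ K, RS fun x => (W x {i} : Set Src) := fun i hi =>
    hW {i} (Finset.singleton_subset_iff.2 hi)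
  have hA : MeasurableSet {x | ∀ i ∈ K, ∀ j ∈ K, i ≠ j →
      ∀ a ∈ (RB.Y Φ ε L hΦ hε).D (W x ∅) (W x {i}) (t x),
        a ∉ (RB.Y Φ ε L hΦ hε).D (W x ∅) (W x {j}) (t x)} := by
    have e : {x | ∀ i ∈ K, ∀ j ∈ K, i ≠ j →
      ∀ a ∈ (RB.Y Φ ε L hΦ hε).D (W x ∅) (W x {i}) (t x),
        a ∉ (RB.Y Φ ε L hΦ hε).D (W x ∅) (W x {j}) (t x)} =
      ⋂ i ∈ K, ⋂ j ∈ K, {x | i ≠ j → ∀ a ∈ (RB.Y Φ ε L hΦ hε).D (W x ∅) (W x {i}) (t x),
        a ∉ (RB.Y Φ ε L hΦ hε).D (W x ∅) (W x {j}) (t x)} := by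
      ext x
      simp only [mem_ofPred_eq, mem_iInter]
    rw [e]
    refine K.measurableSet_biInter fun i hi => K.measurableSet_biInter fun j hj => ?_
    by_cases hij : i = j
    · simp [hij]
    · simp only [ne_eq, hij, not_false_eq_true, true_implies]
      exact measurableSet_D_disjoint h0 (h1 i hi) h0 (h1 j hj) ht ht
  have hB : MeasurableSet {x | ∀ I ∈ K.powerset, ∀ J ∈ K.powerset,
      ∀ a ∈ (RB.Y Φ ε L hΦ hε).D (W x I) (W x J) (t x), ¬∀ i ∈ K,
        a ∈ (RB.Y Φ ε L hΦ hε).D (W x ∅) (W x {i}) (t x) → (i ∈ I ↔ i ∈ J)} := by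
    have e : {x | ∀ I ∈ K.powerset, ∀ J ∈ K.powerset,
      ∀ a ∈ (RB.Y Φ ε L hΦ hε).D (W x I) (W x J) (t x), ¬∀ i ∈ K,
        a ∈ (RB.Y Φ ε L hΦ hε).D (W x ∅) (W x {i}) (t x) → (i ∈ I ↔ i ∈ J)} =
      ⋂ I ∈ K.powerset, ⋂ J ∈ K.powerset,
        {x | ∀ a ∈ (RB.Y Φ ε L hΦ hε).D (W x I) (W x J) (t x), ¬∀ i ∈ K,
        a ∈ (RB.Y Φ ε L hΦ hε).D (W x ∅) (W x {i}) (t x) → (i ∈ I ↔ i ∈ J)} := by
      ext x
      simp only [mem_ofPred_eq, mem_iInter]
    rw [e]
    refine Finset.measurableSet_biInter _ fun I hI => Finset.measurableSet_biInter _ fun J hJ => ?_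
    have hP : MeasurableSet {p : X × Src | ¬∀ i ∈ K,
        p.2 ∈ (RB.Y Φ ε L hΦ hε).D (W p.1 ∅) (W p.1 {i}) (t p.1) → (i ∈ I ↔ i ∈ J)} := by
      refine MeasurableSet.compl (s := {p : X × Src | ∀ i ∈ K,
        p.2 ∈ (RB.Y Φ ε L hΦ hε).D (W p.1 ∅) (W p.1 {i}) (t p.1) → (i ∈ I ↔ i ∈ J)}) ?_
      have e2 : {p : X × Src | ∀ i ∈ K,
        p.2 ∈ (RB.Y Φ ε L hΦ hε).D (W p.1 ∅) (W p.1 {i}) (t p.1) → (i ∈ I ↔ i ∈ J)} =
        ⋂ i ∈ K, {p : X × Src | p.2 ∈ (RB.Y Φ ε L hΦ hε).D (W p.1 ∅) (W p.1 {i}) (t p.1) →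
          (i ∈ I ↔ i ∈ J)} := by
        ext p
        simp only [mem_ofPred_eq, mem_iInter]
      rw [e2]
      refine K.measurableSet_biInter fun i hi => ?_
      by_cases hij : (i ∈ I ↔ i ∈ J)
      · simp [hij]
      · have h3 := (measurableSet_mem_DY (hΦ := hΦ) (hε := hε) (L := L) (h0.comp measurable_fst)
          ((h1 i hi).comp measurable_fst) (measurable_snd (α := X) (β := Src))
          (ht.comp measurable_fst)).compl
        convert h3 using 1
        ext p
        simp [hij]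
    exact measurableSet_forall_D (hW I (Finset.mem_powerset.1 hI))
      (hW J (Finset.mem_powerset.1 hJ)) ht hP
  convert hA.inter hB using 1
  ext x
  simp only [mem_ofPred_eq, mem_inter_iff]
  constructor
  · intro h
    refine ⟨h.disj, fun I hI J hJ a ha hcon => ?_⟩
    obtain ⟨s, hs, hne⟩ := ha
    exact hne (h.eq I J (Finset.mem_powerset.1 hI) (Finset.mem_powerset.1 hJ) a hcon s hs)
  · rintro ⟨h2, h3⟩
    refine ⟨h2, fun I J hI hJ a ha s hs => ?_⟩
    by_contra hne
    exact h3 I (Finset.mem_powerset.2 hI) J (Finset.mem_powerset.2 hJ) a ⟨s, hs, hne⟩ ha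

end cube

/-! ### Related trees (`PB/Thr.lean`) -/

section rel

variable {hΦ : IsPotential Φ} {hε : 0 < ε} {X : Type} [MeasurableSpace X]
  {W W₁ W₂ : X → Finset Src} {T : X → CTree} {t : X → ℝ}

theorem measurableSet_Rel (h₁ : RS fun x => (W₁ x : Set Src)) (h₂ : RS fun x => (W₂ x : Set Src))
    (ht : Measurable t) (hT : Measurable T) :
    MeasurableSet {x | Rel L hΦ hε (W₁ x) (W₂ x) (t x) (T x)} := by
  have e := meas_ext hΦ hε.ne' hT
  have h5 : MeasurableSet {x | ∃ s < CTree.ext Φ ε (T x),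
      (RB.Y Φ ε L hΦ hε).Exp (W₂ x) (T x).root s} :=
    (msys_Y hΦ hε).measurableSet_exp_lt h₂ (meas_root hT) e
  have h3 := (measurableSet_tree_leaves_subset h₂ hT).inter
    ((meas_depth hT (measurableSet_Iic (a := L))).inter ((measurableSet_le e ht).inter
      ((measurableSet_tree_alive hΦ hε h₂ hT e (L := L)).inter (h5.compl.inter
        (measurableSet_square (hΦ := hΦ) (hε := hε) (L := L) (rs_rm h₁ hT) (rs_rm h₂ hT) h₁ h₂
          ht).compl))))
  convert h3 using 1
  ext x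
  exact ⟨fun h => ⟨h.sub, h.depth, h.ext_le, h.alive, fun ⟨s, hs, he⟩ => h.root s hs he, h.rel⟩,
    fun h => ⟨h.1, h.2.1, h.2.2.1, h.2.2.2.1, fun s hs he => h.2.2.2.2.1 ⟨s, hs, he⟩,
      h.2.2.2.2.2⟩⟩

/-- A weighted sum over the trees of a random world which satisfy a measurable condition. -/
theorem measurable_tsum_trees {W : X → Set Src} (hW : RS W) {P : Set (X × CTree)}
    (hP : MeasurableSet P) (hsub : ∀ x S, (x, S) ∈ P → S.leaves ⊆ W x) {F : X × CTree → ℝ≥0∞}
    (hF : Measurable F) [∀ x S, Decidable ((x, S) ∈ P)] :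
    Measurable fun x => ∑' S : CTree, if (x, S) ∈ P then F (x, S) else 0 := by
  have h := (RS.trees hW).measurable_tsum_indicator (F := P.indicator F) (hF.indicator hP)
  convert h using 2 with x
  refine tsum_congr fun S => ?_
  by_cases h1 : (x, S) ∈ P
  · rw [if_pos h1, indicator_of_mem (show S ∈ {T : CTree | T.leaves ⊆ W x} from hsub x S h1)]
    exact (indicator_of_mem h1 F).symm
  · rw [if_neg h1]
    by_cases h2 : S ∈ {T : CTree | T.leaves ⊆ W x}
    · rw [indicator_of_mem h2]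
      exact (indicator_of_notMem h1 F).symm
    · rw [indicator_of_notMem h2]

/-- **The weighted number of the related trees is measurable.** -/
theorem measurable_relW (h₁ : RS fun x => (W₁ x : Set Src)) (h₂ : RS fun x => (W₂ x : Set Src))
    (ht : Measurable t) : Measurable fun x => relW L hΦ hε (W₁ x) (W₂ x) (t x) := by
  classical
  have h := measurable_tsum_trees (X := X) h₂ (P := {p : X × CTree |
    Rel L hΦ hε (W₁ p.1) (W₂ p.1) (t p.1) p.2})
    (measurableSet_Rel (h₁.comp measurable_fst) (h₂.comp measurable_fst) (ht.comp measurable_fst)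
      measurable_snd) (fun x S h => h.sub)
    (F := fun p => ENNReal.ofReal (1 + ‖(ln Φ ε p.2).2‖))
    ((measurable_const.add (meas_ln hΦ hε.ne' measurable_snd).snd.norm).ennreal_ofReal)
  exact h

end rel

/-! ### Worlds of lines (`TL/Inst.lean`, `PB/ThrTL2.lean`) -/

section lines

variable {hΦ : IsPotential Φ} {hε : 0 < ε} {X : Type} [MeasurableSpace X]
  {V W : X → Finset Src} {T S : X → CTree} {ρ t : X → ℝ}

theorem meas_msrc (hΦ : IsPotential Φ) (hε : 0 < ε) (hT : Measurable T) (hρ : Measurable ρ)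
    (hS : Measurable S) :
    Measurable fun x => TL.msrc Φ ε (TL.rho Φ ε (T x) (ρ x)) (S x) := by
  classical
  have h1 : Measurable fun x => TL.rho Φ ε (T x) (ρ x) (S x) := by
    have h : Measurable fun x => if S x = T x then ρ x else ext Φ ε (S x) :=
      Measurable.ite (measurableSet_eq_fun hS hT) hρ (meas_ext hΦ hε.ne' hS)
    convert h using 2 with x
    unfold TL.rho
    congr
  exact h1.prodMk ((meas_ln hΦ hε.ne' hS).prodMk (meas_depth hS))

/-- The worlds of lines, as sets. -/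
theorem rs_lwd (hΦ : IsPotential Φ) (hε : 0 < ε) {U : X → Set Src} (hU : RS U)
    (hT : Measurable T) (hρ : Measurable ρ) :
    RS fun x => TL.lwd Φ ε (TL.rho Φ ε (T x) (ρ x)) (U x) (T x) := by
  have h : Measurable fun p : X × CTree => TL.msrc Φ ε (TL.rho Φ ε (T p.1) (ρ p.1)) p.2 :=
    meas_msrc hΦ hε (hT.comp measurable_fst) (hρ.comp measurable_fst) measurable_snd
  exact hU.union ((rs_outs hT).image (g := fun x y => TL.msrc Φ ε (TL.rho Φ ε (T x) (ρ x)) y) h)

/-- `∃` two trees of random worlds and a time at most `t`. -/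
theorem measurableSet_exists₂ {A B : X → Set Src} (hA : RS A) (hB : RS B) (ht : Measurable t)
    {E : X → CTree → CTree → Set ℝ} (hE : SC fun q : (X × CTree) × CTree => E q.1.1 q.1.2 q.2)
    (hp : ∀ x p y s, s ∈ E x p y → p.leaves ⊆ A x) (hy : ∀ x p y s, s ∈ E x p y → y.leaves ⊆ B x) :
    MeasurableSet {x | ∃ p y s, s ≤ t x ∧ s ∈ E x p y} := by
  have h1 : MeasurableSet {q : (X × CTree) × CTree | ∃ s ≤ t q.1.1, s ∈ E q.1.1 q.1.2 q.2} :=
    hE.exists_le (ht.comp measurable_fst.fst)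
  have h2 := (RS.trees (hB.comp (measurable_fst (α := X) (β := CTree)))).measurableSet_exists h1
  have h3 := (RS.trees hA).measurableSet_exists h2
  convert h3 using 1
  ext x
  simp only [mem_ofPred_eq]
  constructor
  · rintro ⟨p, y, s, hs, h⟩
    exact ⟨p, hp x p y s h, y, hy x p y s h, s, hs, h⟩
  · rintro ⟨p, -, y, -, s, hs, h⟩
    exact ⟨p, y, s, hs, h⟩

/-- The independence of the lines is a measurable event. -/
theorem measurableSet_LGood (hΦ : IsPotential Φ) (hε : 0 < ε) (hV : RS fun x => (V x : Set Src))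
    (hT : Measurable T) (hρ : Measurable ρ) (ht : Measurable t) :
    MeasurableSet {x | TL.LGood Φ ε L (V x) (T x) (ρ x) (t x)} := by
  classical
  -- injectivity
  have hA : MeasurableSet {x | ∀ p ∈ TL.outs (T x), ∀ y ∈ TL.outs (T x),
      TL.msrc Φ ε (TL.rho Φ ε (T x) (ρ x)) p = TL.msrc Φ ε (TL.rho Φ ε (T x) (ρ x)) y →
        p = y} := by
    have h1 : MeasurableSet {q : (X × CTree) × CTree |
        TL.msrc Φ ε (TL.rho Φ ε (T q.1.1) (ρ q.1.1)) q.1.2 =
          TL.msrc Φ ε (TL.rho Φ ε (T q.1.1) (ρ q.1.1)) q.2 → q.1.2 = q.2} := by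
      have e1 := measurableSet_eq_fun
        (meas_msrc (X := (X × CTree) × CTree) hΦ hε (hT.comp measurable_fst.fst)
          (hρ.comp measurable_fst.fst) measurable_fst.snd)
        (meas_msrc (X := (X × CTree) × CTree) hΦ hε (hT.comp measurable_fst.fst)
          (hρ.comp measurable_fst.fst) measurable_snd)
      have e2 : MeasurableSet {q : (X × CTree) × CTree | q.1.2 = q.2} :=
        measurableSet_eq_fun measurable_fst.snd measurable_snd
      convert e1.compl.union e2 using 1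
      ext q
      simp only [mem_ofPred_eq, mem_union, mem_compl_iff]
      tauto
    have h2 := (rs_outs (hT.comp (measurable_fst (α := X) (β := CTree)))).measurableSet_forall h1
    exact (rs_outs hT).measurableSet_forall h2
  have hB : MeasurableSet {x | ∀ p ∈ TL.outs (T x),
      TL.msrc Φ ε (TL.rho Φ ε (T x) (ρ x)) p ∉ V x} := by
    have h1 := ((hV.comp (measurable_fst (α := X) (β := CTree))).measurableSet_mem_of
      (meas_msrc (X := X × CTree) hΦ hε (hT.comp measurable_fst) (hρ.comp measurable_fst)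
        measurable_snd)).compl
    exact (rs_outs hT).measurableSet_forall h1
  have hU := rs_lwd hΦ hε hV hT hρ
  have hfin : ∀ x, (TL.lwd Φ ε (TL.rho Φ ε (T x) (ρ x)) (V x : Set Src) (T x)).Finite := fun x =>
    (V x).finite_toSet.union ((TL.outs_finite _).image _)
  have hC : MeasurableSet {x | ∃ p y s, s ≤ t x ∧
      (live Φ ε L (TL.lwd Φ ε (TL.rho Φ ε (T x) (ρ x)) (V x : Set Src) (T x)) p s ∧
      alive Φ ε L (TL.lwd Φ ε (TL.rho Φ ε (T x) (ρ x)) (V x : Set Src) (T x)) y s ∧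
      (Disjoint p.leaves y.leaves ∧ ¬p.leaves ⊆ (V x : Set Src) ∧ ¬y.leaves ⊆ (V x : Set Src)) ∧
      hit Φ ε p y s)} := by
    refine measurableSet_exists₂ (E := fun x p y => {s |
      live Φ ε L (TL.lwd Φ ε (TL.rho Φ ε (T x) (ρ x)) (V x : Set Src) (T x)) p s ∧
      alive Φ ε L (TL.lwd Φ ε (TL.rho Φ ε (T x) (ρ x)) (V x : Set Src) (T x)) y s ∧
      (Disjoint p.leaves y.leaves ∧ ¬p.leaves ⊆ (V x : Set Src) ∧ ¬y.leaves ⊆ (V x : Set Src)) ∧
      hit Φ ε p y s}) hU hU ht ?_ (fun x p y s h => h.1.sub) (fun x p y s h => (alive_pre h.2.1).sub)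
    have hp : Measurable fun q : (X × CTree) × CTree => q.1.2 := measurable_fst.snd
    have hy : Measurable fun q : (X × CTree) × CTree => q.2 := measurable_snd
    have hV' : RS fun q : (X × CTree) × CTree => (V q.1.1 : Set Src) := hV.comp measurable_fst.fst
    have hU' := hU.comp (measurable_fst.fst : Measurable fun q : (X × CTree) × CTree => q.1.1)
    exact (SC.tree_live hΦ hε hU' hp).and ((SC.tree_alive hΦ hε hU' (fun q => hfin q.1.1) hy).and
      ((SC.cond ((measurableSet_tree_disjoint hp hy).inter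
        ((measurableSet_tree_leaves_subset hV' hp).compl.inter
          (measurableSet_tree_leaves_subset hV' hy).compl))).and
        (SC.tree_hit hΦ hε.ne' hp hy)))
  convert hA.inter (hB.inter hC.compl) using 1
  ext x
  simp only [mem_ofPred_eq, mem_inter_iff, mem_compl_iff]
  constructor
  · intro h
    refine ⟨fun p hp y hy e => h.inj hp hy e, h.fresh, ?_⟩
    rintro ⟨p, y, s, hs, h1, h2, ⟨h3, h4, h5⟩, h6⟩
    rcases h.indep p y s hs h1 h2 h3 h6 with h7 | h7
    · exact h4 h7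
    · exact h5 h7
  · rintro ⟨h1, h2, h3⟩
    refine ⟨fun p hp y hy e => h1 p hp y hy e, h2, fun p y s hs h4 h5 h6 h7 => ?_⟩
    by_contra hcon
    rw [not_or] at hcon
    exact h3 ⟨p, y, s, hs, h4, h5, ⟨h6, hcon⟩, h7⟩

theorem measurableSet_IndT (hΦ : IsPotential Φ) (hε : 0 < ε) (hV : RS fun x => (V x : Set Src))
    (hW : RS fun x => (W x : Set Src)) (hT : Measurable T) (hρ : Measurable ρ)
    (ht : Measurable t) (hS : Measurable S) :
    MeasurableSet {x | IndT Φ ε L (V x) (T x) (W x) (ρ x) (t x) (S x)} := by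
  have h1 := measurableSet_tree_leaves_subset hV hS
  have h2 := measurableSet_tree_alive hΦ hε (rs_rm hW hS) hT hρ (L := L)
  have h3 : MeasurableSet {x | ρ x = ext Φ ε (T x) ∨
      lives Φ ε L (rm (W x) (S x) : Set Src) (T x) (ρ x)} :=
    (measurableSet_eq_fun hρ (meas_ext hΦ hε.ne' hT)).union
      (measurableSet_tree_lives hΦ hε (rs_rm hW hS) (fun x => Finset.finite_toSet _) hT hρ)
  have h4 := measurableSet_LGood hΦ hε (rs_rm hV hS) hT hρ ht (L := L)
  convert h1.inter (h2.inter (h3.inter h4)) using 1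
  ext x
  exact ⟨fun h => ⟨h.sub, h.alive, h.lives, h.good⟩, fun h => ⟨h.1, h.2.1, h.2.2.1, h.2.2.2⟩⟩

theorem measurableSet_DepT (hΦ : IsPotential Φ) (hε : 0 < ε) (hV : RS fun x => (V x : Set Src))
    (hW : RS fun x => (W x : Set Src)) (hT : Measurable T) (hρ : Measurable ρ)
    (ht : Measurable t) (hS : Measurable S) :
    MeasurableSet {x | DepT Φ ε L (V x) (T x) (W x) (ρ x) (t x) (S x)} := by
  have hU := rs_lnw hΦ hε hV hT hρ
  have e := meas_ext hΦ hε.ne' hS
  have h5 : MeasurableSet {x | ∃ s < CTree.ext Φ ε (S x),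
      (RB.Y Φ ε L hΦ hε).Exp (TL.lnw Φ ε (V x) (T x) (ρ x)) (S x).root s} :=
    (msys_Y hΦ hε).measurableSet_exp_lt hU (meas_root hS) e
  have h := (measurableSet_tree_leaves_subset hU hS).inter
    ((meas_depth hS (measurableSet_Iic (a := L))).inter ((measurableSet_le e ht).inter
      ((measurableSet_tree_alive hΦ hε hU hS e (L := L)).inter (h5.compl.inter
        (measurableSet_IndT hΦ hε hV hW hT hρ ht hS (L := L)).compl))))
  convert h using 1
  ext x
  exact ⟨fun h => ⟨h.sub, h.depth, h.ext_le, h.alive,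
      fun ⟨s, hs, he⟩ => h.root hΦ hε s hs he, h.dep⟩,
    fun h => ⟨h.1, h.2.1, h.2.2.1, h.2.2.2.1, fun _ _ s hs he => h.2.2.2.2.1 ⟨s, hs, he⟩,
      h.2.2.2.2.2⟩⟩

theorem measurable_relT (hΦ : IsPotential Φ) (hε : 0 < ε) (hV : RS fun x => (V x : Set Src))
    (hW : RS fun x => (W x : Set Src)) (hT : Measurable T) (hρ : Measurable ρ)
    (ht : Measurable t) :
    Measurable fun x => relT Φ ε L (V x) (T x) (W x) (ρ x) (t x) := by
  classical
  have h := measurable_tsum_trees (X := X) (rs_lnw hΦ hε hV hT hρ) (P := {p : X × CTree |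
    DepT Φ ε L (V p.1) (T p.1) (W p.1) (ρ p.1) (t p.1) p.2})
    (measurableSet_DepT hΦ hε (hV.comp measurable_fst) (hW.comp measurable_fst)
      (hT.comp measurable_fst) (hρ.comp measurable_fst) (ht.comp measurable_fst) measurable_snd)
    (fun x S h => h.sub)
    (F := fun p => ENNReal.ofReal (1 + ‖(ln Φ ε p.2).2‖))
    ((measurable_const.add (meas_ln hΦ hε.ne' measurable_snd).snd.norm).ennreal_ofReal)
  exact h

end lines

end Vale.Agent.P119.RM
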