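import Vale.Agent.P119.RM.Cont
import Vale.Agent.P119.PB.PairGood

/-!
# P119: measurability of the good event of a colliding pair (`helper758`)

* `mgood_pks_iff`, `measurableSet_MGood_pks`: the packets are one random set `P x` and the singletons
  of a random set `E x`;
* `measurableSet_PGood`, `measurableSet_PAl`, `measurableSet_IndP`, `rs_lw2`;
* `measurable_relI`, `measurable_relP` (`helper384`).
-/

open MeasureTheory Filter Topology Set
open scoped ENNReal

noncomputable section

namespace Vale.Agent.P119.RM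

open KU M CTree MM FB IND

variable {Φ : E3 → ℝ} {ε : ℝ} {L : ℕ} {hΦ : IsPotential Φ} {hε : 0 < ε}

open Classical in
/-- The good event for one packet and singletons. -/
theorem mgood_pks_iff {V P E : Finset Src} {t : ℝ} :
    M.Good Φ ε L V id (insert P (E.image PB.sgl)) t ↔ (∀ a ∈ V, 0 ≤ a.1 ∧ a.2.2 ≤ L) ∧
      (∀ a ∈ P, 0 ≤ a.1 ∧ a.2.2 ≤ L) ∧ (∀ a ∈ E, 0 ≤ a.1 ∧ a.2.2 ≤ L) ∧
      NI1 Φ ε L (V : Set Src) (P : Set Src) t ∧ (∀ a ∈ E, NI1 Φ ε L (V : Set Src) {a} t) ∧
      (∀ a ∈ E, (P : Set Src) ≠ {a} → NI2 Φ ε L (V : Set Src) (P : Set Src) {a} t ∧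
        NI2 Φ ε L (V : Set Src) {a} (P : Set Src) t) ∧
      (∀ a ∈ E, ∀ b ∈ E, a ≠ b → NI2 Φ ε L (V : Set Src) {a} {b} t) := by
  have hs : ∀ a : Src, ((PB.sgl a : Finset Src) : Set Src) = {a} := fun a => Finset.coe_singleton a
  rw [mgood_iff]
  constructor
  · rintro ⟨h1, h2, h3⟩
    have m0 : P ∈ insert P (E.image PB.sgl) := Finset.mem_insert_self _ _
    have m1 : ∀ a ∈ E, PB.sgl a ∈ insert P (E.image PB.sgl) := fun a ha =>
      Finset.mem_insert_of_mem (Finset.mem_image_of_mem _ ha)
    refine ⟨h1, h2 P m0, fun a ha => h2 _ (m1 a ha) a (Finset.mem_singleton_self a),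
      h3.one P m0, fun a ha => ?_, fun a ha hne => ?_, fun a ha b hb hab => ?_⟩
    · have := h3.one _ (m1 a ha)
      rw [← hs]
      exact this
    · have hne' : P ≠ PB.sgl a := fun h => hne (by rw [h, hs])
      rw [← hs]
      exact ⟨h3.two P m0 _ (m1 a ha) hne', h3.two _ (m1 a ha) P m0 hne'.symm⟩
    · rw [← hs, ← hs]
      exact h3.two _ (m1 a ha) _ (m1 b hb) fun h => hab (Finset.singleton_injective h)
  · rintro ⟨h1, h2, h3, h4, h5, h6, h7⟩
    have hc : ∀ A ∈ insert P (E.image PB.sgl), A = P ∨ ∃ a ∈ E, A = PB.sgl a := by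
      intro A hA
      rcases Finset.mem_insert.1 hA with h | h
      · exact Or.inl h
      · obtain ⟨a, ha, rfl⟩ := Finset.mem_image.1 h
        exact Or.inr ⟨a, ha, rfl⟩
    refine ⟨h1, fun A hA => ?_, fun A hA => ?_, fun A hA B hB hAB => ?_⟩
    · rcases hc A hA with rfl | ⟨a, ha, rfl⟩
      · exact h2
      · intro b hb
        rw [Finset.mem_singleton.1 hb]
        exact h3 a ha
    · rcases hc A hA with rfl | ⟨a, ha, rfl⟩
      · exact h4
      · have := h5 a ha
        rw [← hs] at this
        exact this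
    · rcases hc A hA with rfl | ⟨a, ha, rfl⟩ <;> rcases hc B hB with rfl | ⟨b, hb, rfl⟩
      · exact absurd rfl hAB
      · have := (h6 b hb fun h => hAB (Finset.coe_injective (h.trans (hs b).symm))).1
        rw [← hs] at this
        exact this
      · have := (h6 a ha fun h => hAB (Finset.coe_injective (h.trans (hs a).symm)).symm).2
        rw [← hs] at this
        exact this
      · have := h7 a ha b hb fun h => hAB (by rw [h])
        rw [← hs, ← hs] at this
        exact this

section good

variable {X : Type*} [MeasurableSpace X] {V P E : X → Finset Src} {t : X → ℝ}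

open Classical in
/-- **The good event for one packet and singletons.** -/
theorem measurableSet_MGood_pks (hΦ : IsPotential Φ) (hε : 0 < ε)
    (hV : RS fun x => (V x : Set Src)) (hP : RS fun x => (P x : Set Src))
    (hE : RS fun x => (E x : Set Src)) (ht : Measurable t) :
    MeasurableSet {x | M.Good Φ ε L (V x) id (insert (P x) ((E x).image PB.sgl)) (t x)} := by
  simp only [mgood_pks_iff]
  have hV1 : RS fun p : X × Src => (V p.1 : Set Src) := hV.comp measurable_fst
  have hP1 : RS fun p : X × Src => (P p.1 : Set Src) := hP.comp measurable_fst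
  have hS1 : RS fun p : X × Src => ({p.2} : Set Src) := RS.singleton measurable_snd
  have fS : ∀ a : Src, ({a} : Set Src).Finite := fun a => finite_singleton a
  have ht1 : Measurable fun p : X × Src => t p.1 := ht.comp measurable_fst
  have m1 := measurableSet_births (L := L) hV
  have m2 := measurableSet_births (L := L) hP
  have m3 := measurableSet_births (L := L) hE
  have m4 := measurableSet_NI1 (L := L) hΦ hε hV (fun x => (V x).finite_toSet) hP
    (fun x => (P x).finite_toSet) ht
  have m5 := hE.measurableSet_forall (measurableSet_NI1 (L := L) hΦ hε hV1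
    (fun p => (V p.1).finite_toSet) hS1 (fun p => fS _) ht1)
  have m6 : MeasurableSet {p : X × Src | (P p.1 : Set Src) = {p.2}} := by
    have h1 : MeasurableSet {q : (X × Src) × Src | q.2 = q.1.2} :=
      measurableSet_eq_fun measurable_snd measurable_fst.snd
    have h2 := hP1.measurableSet_forall h1
    have h3 := hP1.measurableSet_mem_of (measurable_snd (α := X) (β := Src))
    convert h2.inter h3 using 1
    ext p
    simp only [mem_ofPred_eq, mem_inter_iff]
    constructor
    · intro h
      rw [h]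
      exact ⟨fun b hb => hb, rfl⟩
    · rintro ⟨h4, h5⟩
      exact subset_antisymm (fun b hb => h4 b hb) (singleton_subset_iff.2 h5)
  have m7 : MeasurableSet {p : X × Src | (P p.1 : Set Src) ≠ {p.2} →
      NI2 Φ ε L (V p.1 : Set Src) (P p.1 : Set Src) {p.2} (t p.1) ∧
        NI2 Φ ε L (V p.1 : Set Src) {p.2} (P p.1 : Set Src) (t p.1)} := by
    have h1 := measurableSet_NI2 (L := L) hΦ hε hV1 (fun p => (V p.1).finite_toSet) hP1
      (fun p => (P p.1).finite_toSet) hS1 (fun p => fS _) ht1
    have h2 := measurableSet_NI2 (L := L) hΦ hε hV1 (fun p => (V p.1).finite_toSet) hS1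
      (fun p => fS _) hP1 (fun p => (P p.1).finite_toSet) ht1
    convert m6.union (h1.inter h2) using 1
    ext p
    simp only [mem_ofPred_eq, mem_union, mem_inter_iff, ne_eq]
    exact or_iff_not_imp_left.symm
  have m8 := hE.measurableSet_forall m7
  have m9 : MeasurableSet {q : (X × Src) × Src | q.1.2 ≠ q.2 →
      NI2 Φ ε L (V q.1.1 : Set Src) {q.1.2} {q.2} (t q.1.1)} := by
    have h1 := measurableSet_NI2 (L := L) hΦ hε
      (hV.comp (measurable_fst.fst : Measurable fun q : (X × Src) × Src => q.1.1))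
      (fun p => (V p.1.1).finite_toSet)
      (RS.singleton (measurable_fst.snd : Measurable fun q : (X × Src) × Src => q.1.2))
      (fun p => fS _) (RS.singleton (measurable_snd : Measurable fun q : (X × Src) × Src => q.2))
      (fun p => fS _) (ht.comp measurable_fst.fst)
    have h2 : MeasurableSet {q : (X × Src) × Src | q.1.2 = q.2} :=
      measurableSet_eq_fun measurable_fst.snd measurable_snd
    convert h2.union h1 using 1
    ext p
    simp only [mem_ofPred_eq, mem_union, ne_eq]
    exact or_iff_not_imp_left.symm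
  have m10 := hE.measurableSet_forall
    ((hE.comp (measurable_fst (α := X) (β := Src))).measurableSet_forall m9)
  exact m1.inter (m2.inter (m3.inter (m4.inter (m5.inter (m8.inter m10)))))

end good

section pair

variable {X : Type} [MeasurableSpace X] {U V : X → Finset Src} {x' y' S : X → CTree} {t : X → ℝ}

theorem rs_prk (hΦ : IsPotential Φ) (hε : 0 < ε) (hx : Measurable x') (hy : Measurable y') :
    RS fun x => (PB.prk Φ ε (x' x) (y' x) : Set Src) := by
  classical
  refine ((RS.singleton (meas_rsrc hΦ hε hx)).union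
    (RS.singleton (meas_rsrc hΦ hε hy))).congr fun x => ?_
  ext a
  rw [Finset.mem_coe, PB.mem_prk]
  rfl

theorem rs_exl₂ [DecidableEq Src] (hΦ : IsPotential Φ) (hε : 0 < ε) (hx : Measurable x')
    (hy : Measurable y') : RS fun x => ((TL.exl Φ ε (x' x) ∪ TL.exl Φ ε (y' x) : Finset Src) :
      Set Src) := by
  refine ((rs_exl hΦ hε hx).union (rs_exl hΦ hε hy)).congr fun x => ?_
  rw [Finset.coe_union]

theorem rs_lw2 (hΦ : IsPotential Φ) (hε : 0 < ε) (hU : RS fun x => (U x : Set Src))
    (hx : Measurable x') (hy : Measurable y') :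
    RS fun x => (PB.lw2 Φ ε (U x) (x' x) (y' x) : Set Src) := by
  refine (hU.union (((rs_outs hx).union (rs_outs hy)).image_of_measurable
    (M.measurable_rsrc hΦ hε.ne'))).congr fun x => ?_
  ext a
  rw [Finset.mem_coe, PB.mem_lw2]
  rfl

/-- **The good event of a pair.** -/
theorem measurableSet_PGood (hΦ : IsPotential Φ) (hε : 0 < ε) (hU : RS fun x => (U x : Set Src))
    (hx : Measurable x') (hy : Measurable y') (ht : Measurable t) :
    MeasurableSet {x | PB.PGood Φ ε L (U x) (x' x) (y' x) (t x)} := by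
  classical
  have h1 := hU.measurableSet_disjoint (RS.leaves (meas_node hx hy))
  have hO : RS fun x => TL.outs (x' x) ∪ TL.outs (y' x) := (rs_outs hx).union (rs_outs hy)
  have h2 : MeasurableSet {x | InjOn (rsrc Φ ε) (TL.outs (x' x) ∪ TL.outs (y' x))} := by
    have e0 : MeasurableSet {q : (X × CTree) × CTree |
        rsrc Φ ε q.1.2 = rsrc Φ ε q.2 → q.1.2 = q.2} := by
      have e1 : MeasurableSet {q : (X × CTree) × CTree | rsrc Φ ε q.1.2 = rsrc Φ ε q.2} :=
        measurableSet_eq_fun ((M.measurable_rsrc hΦ hε.ne').comp measurable_fst.snd)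
          ((M.measurable_rsrc hΦ hε.ne').comp measurable_snd)
      have e2 : MeasurableSet {q : (X × CTree) × CTree | q.1.2 = q.2} :=
        measurableSet_eq_fun measurable_fst.snd measurable_snd
      convert e1.compl.union e2 using 1
      ext q
      simp only [mem_ofPred_eq, mem_union, mem_compl_iff]
      tauto
    have e3 := (hO.comp (measurable_fst (α := X) (β := CTree))).measurableSet_forall e0
    exact hO.measurableSet_forall e3
  have h3 := measurableSet_MGood_pks (L := L) hΦ hε hU (rs_prk hΦ hε hx hy)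
    (rs_exl₂ hΦ hε hx hy) ht
  convert h1.inter (h2.inter h3) using 1
  ext x
  exact ⟨fun h => ⟨h.disj, h.inj, h.good⟩, fun h => ⟨h.1, h.2.1, h.2.2⟩⟩

/-- The pair is alive and unexposed. -/
theorem measurableSet_PAl (hV : RS fun x => (V x : Set Src)) (hx : Measurable x')
    (hy : Measurable y') :
    MeasurableSet {x | PB.PAl Φ ε L hΦ hε (V x) (x' x) (y' x)} := by
  have ex := meas_ext hΦ hε.ne' hx
  have ey := meas_ext hΦ hε.ne' hy
  have h1 : MeasurableSet {x | Disjoint (x' x).leaves (y' x).leaves} :=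
    measurableSet_tree_disjoint hx hy
  have h2 := measurableSet_tree_alive hΦ hε hV hx ex (L := L)
  have h3 := measurableSet_tree_alive hΦ hε hV hy ey (L := L)
  have h4 := (msys_Y hΦ hε (L := L)).measurableSet_exp_lt hV (meas_root hx) ex
  have h5 := (msys_Y hΦ hε (L := L)).measurableSet_exp_lt hV (meas_root hy) ey
  convert h1.inter (h2.inter (h3.inter (h4.compl.inter h5.compl))) using 1
  ext x
  simp only [mem_ofPred_eq, mem_inter_iff, mem_compl_iff, not_exists, not_and]
  exact ⟨fun h => ⟨h.disj, h.ax, h.ay, h.ux, h.uy⟩,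
    fun h => ⟨h.1, h.2.1, h.2.2.1, h.2.2.2.1, h.2.2.2.2⟩⟩

/-- The independence of a tree. -/
theorem measurableSet_IndP (hΦ : IsPotential Φ) (hε : 0 < ε) (hU : RS fun x => (U x : Set Src))
    (hx : Measurable x') (hy : Measurable y') (ht : Measurable t) (hS : Measurable S) :
    MeasurableSet {x | PB.IndP Φ ε L (U x) (x' x) (y' x) (t x) (S x)} := by
  have h1 : MeasurableSet {x | (S x).leaves ⊆ (U x : Set Src)} :=
    measurableSet_tree_leaves_subset hU hS
  have hadd : RS fun x => (PB.addT (U x) (node (x' x) (y' x)) : Set Src) :=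
    PB.rs_addT hU (meas_node hx hy)
  have hrm : RS fun x => (PB.rm (PB.addT (U x) (node (x' x) (y' x))) (S x) : Set Src) :=
    rs_rm hadd hS
  have h2 := measurableSet_tree_alive hΦ hε hrm hx (meas_ext hΦ hε.ne' hx) (L := L)
  have h3 := measurableSet_tree_alive hΦ hε hrm hy (meas_ext hΦ hε.ne' hy) (L := L)
  have h4 := measurableSet_PGood (L := L) hΦ hε (rs_rm hU hS) hx hy ht
  convert h1.inter (h2.inter (h3.inter h4)) using 1
  ext x
  exact ⟨fun h => ⟨h.sub, h.ax, h.ay, h.good⟩, fun h => ⟨h.1, h.2.1, h.2.2.1, h.2.2.2⟩⟩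

open Classical in
/-- **The weighted number of the trees which are not independent is measurable.** -/
theorem measurable_relI (hΦ : IsPotential Φ) (hε : 0 < ε) (hV : RS fun x => (V x : Set Src))
    (ht : Measurable t) {I : X → CTree → Prop}
    (hI : MeasurableSet {p : X × CTree | I p.1 p.2}) :
    Measurable fun x => TL.relI Φ ε L (V x) (t x) (I x) := by
  have he : Measurable fun p : X × CTree => ext Φ ε p.2 := meas_ext hΦ hε.ne' measurable_snd
  have hV1 : RS fun p : X × CTree => (V p.1 : Set Src) := hV.comp measurable_fst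
  have h5 : MeasurableSet {p : X × CTree | ∃ s < ext Φ ε p.2,
      (RB.Y Φ ε L hΦ hε).Exp (V p.1) p.2.root s} :=
    (msys_Y hΦ hε).measurableSet_exp_lt hV1 (meas_root measurable_snd) he
  have h6 : {p : X × CTree | ∀ (hΦ : IsPotential Φ) (hε : 0 < ε), ∀ s < ext Φ ε p.2,
      ¬(RB.Y Φ ε L hΦ hε).Exp (V p.1) p.2.root s} = {p : X × CTree | ∃ s < ext Φ ε p.2,
      (RB.Y Φ ε L hΦ hε).Exp (V p.1) p.2.root s}ᶜ := by
    ext p
    exact ⟨fun h ⟨s, hs, he⟩ => h hΦ hε s hs he, fun h _ _ s hs he => h ⟨s, hs, he⟩⟩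
  have hP : MeasurableSet {p : X × CTree | p.2.leaves ⊆ (V p.1 : Set Src) ∧ p.2.depth ≤ L ∧
      ext Φ ε p.2 ≤ t p.1 ∧ alive Φ ε L (V p.1 : Set Src) p.2 (ext Φ ε p.2) ∧
      (∀ (hΦ : IsPotential Φ) (hε : 0 < ε), ∀ s < ext Φ ε p.2,
        ¬(RB.Y Φ ε L hΦ hε).Exp (V p.1) p.2.root s) ∧ ¬I p.1 p.2} :=
    (measurableSet_tree_leaves_subset hV1 measurable_snd).inter
      ((meas_depth measurable_snd (measurableSet_Iic (a := L))).inter
        ((measurableSet_le he (ht.comp measurable_fst)).inter
          ((measurableSet_tree_alive hΦ hε hV1 measurable_snd he).inter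
            ((h6 ▸ h5.compl).inter hI.compl))))
  exact measurable_tsum_trees (X := X) hV hP (fun x S h => h.1)
    (F := fun p => ENNReal.ofReal (1 + ‖(ln Φ ε p.2).2‖))
    ((measurable_const.add (meas_ln hΦ hε.ne' measurable_snd).snd.norm).ennreal_ofReal)

/-- **The weighted number of the trees which are not independent of a pair.** -/
theorem measurable_relP (hΦ : IsPotential Φ) (hε : 0 < ε) (hU : RS fun x => (U x : Set Src))
    (hx : Measurable x') (hy : Measurable y') (ht : Measurable t) :
    Measurable fun x => PB.relP Φ ε L (U x) (x' x) (y' x) (t x) :=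
  measurable_relI hΦ hε (rs_lw2 hΦ hε hU hx hy) ht
    (measurableSet_IndP (L := L) hΦ hε (hU.comp measurable_fst) (hx.comp measurable_fst)
      (hy.comp measurable_fst) (ht.comp measurable_fst) measurable_snd)

end pair

end Vale.Agent.P119.RM
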