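import Vale.Agent.P119.RM.Exc
import Vale.Agent.P119.RM.PGood
import Vale.Agent.P119.FB.Unfelt
import Vale.Agent.P119.PB.ContCre3
import Vale.Agent.P119.PB.ContPair
import Vale.Agent.P119.PB.ContCount2

/-!
# P119: measurability of the exceptional events, II (`helper758`)

* `measurableSet_TriP`, `measurableSet_TriW`, `measurableSet_NoExc`, `rs_kA`, `rs_kB`;
* `measurableSet_CEF`, `measurableSet_CEP`, `measurableSet_PExc`;
* `measurable_GGL`, `measurableSet_DirG`, `measurableSet_FelL`, `measurableSet_TEu`,
  `measurableSet_FelS`, `measurable_S6`, `measurableSet_PairG`, `measurable_main6`,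
  `measurableSet_I6`, `measurable_relHit`, `measurable_B6` (`helper178`).
-/

open MeasureTheory Filter Topology Set
open scoped ENNReal

noncomputable section

namespace Vale.Agent.P119.RM

open KU M CTree MM FB PB RB

variable {Φ : E3 → ℝ} {ε : ℝ} {L : ℕ} {hΦ : IsPotential Φ} {hε : 0 < ε}

section basic

variable {X : Type} [MeasurableSpace X] {W U V : X → Finset Src} {f e m : X → Src}
  {t h : X → ℝ} {T S x' y' : X → CTree}

/-- **A third body at a colliding pair.** -/
theorem measurableSet_TriP (hΦ : IsPotential Φ) (hε : 0 < ε)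
    (hW : RS fun x => (W x : Set Src)) (hx : Measurable x') (hy : Measurable y')
    (ht : Measurable t) : MeasurableSet {x | TriP Φ ε L (W x) (x' x) (y' x) (t x)} := by
  have hn : Measurable fun x => node (x' x) (y' x) := meas_node hx hy
  have hn' : Measurable fun x => node (y' x) (x' x) := meas_node hy hx
  have h1 := SC.exists_live hΦ hε hW (L := L) (A := fun x S => {s |
      Ctc ε (st Φ ε (node (x' x) (y' x)) s) (st Φ ε S s) ∨
        Ctc ε (st Φ ε (node (y' x) (x' x)) s) (st Φ ε S s)}) fun S hS =>
    (SC.path_ctc (MPath.tree hΦ hε hn) (MPath.tree hΦ hε hS)).or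
      (SC.path_ctc (MPath.tree hΦ hε hn') (MPath.tree hΦ hε hS))
  exact ((SC.gt (meas_sig hΦ hε.ne' hn)).and ((SC.le (meas_ext hΦ hε.ne' hn)).and h1)).exists_le ht

/-- **Three bodies** (`helper119`). -/
theorem measurableSet_TriW (hΦ : IsPotential Φ) (hε : 0 < ε)
    (hW : RS fun x => (W x : Set Src)) (hT : Measurable T) (hf : Measurable f)
    (ht : Measurable t) : MeasurableSet {x | TriW Φ ε L (W x) (T x) (f x) (t x)} :=
  measurableSet_Tri_ne hΦ hε hW hT hf ht

/-! ### The good events of one step -/

theorem meas_kcS (hΦ : IsPotential Φ) (hε : 0 < ε) (hT : Measurable T) (hf : Measurable f) :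
    Measurable fun x => kcS Φ ε (T x) (f x) :=
  (meas_sig hΦ hε.ne' (meas_node hT (meas_leaf hf))).prodMk
    ((meas_ln hΦ hε.ne' hT).prodMk (M.measurable_depth.comp hT))

theorem rs_kA (hΦ : IsPotential Φ) (hε : 0 < ε) (hT : Measurable T) (hf : Measurable f) :
    RS fun x => (kA Φ ε (T x) (f x) : Set Src) := by
  refine ((RS.singleton (meas_kcS hΦ hε hT hf)).union (rs_exl hΦ hε hT)).congr fun x => ?_
  ext a
  rw [Finset.mem_coe, mem_kA]
  rfl

theorem rs_kB (hΦ : IsPotential Φ) (hε : 0 < ε) (hT : Measurable T) (hf : Measurable f) :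
    RS fun x => (kB Φ ε (T x) (f x) : Set Src) := by
  have h1 : Measurable fun x => rsrc Φ ε (node (T x) (leaf (f x))) :=
    meas_rsrc hΦ hε (meas_node hT (meas_leaf hf))
  have h2 : Measurable fun x => rsrc Φ ε (node (leaf (f x)) (T x)) :=
    meas_rsrc hΦ hε (meas_node (meas_leaf hf) hT)
  refine ((RS.singleton h1).union ((RS.singleton h2).union (rs_exl hΦ hε hT))).congr fun x => ?_
  ext a
  rw [Finset.mem_coe, mem_kB]
  rfl

theorem rs_sgl : RS fun a : Src => ((sgl a : Finset Src) : Set Src) :=
  (RS.singleton (measurable_id (α := Src))).congr fun _ => Finset.coe_singleton _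

/-- The good event for singletons. -/
theorem measurableSet_MGood_sgl (hΦ : IsPotential Φ) (hε : 0 < ε)
    (hV : RS fun x => (V x : Set Src)) {K : X → Finset Src} (hK : RS fun x => (K x : Set Src))
    (ht : Measurable t) : MeasurableSet {x | M.Good Φ ε L (V x) sgl (K x) (t x)} :=
  measurableSet_MGood_rs hΦ hε hV (Z := fun _ => sgl) (rs_sgl.comp measurable_snd) hK ht

/-- The outgoing lines are distinct. -/
theorem measurableSet_inj_node (hΦ : IsPotential Φ) (hε : 0 < ε) (hT : Measurable T)
    (hf : Measurable f) :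
    MeasurableSet {x | InjOn (rsrc Φ ε) (TL.outs (node (T x) (leaf (f x))))} :=
  measurableSet_inj_rsrc hΦ hε (meas_node hT (meas_leaf hf))

/-- **No exceptional event** (`helper119`). -/
theorem measurableSet_NoExc (hΦ : IsPotential Φ) (hε : 0 < ε)
    (hV : RS fun x => (V x : Set Src)) (hT : Measurable T) (hf : Measurable f)
    (ht : Measurable t) : MeasurableSet {x | NoExc Φ ε L (t x) (f x) (V x) (T x)} := by
  have hl : Measurable fun x => (f x).2.1 := measurable_fst.comp (measurable_snd.comp hf)
  have h1 := measurableSet_exits_pair (ε := ε) hΦ (meas_ln hΦ hε.ne' hT) hl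
  have h2 := measurableSet_inj_rsrc hΦ hε hT
  have h3 := measurableSet_inj_node hΦ hε hT hf
  have h4 := measurableSet_MGood_sgl (L := L) hΦ hε hV (rs_kA hΦ hε hT hf) ht
  have h5 := measurableSet_MGood_sgl (L := L) hΦ hε hV (rs_kB hΦ hε hT hf) ht
  have h6 := measurableSet_TriW (L := L) hΦ hε (PB.rs_addT hV hT) hT hf ht
  have hd : Measurable fun x => max (f x).2.2 (T x).depth + 1 :=
    ((measurable_snd.comp (measurable_snd.comp hf)).max (M.measurable_depth.comp hT)).add_const 1
  have h7 : MeasurableSet {x | max (f x).2.2 (T x).depth + 1 ≤ L} := hd (measurableSet_Iic (a := L))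
  convert h1.inter (h2.inter (h3.inter (h4.inter ((h7.compl.union h5).inter h6.compl)))) using 1
  ext x
  refine ⟨fun h => ⟨h.exits, h.inj, h.inj', h.ga, ?_, h.tri⟩,
    fun h => ⟨h.1, h.2.1, h.2.2.1, h.2.2.2.1, fun hd => ?_, h.2.2.2.2.2⟩⟩
  · by_cases hd : max (f x).2.2 (T x).depth + 1 ≤ L
    · exact Or.inr (h.gb hd)
    · exact Or.inl hd
  · exact h.2.2.2.2.1.resolve_left fun h' => h' hd

end basic

/-! ### Contamination, refined -/

section cont

variable {X : Type} [MeasurableSpace X] {W U : X → Finset Src} {t h : X → ℝ} {T x' y' : X → CTree}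

/-- **Creation, flying.** -/
theorem measurableSet_CEF (hW : RS fun x => (W x : Set Src)) (hh : Measurable h)
    (hT : Measurable T) : MeasurableSet {x | CEF L hΦ hε (W x) (h x) (T x)} := by
  have hr := meas_root hT
  have hτ := meas_tau (hΦ := hΦ) (hε := hε) (L := L) hW hr
  have h1 := measurableSet_le hτ hh
  have h2 := measurableSet_exp_tau (hΦ := hΦ) (hε := hε) (L := L) hW hr
  have h3 : MeasurableSet {x | EN.PS Φ ε L (W x : Set Src) (T x).root
      (EN.tau (ex L hΦ hε (W x)) (T x).root) (T x)} := measurableSet_PS hΦ hε hW hr hτ hT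
  have h4 : MeasurableSet {x | T x = leaf (T x).root} := measurableSet_eq_fun hT (meas_leaf hr)
  have h5 : MeasurableSet {x | CTree.ext Φ ε (T x) ≤ EN.tau (ex L hΦ hε (W x)) (T x).root} :=
    measurableSet_le (meas_ext hΦ hε.ne' hT) hτ
  have h6 := measurableSet_badc hΦ hε (L := L) hW hr hτ
  convert h1.inter (h2.inter (h3.inter ((h4.union h5).inter h6))) using 1
  ext x
  exact exists_fex_iff

/-- **Creation, colliding.** -/
theorem measurableSet_CEP (hW : RS fun x => (W x : Set Src)) (hh : Measurable h)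
    (hx : Measurable x') (hy : Measurable y') :
    MeasurableSet {x | CEP L hΦ hε (W x) (h x) (x' x) (y' x)} := by
  have hr := meas_root hx
  have hn : Measurable fun x => node (x' x) (y' x) := meas_node hx hy
  have hτ := meas_tau (hΦ := hΦ) (hε := hε) (L := L) hW hr
  have h1 := measurableSet_le hτ hh
  have h2 := measurableSet_exp_tau (hΦ := hΦ) (hε := hε) (L := L) hW hr
  have h3 : MeasurableSet {x | live Φ ε L (W x : Set Src) (node (x' x) (y' x))
      (EN.tau (ex L hΦ hε (W x)) (x' x).root)} := measurableSet_tree_live hΦ hε hW hn hτ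
  have h4 : MeasurableSet {x | sig Φ ε (node (x' x) (y' x)) <
      EN.tau (ex L hΦ hε (W x)) (x' x).root} := measurableSet_lt (meas_sig hΦ hε.ne' hn) hτ
  have h5 : MeasurableSet {x | EN.tau (ex L hΦ hε (W x)) (x' x).root <
      CTree.ext Φ ε (node (x' x) (y' x))} := measurableSet_lt hτ (meas_ext hΦ hε.ne' hn)
  have h6 := measurableSet_badc hΦ hε (L := L) hW hr hτ
  have h7 := measurableSet_badc hΦ hε (L := L) hW (meas_root hy) hτ
  convert h1.inter (h2.inter (h3.inter (h4.inter (h5.inter (h6.union h7))))) using 1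
  ext x
  exact exists_fex_iff

/-- **The exceptional event of a pair** (`helper384`). -/
theorem measurableSet_PExc {η η' η'' : ℝ} (hU : RS fun x => (U x : Set Src))
    (hx : Measurable x') (hy : Measurable y') (ht : Measurable t) :
    MeasurableSet {x | PExc L hΦ hε η η' η'' (t x) (U x) (x' x) (y' x)} := by
  have h1 := measurableSet_PGood (L := L) hΦ hε hU hx hy ht
  have h2 := measurableSet_lt (measurable_const (a := ENNReal.ofReal ((η' - η) * mu ε)))
    (measurable_relP (L := L) hΦ hε hU hx hy ht)
  have hl := rs_lw2 hΦ hε hU hx hy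
  have h3 := measurableSet_lt (measurable_const (a := ENNReal.ofReal ((η'' - η') * mu ε)))
    (measurable_relW (hΦ := hΦ) (hε := hε) (L := L) hl hU ht)
  have h4 : MeasurableSet {p : X × CTree | ENNReal.ofReal ((η'' - η') * mu ε) <
      relW L hΦ hε (lw2 Φ ε (U p.1) (x' p.1) (y' p.1)) (addT (U p.1) (leaf (rsrc Φ ε p.2)))
        (t p.1)} :=
    measurableSet_lt measurable_const (measurable_relW (hl.comp measurable_fst)
      (PB.rs_addT (hU.comp measurable_fst) (meas_leaf (meas_rsrc hΦ hε measurable_snd)))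
      (ht.comp measurable_fst))
  have h5 := ((rs_exs hx).union (rs_exs hy)).measurableSet_exists h4
  exact h1.compl.union (h2.union (h3.union h5))

end cont

end Vale.Agent.P119.RM
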