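import Vale.Agent.P119.RM.Weight
import Vale.Agent.P119.PB.Def

/-!
# P119: measurability of the functionals of `PB/Def.lean` (`helper758`)

For random worlds `W : X → Finset Src` (`RS fun x => (W x : Set Src)`) and measurable sources, trees,
times and thresholds: `ex`, `eW`, `rm`, `fl`, `fW`, `nW`, `hz`, `TT`, `theta`, `GG`.
-/

open MeasureTheory Filter Topology Set
open scoped ENNReal

noncomputable section

namespace Vale.Agent.P119.RM

open KU M CTree MM FB PB

variable {Φ : E3 → ℝ} {ε : ℝ} {L : ℕ} {hΦ : IsPotential Φ} {hε : 0 < ε}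

section basic

variable {X : Type} [MeasurableSpace X] {W V : X → Finset Src} {f g : X → Src} {T : X → CTree}
  {t η w : X → ℝ}

/-! ### Exposed labels -/

theorem measurableSet_mem_ex (hW : RS fun x => (W x : Set Src)) (hf : Measurable f)
    (ht : Measurable t) : MeasurableSet {x | f x ∈ ex L hΦ hε (W x) (t x)} := by
  have h := (msys_Y hΦ hε (L := L)).measurableSet_exp hW hf ht
  convert h using 1
  ext x
  exact mem_ex

theorem rs_ex (hW : RS fun x => (W x : Set Src)) (ht : Measurable t) :
    RS fun x => (ex L hΦ hε (W x) (t x) : Set Src) := by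
  simp only [ex_eq_AX]
  exact rs_AX hΦ hε hW ht

theorem inc_eW (hW : RS fun x => (W x : Set Src)) : Inc fun x s => eW L hΦ hε (W x) s := by
  simp only [eW_eq]
  exact inc_DD hΦ hε hW

theorem measurable_eW (hW : RS fun x => (W x : Set Src)) (ht : Measurable t) :
    Measurable fun x => eW L hΦ hε (W x) (t x) := (inc_eW hW).at ht

/-- The weights of `eW`. -/
theorem meas_wt_ex (hW : RS fun x => (W x : Set Src)) (hf : Measurable f) :
    Measurable fun x => EN.wt Φ ε L (W x) (ex L hΦ hε (W x)) (f x) := by
  simp only [ex_eq_AX']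
  exact meas_wt hΦ hε hW hf

/-! ### Felt trees -/

theorem coe_rm (W : Finset Src) (T : CTree) : (rm W T : Set Src) = (W : Set Src) \ T.leaves := by
  ext a
  rw [Finset.mem_coe, mem_rm, Set.mem_sdiff, Finset.mem_coe]

theorem rs_rm (hW : RS fun x => (W x : Set Src)) (hT : Measurable T) :
    RS fun x => (rm (W x) (T x) : Set Src) :=
  (RS.sdiff_leaves hW hT).congr fun _ => coe_rm _ _

theorem measurableSet_fl (hW : RS fun x => (W x : Set Src)) (hT : Measurable T)
    (ht : Measurable t) : MeasurableSet {x | fl L hΦ hε (W x) (t x) (T x)} := by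
  have hext : Measurable fun x => CTree.ext Φ ε (T x) := meas_ext hΦ hε.ne' hT
  have h1 : MeasurableSet {x | (T x).leaves ⊆ (W x : Set Src)} :=
    measurableSet_tree_leaves_subset hW hT
  have h2 : MeasurableSet {x | (T x).depth ≤ L} := meas_depth hT (measurableSet_Iic (a := L))
  have h3 : MeasurableSet {x | CTree.ext Φ ε (T x) ≤ t x} := measurableSet_le hext ht
  have h4 : MeasurableSet {x | M.alive Φ ε L (W x : Set Src) (T x) (CTree.ext Φ ε (T x))} :=
    measurableSet_tree_alive hΦ hε hW hT hext
  have h5 : MeasurableSet {x | ∃ s < CTree.ext Φ ε (T x),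
      (RB.Y Φ ε L hΦ hε).Exp (W x) (T x).root s} :=
    (msys_Y hΦ hε).measurableSet_exp_lt hW (meas_root hT) hext
  have h6 : MeasurableSet {x | (RB.Y Φ ε L hΦ hε).Touch (rm (W x) (T x)) (W x) (t x)} :=
    (msys_Y hΦ hε).measurableSet_touch (rs_rm hW hT) hW ht
  convert h1.inter (h2.inter (h3.inter (h4.inter (h5.compl.inter h6)))) using 1
  ext x
  simp only [mem_ofPred_eq, mem_inter_iff, mem_compl_iff, not_exists, not_and]
  constructor
  · rintro ⟨a1, a2, a3, a4, a5, a6⟩
    exact ⟨a1, a2, a3, a4, a5, a6⟩
  · rintro ⟨a1, a2, a3, a4, a5, a6⟩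
    exact ⟨a1, a2, a3, a4, a5, a6⟩

/-- The felt trees as a random set. -/
theorem rs_fl (hW : RS fun x => (W x : Set Src)) (ht : Measurable t) :
    RS fun x => {T | fl L hΦ hε (W x) (t x) T} := by
  refine ((RS.trees hW).inter_pred (P := {p : X × CTree | fl L hΦ hε (W p.1) (t p.1) p.2})
    (measurableSet_fl (hW.comp measurable_fst) measurable_snd (ht.comp measurable_fst))).congr
      fun x => ?_
  ext T
  exact ⟨fun h => ⟨h.sub, h⟩, fun h => h.2⟩

theorem SC.fl (hW : RS fun x => (W x : Set Src)) (hT : Measurable T) :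
    SC fun x => {s | PB.fl L hΦ hε (W x) s (T x)} :=
  SC.of_up (fun _ _ _ h hst => PB.fl.mono h hst) fun _ ht => measurableSet_fl hW hT ht

theorem measurable_lnv' (hΦ : IsPotential Φ) (hε : 0 < ε) :
    Measurable fun T : CTree => ENNReal.ofReal (1 + ‖(CTree.ln Φ ε T).2‖) :=
  measurable_lnv hΦ hε

theorem inc_fW (hW : RS fun x => (W x : Set Src)) : Inc fun x s => fW L hΦ hε (W x) s where
  mono _ _ _ hst := fW_mono hst
  meas := by
    have hW' : RS fun p : X × ℝ => (W p.1 : Set Src) := hW.comp measurable_fst
    have hm : Measurable fun q : (X × ℝ) × CTree =>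
        ENNReal.ofReal (1 + ‖(CTree.ln Φ ε q.2).2‖) := (measurable_lnv hΦ hε).comp measurable_snd
    have h := (rs_fl (hΦ := hΦ) (hε := hε) hW' measurable_snd (L := L)).measurable_tsum_indicator hm
    convert h using 2 with p
    unfold fW
    refine tsum_congr fun T => ?_
    simp only [indicator, mem_ofPred_eq]

theorem measurable_fW (hW : RS fun x => (W x : Set Src)) (ht : Measurable t) :
    Measurable fun x => fW L hΦ hε (W x) (t x) := (inc_fW hW).at ht

theorem inc_nW (hW : RS fun x => (W x : Set Src)) : Inc fun x s => nW L hΦ hε (W x) s :=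
  (inc_eW hW).add (inc_fW hW)

theorem measurable_nW (hW : RS fun x => (W x : Set Src)) (ht : Measurable t) :
    Measurable fun x => nW L hΦ hε (W x) (t x) := (inc_nW hW).at ht

/-! ### The stopping time -/

/-- **The stopping time is measurable.** -/
theorem measurable_hz (hW : RS fun x => (W x : Set Src)) (hη : Measurable η) (ht : Measurable t) :
    Measurable fun x => hz L hΦ hε (η x) (t x) (W x) := by
  have hc : Measurable fun x => ENNReal.ofReal (η x * mu ε) :=
    (hη.mul measurable_const).ennreal_ofReal
  have h := ((SC.eq_time ht).or ((inc_nW (hΦ := hΦ) (hε := hε) hW (L := L)).ge hc)).measurable_sInf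
  exact h

/-- Values at a stopping time. -/
theorem measurable_eW_hz (hW : RS fun x => (W x : Set Src)) (hη : Measurable η)
    (ht : Measurable t) :
    Measurable fun x => eW L hΦ hε (W x) (hz L hΦ hε (η x) (t x) (W x)) :=
  measurable_eW hW (measurable_hz hW hη ht)

theorem measurable_fW_hz (hW : RS fun x => (W x : Set Src)) (hη : Measurable η)
    (ht : Measurable t) :
    Measurable fun x => fW L hΦ hε (W x) (hz L hΦ hε (η x) (t x) (W x)) :=
  measurable_fW hW (measurable_hz hW hη ht)

/-! ### Events -/

theorem measurableSet_touch (hV : RS fun x => (V x : Set Src)) (hW : RS fun x => (W x : Set Src))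
    (ht : Measurable t) : MeasurableSet {x | (RB.Y Φ ε L hΦ hε).Touch (V x) (W x) (t x)} :=
  (msys_Y hΦ hε).measurableSet_touch hV hW ht

theorem measurableSet_TT (hW : RS fun x => (W x : Set Src)) (hη : Measurable η)
    (ht : Measurable t) (hw : Measurable w) (hf : Measurable f) :
    MeasurableSet {x | TT L hΦ hε (η x) (t x) (w x) (W x) (f x)} :=
  measurableSet_touch hW (rs_insert hW hf)
    ((measurable_hz hW hη ht).min (hf.fst.add hw))

theorem measurableSet_GG (hW : RS fun x => (W x : Set Src)) (hη : Measurable η)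
    (ht : Measurable t) (hf : Measurable f) (hg : Measurable g) :
    MeasurableSet {x | GG L hΦ hε (η x) (t x) (W x) (f x) (g x)} := by
  have h1 := rs_insert hW hf
  have h2 := measurable_hz (hΦ := hΦ) (hε := hε) (L := L) h1 hη ht
  exact (measurableSet_touch hW h1 h2).inter (measurableSet_touch h1 (rs_insert h1 hg) h2)

theorem measurable_ind {p : X → Prop} (hp : MeasurableSet {x | p x}) :
    Measurable fun x => ind (p x) := by
  classical
  have e : (fun x => ind (p x)) = fun x => if x ∈ {x | p x} then (1 : ℝ≥0∞) else 0 := by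
    funext x
    unfold ind
    by_cases h : p x
    · rw [if_pos h, if_pos (show x ∈ {x | p x} from h)]
    · rw [if_neg h, if_neg (show x ∉ {x | p x} from h)]
  rw [e]
  exact Measurable.ite hp measurable_const measurable_const

end basic

/-! ### Ordinary worlds, integrals -/

section conf

variable {f₀ : Ph → ℝ}

theorem rs_conf : RS fun c : GC.Conf Ph => (AU.wS (GC.pts c) : Set Src) := rs_wS measurable_id

/-- `theta` is measurable in the source, the threshold, the time and the window. -/
theorem measurable_theta [SFinite (GC.PP f₀ ε)] {Z : Type} [MeasurableSpace Z] {η t w : Z → ℝ}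
    (hη : Measurable η) (ht : Measurable t) (hw : Measurable w) {f : Z → Src}
    (hf : Measurable f) :
    Measurable fun z => theta L hΦ hε f₀ (η z) (t z) (w z) (f z) := by
  have h : Measurable fun p : Z × GC.Conf Ph =>
      ind (TT L hΦ hε (η p.1) (t p.1) (w p.1) (AU.wS (GC.pts p.2)) (f p.1)) :=
    measurable_ind (measurableSet_TT (rs_wS measurable_snd) (hη.comp measurable_fst)
      (ht.comp measurable_fst) (hw.comp measurable_fst) (hf.comp measurable_fst))
  exact h.lintegral_prod_right'

end conf

end Vale.Agent.P119.RM
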