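import Vale.Agent.P119.RM.PGood

/-!
# P119: measurability of the condition `the root is not exposed` (`helper758`)

* `measurableSet_unexp`: the label `a x` is not exposed in the random world before the random time;
* `measurableSet_rootT`: the root of an inserted tree is not exposed before its exit;
* `measurableSet_rootP`: the roots of an inserted pair are not exposed before a random time;
* `measurable_ind_and_mul`: the product of an indicator and a measurable weight.
-/

open MeasureTheory Filter Topology Set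
open scoped ENNReal

noncomputable section

namespace Vale.Agent.P119.RM

open KU M CTree MM FB IND

variable {Φ : E3 → ℝ} {ε : ℝ} {L : ℕ}

section unexp

variable {X : Type} [MeasurableSpace X] {V U : X → Finset Src} {a : X → Src}
  {T x' y' : X → CTree} {h : X → ℝ}

/-- The label is not exposed before the time `h`. -/
theorem measurableSet_unexp (hΦ : IsPotential Φ) (hε : 0 < ε) (hV : RS fun x => (V x : Set Src))
    (ha : Measurable a) (hh : Measurable h) :
    MeasurableSet {x | ∀ (hΦ : IsPotential Φ) (hε : 0 < ε), ∀ s < h x,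
      ¬(RB.Y Φ ε L hΦ hε).Exp (V x) (a x) s} := by
  have h5 : MeasurableSet {x | ∃ s < h x, (RB.Y Φ ε L hΦ hε).Exp (V x) (a x) s} :=
    (msys_Y hΦ hε).measurableSet_exp_lt hV ha hh
  have h6 : {x | ∀ (hΦ : IsPotential Φ) (hε : 0 < ε), ∀ s < h x,
      ¬(RB.Y Φ ε L hΦ hε).Exp (V x) (a x) s} =
      {x | ∃ s < h x, (RB.Y Φ ε L hΦ hε).Exp (V x) (a x) s}ᶜ := by
    ext p
    exact ⟨fun h ⟨s, hs, he⟩ => h hΦ hε s hs he, fun h _ _ s hs he => h ⟨s, hs, he⟩⟩
  rw [h6]
  exact h5.compl

/-- The same for given proofs. -/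
theorem measurableSet_unexp' (hΦ : IsPotential Φ) (hε : 0 < ε) (hV : RS fun x => (V x : Set Src))
    (ha : Measurable a) (hh : Measurable h) :
    MeasurableSet {x | ∀ s < h x, ¬(RB.Y Φ ε L hΦ hε).Exp (V x) (a x) s} := by
  have h1 := measurableSet_unexp (L := L) hΦ hε hV ha hh
  refine (congrArg MeasurableSet ?_).mp h1
  ext p
  exact ⟨fun h => h hΦ hε, fun h _ _ => h⟩

/-- The root of the inserted tree is not exposed before its exit. -/
theorem measurableSet_rootT (hΦ : IsPotential Φ) (hε : 0 < ε) (hU : RS fun x => (U x : Set Src))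
    (hT : Measurable T) :
    MeasurableSet {x | ∀ (hΦ : IsPotential Φ) (hε : 0 < ε), ∀ s < ext Φ ε (T x),
      ¬(RB.Y Φ ε L hΦ hε).Exp (PB.addT (U x) (T x)) (T x).root s} :=
  measurableSet_unexp hΦ hε (PB.rs_addT hU hT) (meas_root hT) (meas_ext hΦ hε.ne' hT)

/-- The roots of the inserted pair are not exposed before a time. -/
theorem measurableSet_rootP (hΦ : IsPotential Φ) (hε : 0 < ε) (hU : RS fun x => (U x : Set Src))
    (hx : Measurable x') (hy : Measurable y') (hh : Measurable h) :
    MeasurableSet {x | ∀ (hΦ : IsPotential Φ) (hε : 0 < ε), ∀ s < h x,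
      ¬(RB.Y Φ ε L hΦ hε).Exp (PB.addT (U x) (node (x' x) (y' x))) (x' x).root s ∧
      ¬(RB.Y Φ ε L hΦ hε).Exp (PB.addT (U x) (node (x' x) (y' x))) (y' x).root s} := by
  have hn : Measurable fun x => node (x' x) (y' x) := meas_node hx hy
  have h1 := measurableSet_unexp (L := L) hΦ hε (PB.rs_addT hU hn) (meas_root hx) hh
  have h2 := measurableSet_unexp (L := L) hΦ hε (PB.rs_addT hU hn) (meas_root hy) hh
  refine (congrArg MeasurableSet ?_).mp (h1.inter h2)
  ext p
  exact ⟨fun ⟨h3, h4⟩ a b s hs => ⟨h3 a b s hs, h4 a b s hs⟩,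
    fun h3 => ⟨fun a b s hs => (h3 a b s hs).1, fun a b s hs => (h3 a b s hs).2⟩⟩

end unexp

end Vale.Agent.P119.RM
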