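import Vale.Agent.P119.RM.PGood
import Vale.Agent.P119.RM.Exc2
import Vale.Agent.P119.PB.RPk

/-!
# P119: measurability of the good event of a pair and a tree (`helper758`)

* `goodP_iff`: the packets of the tree `R` and of the pair `x`, `y`: one packet and singletons;
* **`measurableSet_GoodP`**, `measurableSet_Nice`.
-/

open MeasureTheory Filter Topology Set
open scoped ENNReal

noncomputable section

namespace Vale.Agent.P119.RM

open KU M CTree MM FB IND

variable {Φ : E3 → ℝ} {ε : ℝ} {L : ℕ}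

open Classical in
theorem spk_union_pks {x y R : CTree} : PB.spk Φ ε R ∪ PB.pks Φ ε x y =
    insert (PB.prk Φ ε x y) ((PB.srcs Φ ε R ∪ (TL.exl Φ ε x ∪ TL.exl Φ ε y)).image PB.sgl) := by
  unfold PB.spk PB.pks PB.epk
  rw [Finset.union_insert, ← Finset.image_union]

open Classical in
/-- The good event of a pair and a tree. -/
theorem goodP_iff {V : Finset Src} {x y R : CTree} {t : ℝ} :
    PB.GoodP Φ ε L V R (PB.pks Φ ε x y) t ↔ InjOn (rsrc Φ ε) (TL.outs R) ∧
      Disjoint (PB.srcs Φ ε R : Set Src) ((PB.prk Φ ε x y : Set Src) ∪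
        ((TL.exl Φ ε x ∪ TL.exl Φ ε y : Finset Src) : Set Src)) ∧
      M.Good Φ ε L V id (insert (PB.prk Φ ε x y)
        ((PB.srcs Φ ε R ∪ (TL.exl Φ ε x ∪ TL.exl Φ ε y)).image PB.sgl)) t := by
  rw [← spk_union_pks]
  -- the packets of the pair cover its lines
  have hcov : ∀ a, a ∈ (PB.prk Φ ε x y : Set Src) ∪
      ((TL.exl Φ ε x ∪ TL.exl Φ ε y : Finset Src) : Set Src) ↔ ∃ A ∈ PB.pks Φ ε x y, a ∈ A := by
    intro a
    constructor
    · rintro (h | h)
      · exact ⟨_, PB.prk_mem, Finset.mem_coe.1 h⟩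
      · exact ⟨PB.sgl a, PB.epk_subset (Finset.mem_image_of_mem _ (Finset.mem_coe.1 h)),
          Finset.mem_singleton_self _⟩
    · rintro ⟨A, hA, ha⟩
      rcases PB.pks_cases hA with rfl | hA
      · exact Or.inl (Finset.mem_coe.2 ha)
      · obtain ⟨b, hb, rfl⟩ := Finset.mem_image.1 hA
        rw [Finset.mem_singleton.1 ha]
        exact Or.inr (Finset.mem_coe.2 hb)
  constructor
  · rintro ⟨h1, h2, h3⟩
    refine ⟨h1, disjoint_left.2 fun a ha hb => ?_, h3⟩
    obtain ⟨A, hA, hb⟩ := (hcov a).1 hb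
    have h4 : PB.sgl a ∈ PB.spk Φ ε R := Finset.mem_image_of_mem _ (Finset.mem_coe.1 ha)
    by_cases he : PB.sgl a = A
    · exact Finset.disjoint_left.1 h2 h4 (he ▸ hA)
    · exact Finset.disjoint_left.1 (h3.disj _ (Finset.mem_union_left _ h4) A
        (Finset.mem_union_right _ hA) he) (Finset.mem_singleton_self a) hb
  · rintro ⟨h1, h2, h3⟩
    refine ⟨h1, Finset.disjoint_left.2 fun A hA hA' => ?_, h3⟩
    obtain ⟨a, ha, rfl⟩ := Finset.mem_image.1 hA
    exact disjoint_left.1 h2 (Finset.mem_coe.2 ha) ((hcov a).2 ⟨_, hA',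
      Finset.mem_singleton_self a⟩)

variable {X : Type} [MeasurableSpace X] {V : X → Finset Src} {x' y' R : X → CTree} {t : X → ℝ}

/-- **The good event of a pair and a tree.** -/
theorem measurableSet_GoodP (hΦ : IsPotential Φ) (hε : 0 < ε) (hV : RS fun x => (V x : Set Src))
    (hx : Measurable x') (hy : Measurable y') (hR : Measurable R) (ht : Measurable t) :
    MeasurableSet {x | PB.GoodP Φ ε L (V x) (R x) (PB.pks Φ ε (x' x) (y' x)) (t x)} := by
  classical
  have h0 := rs_srcs hΦ hε hR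
  have h00 := rs_exl₂ hΦ hε hx hy
  have h1 := measurableSet_inj_rsrc hΦ hε hR
  have h2 := h0.measurableSet_disjoint ((rs_prk hΦ hε hx hy).union h00)
  have h4 : RS fun x => ((PB.srcs Φ ε (R x) ∪ (TL.exl Φ ε (x' x) ∪ TL.exl Φ ε (y' x)) :
      Finset Src) : Set Src) := by
    refine (h0.union h00).congr fun x => ?_
    rw [Finset.coe_union]
  have h3 := measurableSet_MGood_pks (L := L) hΦ hε hV (rs_prk hΦ hε hx hy) h4 ht
  refine (h1.inter (h2.inter h3)).congr ?_
  ext x
  exact goodP_iff.symm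

/-- **Nice trees.** -/
theorem measurableSet_Nice (hΦ : IsPotential Φ) (hε : 0 < ε) (hV : RS fun x => (V x : Set Src))
    (hR : Measurable R) : MeasurableSet {x | TL.Nice Φ ε L (V x) (R x)} := by
  have h1 := measurableSet_tree_alive hΦ hε hV hR (meas_ext hΦ hε.ne' hR) (L := L)
  have h2 : MeasurableSet {p : X × CTree | ∃ s < ext Φ ε p.2,
      RB.badi Φ ε L (V p.1 : Set Src) p.2.root s} :=
    (SC.badi (L := L) hΦ hε (hV.comp measurable_fst) (meas_root measurable_snd)).exists_lt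
      (meas_ext hΦ hε.ne' measurable_snd)
  have h3 := (rs_outs hR).measurableSet_forall h2.compl
  refine (h1.inter h3).congr ?_
  ext x
  constructor
  · rintro ⟨h4, h5⟩
    exact ⟨h4, fun z hz s hs hb => h5 z hz ⟨s, hs, hb⟩⟩
  · rintro ⟨h4, h5⟩
    exact ⟨h4, fun z hz ⟨s, hs, hb⟩ => h5 z hz s hs hb⟩

end Vale.Agent.P119.RM
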