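import Vale.Agent.P119.RM.Exc
import Vale.Agent.P119.FB.IrrF

/-!
# P119: measurability of `IrrU` (`helper758`)

* `measurableSet_IrrU`: the irregular contacts with some history of a random world.
-/

open MeasureTheory Filter Topology Set
open scoped ENNReal

noncomputable section

namespace Vale.Agent.P119.RM

open KU M CTree MM FB PB RB

variable {Φ : E3 → ℝ} {ε : ℝ} {L : ℕ}
  {X : Type} [MeasurableSpace X] {W : X → Finset Src} {f : X → Src} {t : X → ℝ}

/-- **Irregular contact with some history of the world.** -/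
theorem measurableSet_IrrU (hΦ : IsPotential Φ) (hε : 0 < ε) (hW : RS fun x => (W x : Set Src))
    (hf : Measurable f) (ht : Measurable t) :
    MeasurableSet {x | FB.IrrU Φ ε L (W x) (f x) (t x)} := by
  have hl : Measurable fun x => (f x).2.1 := measurable_fst.comp (measurable_snd.comp hf)
  have hP := MPath.line hl
  have h1 := SC.exists_mem (A := fun x (S : CTree) => {s | (ok Φ ε S ∧ S.depth ≤ L) ∧
      sig Φ ε S ≤ s ∧ Ctc ε (KU.free s (f x).2.1) (st Φ ε S s) ∧
      (s = (f x).1 ∨ s ≤ ext Φ ε S ∨ (ext Φ ε S < s ∧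
      ‖(KU.free s (f x).2.1).1 - (KU.free s (ln Φ ε S)).1‖ = ε ∧
      (inner ℝ ((KU.free s (f x).2.1).1 - (KU.free s (ln Φ ε S)).1)
        ((KU.free s (f x).2.1).2 - (KU.free s (ln Φ ε S)).2) : ℝ) = 0))})
    (RS.trees hW) fun S hS => by
    have hln : Measurable fun x => ln Φ ε (S x) := meas_ln hΦ hε.ne' hS
    have hQ := MPath.line hln
    have he := meas_ext hΦ hε.ne' hS
    have hsg : Measurable fun x => sig Φ ε (S x) := (measurable_sig hΦ hε.ne').comp hS
    have hok : MeasurableSet {x | ok Φ ε (S x) ∧ (S x).depth ≤ L} :=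
      (hS (measurableSet_ok hΦ hε.ne')).inter
        ((measurable_depth.comp hS) (measurableSet_Iic (a := L)))
    have m1 : ∀ s, Measurable fun x => (KU.free s (f x).2.1).1 - (KU.free s (ln Φ ε (S x))).1 :=
      fun s => (hP.meas s).fst.sub (hQ.meas s).fst
    have m2 : ∀ s, Measurable fun x => (KU.free s (f x).2.1).2 - (KU.free s (ln Φ ε (S x))).2 :=
      fun s => (hP.meas s).snd.sub (hQ.meas s).snd
    have c1 : ∀ x, Continuous fun s => (KU.free s (f x).2.1).1 - (KU.free s (ln Φ ε (S x))).1 :=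
      fun x => (continuous_fst.comp (hP.cont x)).sub (continuous_fst.comp (hQ.cont x))
    have c2 : ∀ x, Continuous fun s => (KU.free s (f x).2.1).2 - (KU.free s (ln Φ ε (S x))).2 :=
      fun x => (continuous_snd.comp (hP.cont x)).sub (continuous_snd.comp (hQ.cont x))
    have k1 : SC fun x => {s : ℝ |
        ‖(KU.free s (f x).2.1).1 - (KU.free s (ln Φ ε (S x))).1‖ = ε} :=
      (SC.eq (F := fun x s => ‖(KU.free s (f x).2.1).1 - (KU.free s (ln Φ ε (S x))).1‖ - ε)
        (fun s => (m1 s).norm.sub measurable_const)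
        fun x => (c1 x).norm.sub continuous_const).congr fun x s => by
          simp only [mem_ofPred_eq, sub_eq_zero]
    have k2 : SC fun x => {s : ℝ |
        (inner ℝ ((KU.free s (f x).2.1).1 - (KU.free s (ln Φ ε (S x))).1)
          ((KU.free s (f x).2.1).2 - (KU.free s (ln Φ ε (S x))).2) : ℝ) = 0} :=
      SC.eq (F := fun x s => (inner ℝ ((KU.free s (f x).2.1).1 - (KU.free s (ln Φ ε (S x))).1)
          ((KU.free s (f x).2.1).2 - (KU.free s (ln Φ ε (S x))).2) : ℝ))
        (fun s => (m1 s).inner (m2 s)) fun x => (c1 x).inner (c2 x)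
    exact (SC.cond hok).and ((SC.ge hsg).and ((SC.path_ctc hP (MPath.tree hΦ hε hS)).and
      ((SC.eq_time hf.fst).or ((SC.le he).or ((SC.gt he).and (k1.and k2))))))
  have h2 := ((SC.ge hf.fst).and h1).exists_le ht
  refine h2.congr ?_
  ext x
  constructor
  · rintro ⟨s, hs, h3, S, h4, ⟨h5, h6⟩, h7, h8, h9⟩
    exact ⟨S, h5, h6, h4, s, hs, h3, h7, h8, h9⟩
  · rintro ⟨S, h5, h6, h4, s, hs, h3, h7, h8, h9⟩
    exact ⟨s, hs, h3, S, h4, ⟨h5, h6⟩, h7, h8, h9⟩

end Vale.Agent.P119.RM
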