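import Vale.Agent.P119.RM.Exc6
import Vale.Agent.P119.RM.IrrU
import Vale.Agent.P119.PB.Int6b

/-!
# P119: measurability of the exceptional terms of the second events (`helper758`)

* `measurableSet_notNoExc`, `measurable_relHit`, `measurable_ex6` (jointly in the world and the two
  sources), `measurable_exc6`.
-/

open MeasureTheory Filter Topology Set
open scoped ENNReal

noncomputable section

namespace Vale.Agent.P119.RM

open KU M CTree MM FB PB RB

variable {Φ : E3 → ℝ} {ε : ℝ} {L : ℕ} {hΦ : IsPotential Φ} {hε : 0 < ε}

section ex6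

variable {X : Type} [MeasurableSpace X] {V : X → Finset Src} {e m : X → Src} {η t θ : ℝ}

/-- **The exceptional terms are measurable**, jointly in the world and the sources. -/
theorem measurable_ex6 (hV : RS fun x => (V x : Set Src)) (he : Measurable e)
    (hm : Measurable m) : Measurable fun x => ex6 L hΦ hε η θ t (V x) (e x) (m x) := by
  classical
  have hI : MeasurableSet {x | IrrU Φ ε L (V x) (m x) t} :=
    measurableSet_IrrU hΦ hε hV hm measurable_const
  have h1 : Measurable fun x => ind (TE L hΦ hε η t (V x) (e x) ∧
      I6 L hΦ hε θ t (IrrU Φ ε L (V x) (m x) t) (V x) (e x) (m x)) :=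
    measurable_ind ((measurableSet_TE hV he).inter (measurableSet_I6 hV he hm hI))
  have hV1 : RS fun p : X × CTree => (V p.1 : Set Src) := hV.comp measurable_fst
  have hrm : RS fun p : X × CTree => (rm (V p.1) p.2 : Set Src) := rs_rm hV1 measurable_snd
  have he1 : Measurable fun p : X × CTree => e p.1 := he.comp measurable_fst
  have hm1 : Measurable fun p : X × CTree => m p.1 := hm.comp measurable_fst
  have hE : MeasurableSet {p : X × CTree |
      ¬NoExc Φ ε L t (m p.1) (insert (e p.1) (rm (V p.1) p.2)) p.2} :=
    (measurableSet_NoExc (L := L) hΦ hε (rs_ins hrm he1) measurable_snd hm1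
      (measurable_const (a := t))).compl
  have h2 : Measurable fun x => relHit L hΦ hε t (fun V T => ¬NoExc Φ ε L t (m x) V T) (V x)
      (e x) (m x) :=
    measurable_relHit hV he hm (E := fun x V T => ¬NoExc Φ ε L t (m x) V T) hE
  have h3 : Measurable fun x => sumHit Φ ε L t (m x)
      (B6 L hΦ hε θ t (fun V T => ¬NoExc Φ ε L t (m x) V T) (e x) (m x)) (V x) := by
    refine measurable_sumHit' hΦ hε hV hm (G := fun x V T =>
      B6 L hΦ hε θ t (fun V T => ¬NoExc Φ ε L t (m x) V T) (e x) (m x) V T) ?_
    exact measurable_B6 (X := X × CTree) (V := fun p => rm (V p.1) p.2) (e := fun p => e p.1)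
      (m := fun p => m p.1) (T := fun p => p.2) (E := fun p V T => ¬NoExc Φ ε L t (m p.1) V T)
      hrm he1 hm1 measurable_snd hE
  exact (h1.add h2).add h3

variable {f₀ : Ph → ℝ}

/-- The expectation of the exceptional terms is measurable in the sources. -/
theorem measurable_exc6 [SFinite (GC.PP f₀ ε)] :
    Measurable fun p : Src × Src => exc6 L hΦ hε f₀ η θ t p.1 p.2 := by
  have h : Measurable fun q : (Src × Src) × GC.Conf Ph =>
      ex6 L hΦ hε η θ t (AU.wS (GC.pts q.2)) q.1.1 q.1.2 :=
    measurable_ex6 (rs_wS measurable_snd) measurable_fst.fst measurable_fst.snd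
  exact h.lintegral_prod_right'

end ex6

end Vale.Agent.P119.RM
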