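import Vale.Agent.P119.RM.Good
import Vale.Agent.P119.RM.Src
import Vale.Agent.P119.PB.ContCount

/-!
# P119: measurability of the contamination events (`helper758`)

For random worlds and measurable trees, sources, times:
* `SC.hits`, `measurableSet_Direct`: contact with an exposed label;
* `meas_tau`, `measurableSet_FE`, `measurableSet_PE`, `measurableSet_CE`: the first exposure;
* `measurableSet_DirF`, `measurableSet_DirP`, `measurableSet_TwoF`, `measurableSet_TwoP`;
* `meas_cx`.
-/

open MeasureTheory Filter Topology Set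
open scoped ENNReal

noncomputable section

namespace Vale.Agent.P119.RM

open KU M CTree MM FB PB RB

variable {Φ : E3 → ℝ} {ε : ℝ} {L : ℕ} {hΦ : IsPotential Φ} {hε : 0 < ε}

section hits

variable {X : Type} [MeasurableSpace X] {W : X → Finset Src} {P : X → ℝ → Ph} {f : X → Src}
  {t : X → ℝ} {T : X → CTree}

/-- The contact with a given label. -/
theorem SC.hits_at (hΦ : IsPotential Φ) (hε : 0 < ε) (hW : RS fun x => (W x : Set Src))
    (hf : Measurable f) (hP : MPath P) :
    SC fun x => {r | Hits Φ ε L (W x) (f x) r (P x r)} := by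
  have h1 : SC fun x => {r | (f x).1 ≤ r ∧ Ctc ε (P x r) (RB.XR Φ ε (W x) r (f x))} :=
    (SC.ge hf.fst).and (SC.path_ctc hP (MPath.real hΦ hε hW hf))
  have h2 : SC fun x => {r | ∃ S ∈ {S : CTree | S.leaves ⊆ (W x : Set Src)},
      r ∈ {r | S.root = f x ∧ live Φ ε L (W x : Set Src) S r ∧ Ctc ε (P x r) (st Φ ε S r)}} :=
    SC.exists_mem (A := fun x S => {r | S.root = f x ∧ live Φ ε L (W x : Set Src) S r ∧
      Ctc ε (P x r) (st Φ ε S r)}) (RS.trees hW) fun S hS =>
        (SC.cond (measurableSet_eq_fun (meas_root hS) hf)).and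
          ((SC.tree_live hΦ hε hW hS).and (SC.path_ctc hP (MPath.tree hΦ hε hS)))
  refine (h1.or h2).congr fun x r => ?_
  simp only [mem_ofPred_eq, Hits]
  constructor
  · rintro (h | ⟨S, h3, h4, h5⟩)
    · exact Or.inl h
    · exact Or.inr ⟨S, h4.sub, h3, h4, h5⟩
  · rintro (h | ⟨S, -, h3, h4, h5⟩)
    · exact Or.inl h
    · exact Or.inr ⟨S, h3, h4, h5⟩

/-- **Contact of a path with an exposed label.** -/
theorem SC.hits (hΦ : IsPotential Φ) (hε : 0 < ε) (hW : RS fun x => (W x : Set Src))
    (hP : MPath P) :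
    SC fun x => {r | ∃ b, (RB.Y Φ ε L hΦ hε).Exp (W x) b r ∧
      Hits Φ ε L (W x) b r (P x r)} := by
  have h := SC.exists_mem (A := fun x b => {r | (RB.Y Φ ε L hΦ hε).Exp (W x) b r ∧
    Hits Φ ε L (W x) b r (P x r)}) hW fun f hf =>
      ((msys_Y hΦ hε).exp hW hf).and (SC.hits_at hΦ hε hW hf hP)
  refine h.congr fun x r => ?_
  constructor
  · rintro ⟨b, h1, h2⟩
    exact ⟨b, Sys.Exp.mem h1, h1, h2⟩
  · rintro ⟨b, -, h1, h2⟩
    exact ⟨b, h1, h2⟩

theorem measurableSet_Direct (hΦ : IsPotential Φ) (hε : 0 < ε)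
    (hW : RS fun x => (W x : Set Src)) (hf : Measurable f) (ht : Measurable t) :
    MeasurableSet {x | Direct Φ ε L hΦ hε (W x) (f x) (t x)} := by
  have hl : Measurable fun x => (f x).2.1 := measurable_fst.comp (measurable_snd.comp hf)
  have h := (SC.hits hΦ hε hW (MPath.line hl) (L := L)).meet hf.fst ht
  convert h using 1
  ext x
  simp only [mem_ofPred_eq, Direct]
  exact exists_congr fun r => ⟨fun ⟨h1, h2, h3⟩ => ⟨h2, h1, h3⟩, fun ⟨h1, h2, h3⟩ => ⟨h2, h1, h3⟩⟩

end hits

/-! ### The first exposure -/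

section first

variable {X : Type} [MeasurableSpace X] {W U : X → Finset Src} {f : X → Src} {T x' y' : X → CTree}
  {h η t : X → ℝ}

/-- The time of the first exposure is measurable. -/
theorem meas_tau (hW : RS fun x => (W x : Set Src)) (hf : Measurable f) :
    Measurable fun x => EN.tau (ex L hΦ hε (W x)) (f x) := by
  simp only [ex_eq_AX']
  exact measurable_tau_AX hΦ hε hW hf

theorem fex_iff {W : Finset Src} {a : Src} {τ : ℝ} : fex L hΦ hε W a τ ↔
    τ = EN.tau (ex L hΦ hε W) a ∧ (RB.Y Φ ε L hΦ hε).Exp W a (EN.tau (ex L hΦ hε W) a) := by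
  constructor
  · intro hf
    have h1 := tau_eq_of_fex hf
    exact ⟨h1.symm, h1 ▸ hf.1⟩
  · rintro ⟨rfl, h1⟩
    obtain ⟨τ, h2, h3⟩ := exists_fex h1
    have h4 := tau_eq_of_fex h3
    rw [h4]
    exact h3

theorem measurableSet_exp_tau (hW : RS fun x => (W x : Set Src)) (hf : Measurable f) :
    MeasurableSet {x | (RB.Y Φ ε L hΦ hε).Exp (W x) (f x) (EN.tau (ex L hΦ hε (W x)) (f x))} :=
  (msys_Y hΦ hε).measurableSet_exp hW hf (meas_tau hW hf)

theorem measurableSet_fex (hW : RS fun x => (W x : Set Src)) (hf : Measurable f)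
    (ht : Measurable t) : MeasurableSet {x | fex L hΦ hε (W x) (f x) (t x)} := by
  simp only [fex_iff]
  exact (measurableSet_eq_fun ht (meas_tau hW hf)).inter (measurableSet_exp_tau hW hf)

/-- Existence of a first exposure with a property. -/
theorem exists_fex_iff {W : Finset Src} {a : Src} {h : ℝ} {Q : ℝ → Prop} :
    (∃ τ ≤ h, fex L hΦ hε W a τ ∧ Q τ) ↔ EN.tau (ex L hΦ hε W) a ≤ h ∧
      (RB.Y Φ ε L hΦ hε).Exp W a (EN.tau (ex L hΦ hε W) a) ∧ Q (EN.tau (ex L hΦ hε W) a) := by
  simp only [fex_iff]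
  constructor
  · rintro ⟨τ, h1, ⟨rfl, h2⟩, h3⟩
    exact ⟨h1, h2, h3⟩
  · rintro ⟨h1, h2, h3⟩
    exact ⟨_, h1, ⟨rfl, h2⟩, h3⟩

theorem measurableSet_badc (hΦ : IsPotential Φ) (hε : 0 < ε) (hW : RS fun x => (W x : Set Src))
    (hf : Measurable f) (ht : Measurable t) :
    MeasurableSet {x | RB.badc Φ ε L (W x : Set Src) (f x) (t x)} :=
  (SC.badc hΦ hε hW hf).mem ht

/-- **Flying exposure is a measurable event.** -/
theorem measurableSet_FE (hW : RS fun x => (W x : Set Src)) (hh : Measurable h)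
    (hT : Measurable T) : MeasurableSet {x | FE L hΦ hε (W x) (h x) (T x)} := by
  have hr := meas_root hT
  have hτ := meas_tau (hΦ := hΦ) (hε := hε) (L := L) hW hr
  have h1 := measurableSet_le hτ hh
  have h2 := measurableSet_exp_tau (hΦ := hΦ) (hε := hε) (L := L) hW hr
  have h3 : MeasurableSet {x | EN.PS Φ ε L (W x : Set Src) (T x).root
      (EN.tau (ex L hΦ hε (W x)) (T x).root) (T x)} := measurableSet_PS hΦ hε hW hr hτ hT
  have h4 : MeasurableSet {x | T x = leaf (T x).root} := measurableSet_eq_fun hT (meas_leaf hr)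
  have h5 : MeasurableSet {x | ext Φ ε (T x) ≤ EN.tau (ex L hΦ hε (W x)) (T x).root} :=
    measurableSet_le (meas_ext hΦ hε.ne' hT) hτ
  have h6 := measurableSet_badc hΦ hε (L := L) hW hr hτ
  convert h1.inter (h2.inter (h3.inter ((h4.union h5).inter h6.compl))) using 1
  ext x
  exact exists_fex_iff

/-- **The exposure of a pair is a measurable event.** -/
theorem measurableSet_PE (hW : RS fun x => (W x : Set Src)) (hh : Measurable h)
    (hx : Measurable x') (hy : Measurable y') :
    MeasurableSet {x | PE L hΦ hε (W x) (h x) (x' x) (y' x)} := by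
  have hr := meas_root hx
  have hn : Measurable fun x => node (x' x) (y' x) := meas_node hx hy
  have hτ := meas_tau (hΦ := hΦ) (hε := hε) (L := L) hW hr
  have h1 := measurableSet_le hτ hh
  have h2 := measurableSet_exp_tau (hΦ := hΦ) (hε := hε) (L := L) hW hr
  have h3 : MeasurableSet {x | live Φ ε L (W x : Set Src) (node (x' x) (y' x))
      (EN.tau (ex L hΦ hε (W x)) (x' x).root)} := measurableSet_tree_live hΦ hε hW hn hτ
  have h4 : MeasurableSet {x | sig Φ ε (node (x' x) (y' x)) <
      EN.tau (ex L hΦ hε (W x)) (x' x).root} := measurableSet_lt (meas_sig hΦ hε.ne' hn) hτ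
  have h5 : MeasurableSet {x | EN.tau (ex L hΦ hε (W x)) (x' x).root <
      ext Φ ε (node (x' x) (y' x))} := measurableSet_lt hτ (meas_ext hΦ hε.ne' hn)
  have h6 := measurableSet_badc hΦ hε (L := L) hW hr hτ
  have h7 := measurableSet_badc hΦ hε (L := L) hW (meas_root hy) hτ
  convert h1.inter (h2.inter (h3.inter (h4.inter (h5.inter (h6.compl.inter h7.compl))))) using 1
  ext x
  exact exists_fex_iff

/-- **Creation is a measurable event.** -/
theorem measurableSet_CE (hW : RS fun x => (W x : Set Src)) (hh : Measurable h)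
    (hT : Measurable T) : MeasurableSet {x | CE L hΦ hε (W x) (h x) (T x)} := by
  have hr := meas_root hT
  have hτ := meas_tau (hΦ := hΦ) (hε := hε) (L := L) hW hr
  have h1 := measurableSet_le hτ hh
  have h2 := measurableSet_exp_tau (hΦ := hΦ) (hε := hε) (L := L) hW hr
  have h3 : MeasurableSet {x | EN.PS Φ ε L (W x : Set Src) (T x).root
      (EN.tau (ex L hΦ hε (W x)) (T x).root) (T x)} := measurableSet_PS hΦ hε hW hr hτ hT
  have h6 := measurableSet_badc hΦ hε (L := L) hW hr hτ
  have h4 : MeasurableSet {x | ∃ a b, T x = node a b} := hT measurableSet_isNode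
  have h5 : MeasurableSet {x | EN.tau (ex L hΦ hε (W x)) (T x).root ≤ ext Φ ε (T x)} :=
    measurableSet_le hτ (meas_ext hΦ hε.ne' hT)
  have h7 := measurableSet_badc hΦ hε (L := L) hW (meas_root (measurable_rgt.comp hT)) hτ
  convert h1.inter (h2.inter (h3.inter (h6.union (h4.inter (h5.inter h7))))) using 1
  ext x
  refine Iff.trans exists_fex_iff ?_
  simp only [mem_inter_iff, mem_union, mem_ofPred_eq, Function.comp]
  refine and_congr_right fun _ => and_congr_right fun _ => and_congr_right fun _ =>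
    or_congr Iff.rfl ?_
  constructor
  · rintro ⟨a, b, e, h8, h9⟩
    refine ⟨⟨a, b, e⟩, h8, ?_⟩
    rw [e] at h9 ⊢
    exact h9
  · rintro ⟨⟨a, b, e⟩, h8, h9⟩
    refine ⟨a, b, e, h8, ?_⟩
    rw [e] at h9 ⊢
    exact h9

/-! ### Direct contacts and second events -/

theorem measurableSet_DirF (hU : RS fun x => (U x : Set Src)) (hh : Measurable h)
    (hT : Measurable T) : MeasurableSet {x | DirF L hΦ hε (U x) (h x) (T x)} := by
  have hln : Measurable fun x => ln Φ ε (T x) := meas_ln hΦ hε.ne' hT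
  have h1 := (SC.hits hΦ hε hU (MPath.line hln) (L := L)).meet (meas_ext hΦ hε.ne' hT) hh
  convert h1 using 1
  ext x
  exact exists_congr fun r => ⟨fun ⟨h1, h2, h3⟩ => ⟨h2, h1, h3⟩, fun ⟨h1, h2, h3⟩ => ⟨h2, h1, h3⟩⟩

theorem measurableSet_DirP (hU : RS fun x => (U x : Set Src)) (hh : Measurable h)
    (hx : Measurable x') (hy : Measurable y') :
    MeasurableSet {x | DirP L hΦ hε (U x) (h x) (x' x) (y' x)} := by
  have hn : Measurable fun x => node (x' x) (y' x) := meas_node hx hy
  have hn' : Measurable fun x => node (y' x) (x' x) := meas_node hy hx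
  have h1 := SC.hits hΦ hε hU (MPath.tree hΦ hε hn) (L := L)
  have h2 := SC.hits hΦ hε hU (MPath.tree hΦ hε hn') (L := L)
  have h3 := ((SC.gt (meas_sig hΦ hε.ne' hn)).and ((SC.le (meas_ext hΦ hε.ne' hn)).and
    (h1.or h2))).exists_le hh
  convert h3 using 1
  ext x
  simp only [mem_ofPred_eq, DirP]
  refine exists_congr fun r => and_congr_right fun _ => and_congr_right fun _ =>
    and_congr_right fun _ => ?_
  rw [← exists_or]
  exact exists_congr fun b => and_or_left

theorem measurableSet_TwoF (hU : RS fun x => (U x : Set Src)) (hη : Measurable η)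
    (ht : Measurable t) (hT : Measurable T) :
    MeasurableSet {x | TwoF L hΦ hε (η x) (t x) (U x) (T x)} := by
  have hT1 : Measurable fun q : (X × CTree) × CTree => T q.1.1 := hT.comp measurable_fst.fst
  have h1 : MeasurableSet {q : (X × CTree) × CTree | q.2 ≠ q.1.2 ∧
      GG L hΦ hε (η q.1.1) (t q.1.1) (U q.1.1) (rsrc Φ ε q.1.2) (rsrc Φ ε q.2)} :=
    (measurableSet_eq_fun measurable_snd measurable_fst.snd).compl.inter
      (measurableSet_GG (hU.comp measurable_fst.fst) (hη.comp measurable_fst.fst)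
        (ht.comp measurable_fst.fst) (meas_rsrc hΦ hε measurable_fst.snd)
        (meas_rsrc hΦ hε measurable_snd))
  have h2 := (rs_outs (hT.comp (measurable_fst (α := X) (β := CTree)))).measurableSet_exists h1
  have h3 := (rs_exs hT).measurableSet_exists h2
  exact h3

open Classical in
theorem measurableSet_TwoP (hU : RS fun x => (U x : Set Src)) (hη : Measurable η)
    (ht : Measurable t) (hx : Measurable x') (hy : Measurable y') :
    MeasurableSet {x | TwoP L hΦ hε (η x) (t x) (U x) (x' x) (y' x)} := by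
  have hE : RS fun x => TL.exs (x' x) ∪ TL.exs (y' x) := (rs_exs hx).union (rs_exs hy)
  have h1 : MeasurableSet {q : (X × CTree) × CTree | q.2 ≠ q.1.2 ∧
      GG L hΦ hε (η q.1.1) (t q.1.1) (U q.1.1) (rsrc Φ ε q.1.2) (rsrc Φ ε q.2)} :=
    (measurableSet_eq_fun measurable_snd measurable_fst.snd).compl.inter
      (measurableSet_GG (hU.comp measurable_fst.fst) (hη.comp measurable_fst.fst)
        (ht.comp measurable_fst.fst) (meas_rsrc hΦ hε measurable_fst.snd)
        (meas_rsrc hΦ hε measurable_snd))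
  have h2 := (hE.comp (measurable_fst (α := X) (β := CTree))).measurableSet_exists h1
  have hU1 : RS fun p : X × CTree => (U p.1 : Set Src) := hU.comp measurable_fst
  have hins : RS fun p : X × CTree => ((insert (rsrc Φ ε p.2) (U p.1) : Finset Src) : Set Src) :=
    rs_insert_rsrc hΦ hε hU1 measurable_snd
  have hz1 : Measurable fun p : X × CTree =>
      hz L hΦ hε (η p.1) (t p.1) (insert (rsrc Φ ε p.2) (U p.1)) :=
    measurable_hz hins (hη.comp measurable_fst) (ht.comp measurable_fst)
  have h4 : MeasurableSet {p : X × CTree | (RB.Y Φ ε L hΦ hε).Touch (U p.1)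
      (insert (rsrc Φ ε p.2) (U p.1))
      (hz L hΦ hε (η p.1) (t p.1) (insert (rsrc Φ ε p.2) (U p.1))) ∧
      DirP L hΦ hε (insert (rsrc Φ ε p.2) (U p.1))
        (hz L hΦ hε (η p.1) (t p.1) (insert (rsrc Φ ε p.2) (U p.1))) (x' p.1) (y' p.1)} :=
    (measurableSet_touch hU1 hins hz1).inter
      (measurableSet_DirP hins hz1 (hx.comp measurable_fst) (hy.comp measurable_fst))
  exact hE.measurableSet_exists (h2.union h4)

open Classical in
theorem cx_eq (T : CTree) : cx Φ ε T = if ∃ a b, T = node a b then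
    ‖(ln Φ ε (lft T)).2‖ ^ 2 + ‖(ln Φ ε (rgt T)).2‖ ^ 2 else ‖(ln Φ ε T).2‖ ^ 2 := by
  cases T with
  | leaf σ =>
    rw [if_neg]
    · rfl
    · rintro ⟨a, b, h3⟩
      exact absurd h3 (by simp)
  | node a b =>
    rw [if_pos ⟨a, b, rfl⟩]
    rfl

/-- The bound of the energies. -/
theorem meas_cx (hΦ : IsPotential Φ) (hε : 0 < ε) (hT : Measurable T) :
    Measurable fun x => cx Φ ε (T x) := by
  classical
  have hv : ∀ {S : X → CTree}, Measurable S → Measurable fun x => ‖(ln Φ ε (S x)).2‖ ^ 2 :=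
    fun hS => (measurable_snd.comp (meas_ln hΦ hε.ne' hS)).norm.pow_const 2
  have h1 : MeasurableSet {x | ∃ a b, T x = node a b} := hT measurableSet_isNode
  simp only [cx_eq]
  exact Measurable.ite h1 ((hv (measurable_lft.comp hT)).add (hv (measurable_rgt.comp hT))) (hv hT)

end first

end Vale.Agent.P119.RM
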