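import Vale.Agent.P119.RM.Cont
import Vale.Agent.P119.PB.ContCre1

/-!
# P119: measurability of the exceptional contacts (`helper758`)

* `SC.meets_tree`, `SC.meets_tree_ne`: contact of a path with a live tree of a random world;
* `measurableSet_Irr`, `measurableSet_RegHit`, `measurableSet_OvL`, `measurableSet_NoEx`,
  `measurableSet_TieL`, `measurableSet_ExL`, `measurableSet_Tri_ne`,
  `measurableSet_exits_pair`.
-/

open MeasureTheory Filter Topology Set
open scoped ENNReal

noncomputable section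

namespace Vale.Agent.P119.RM

open KU M CTree MM FB PB RB

variable {Φ : E3 → ℝ} {ε : ℝ} {L : ℕ} {hΦ : IsPotential Φ} {hε : 0 < ε}

section basic

variable {X : Type} [MeasurableSpace X] {W : X → Finset Src} {P : X → ℝ → Ph} {f : X → Src}
  {t : X → ℝ} {T S x' y' : X → CTree}

/-- Existence of a live tree with a property. -/
theorem SC.exists_live (hΦ : IsPotential Φ) (hε : 0 < ε) (hW : RS fun x => (W x : Set Src))
    {A : X → CTree → Set ℝ} (hA : ∀ S : X → CTree, Measurable S → SC fun x => A x (S x)) :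
    SC fun x => {r | ∃ S : CTree, live Φ ε L (W x : Set Src) S r ∧ r ∈ A x S} := by
  have h := SC.exists_mem (A := fun x S => {r | live Φ ε L (W x : Set Src) S r ∧ r ∈ A x S})
    (RS.trees hW) fun S hS => (SC.tree_live hΦ hε hW hS).and (hA S hS)
  refine h.congr fun x r => ?_
  constructor
  · rintro ⟨S, h1, h2⟩
    exact ⟨S, h1.sub, h1, h2⟩
  · rintro ⟨S, -, h1, h2⟩
    exact ⟨S, h1, h2⟩

/-- **Contact of a path with a live tree.** -/
theorem SC.meets_tree (hΦ : IsPotential Φ) (hε : 0 < ε) (hW : RS fun x => (W x : Set Src))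
    (hP : MPath P) : SC fun x => {r | ∃ S : CTree, live Φ ε L (W x : Set Src) S r ∧
      Ctc ε (P x r) (st Φ ε S r)} :=
  SC.exists_live hΦ hε hW (A := fun x S => {r | Ctc ε (P x r) (st Φ ε S r)}) fun _ hS =>
    SC.path_ctc hP (MPath.tree hΦ hε hS)

/-- The same for the trees with another root. -/
theorem SC.meets_tree_ne (hΦ : IsPotential Φ) (hε : 0 < ε) (hW : RS fun x => (W x : Set Src))
    (hP : MPath P) (hf : Measurable f) : SC fun x => {r | ∃ S : CTree,
      live Φ ε L (W x : Set Src) S r ∧ S.root ≠ f x ∧ Ctc ε (P x r) (st Φ ε S r)} :=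
  SC.exists_live hΦ hε hW (A := fun x S => {r | S.root ≠ f x ∧ Ctc ε (P x r) (st Φ ε S r)})
    fun _ hS => (SC.cond (measurableSet_src_eq (meas_root hS) hf).compl).and
      (SC.path_ctc hP (MPath.tree hΦ hε hS))

/-- **Irregular first contact.** -/
theorem measurableSet_Irr (hΦ : IsPotential Φ) (hε : 0 < ε) (hW : RS fun x => (W x : Set Src))
    (hf : Measurable f) (ht : Measurable t) :
    MeasurableSet {x | Irr Φ ε L (W x) (f x) (t x)} := by
  have hl : Measurable fun x => (f x).2.1 := measurable_fst.comp (measurable_snd.comp hf)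
  have hP := MPath.line hl
  have h1 := SC.exists_live hΦ hε hW (L := L) (A := fun x S => {s |
      Ctc ε (KU.free s (f x).2.1) (st Φ ε S s) ∧
      (s = (f x).1 ∨ s ≤ ext Φ ε S ∨ (ext Φ ε S < s ∧
      ‖(KU.free s (f x).2.1).1 - (KU.free s (ln Φ ε S)).1‖ = ε ∧
      (inner ℝ ((KU.free s (f x).2.1).1 - (KU.free s (ln Φ ε S)).1)
        ((KU.free s (f x).2.1).2 - (KU.free s (ln Φ ε S)).2) : ℝ) = 0))}) fun S hS => by
    have hln : Measurable fun x => ln Φ ε (S x) := meas_ln hΦ hε.ne' hS
    have hQ := MPath.line hln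
    have he := meas_ext hΦ hε.ne' hS
    have m1 : ∀ s, Measurable fun x => (KU.free s (f x).2.1).1 - (KU.free s (ln Φ ε (S x))).1 :=
      fun s => (hP.meas s).fst.sub (hQ.meas s).fst
    have m2 : ∀ s, Measurable fun x => (KU.free s (f x).2.1).2 - (KU.free s (ln Φ ε (S x))).2 :=
      fun s => (hP.meas s).snd.sub (hQ.meas s).snd
    have c1 : ∀ x, Continuous fun s => (KU.free s (f x).2.1).1 - (KU.free s (ln Φ ε (S x))).1 :=
      fun x => (continuous_fst.comp (hP.cont x)).sub (continuous_fst.comp (hQ.cont x))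
    have c2 : ∀ x, Continuous fun s => (KU.free s (f x).2.1).2 - (KU.free s (ln Φ ε (S x))).2 :=
      fun x => (continuous_snd.comp (hP.cont x)).sub (continuous_snd.comp (hQ.cont x))
    have k1 : SC fun x => {s : ℝ |
        ‖(KU.free s (f x).2.1).1 - (KU.free s (ln Φ ε (S x))).1‖ = ε} :=
      (SC.eq (F := fun x s => ‖(KU.free s (f x).2.1).1 - (KU.free s (ln Φ ε (S x))).1‖ - ε)
        (fun s => (m1 s).norm.sub measurable_const)
        fun x => (c1 x).norm.sub continuous_const).congr fun x s => by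
          simp only [mem_ofPred_eq, sub_eq_zero]
    have k2 : SC fun x => {s : ℝ |
        (inner ℝ ((KU.free s (f x).2.1).1 - (KU.free s (ln Φ ε (S x))).1)
          ((KU.free s (f x).2.1).2 - (KU.free s (ln Φ ε (S x))).2) : ℝ) = 0} :=
      SC.eq (F := fun x s => (inner ℝ ((KU.free s (f x).2.1).1 - (KU.free s (ln Φ ε (S x))).1)
          ((KU.free s (f x).2.1).2 - (KU.free s (ln Φ ε (S x))).2) : ℝ))
        (fun s => (m1 s).inner (m2 s)) fun x => (c1 x).inner (c2 x)
    exact (SC.path_ctc hP (MPath.tree hΦ hε hS)).and ((SC.eq_time hf.fst).or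
      ((SC.le he).or ((SC.gt he).and (k1.and k2))))
  exact ((SC.ge hf.fst).and h1).exists_le ht

/-- The regular hits. -/
theorem measurableSet_RegHit (hΦ : IsPotential Φ) (hε : 0 < ε)
    (hW : RS fun x => (W x : Set Src)) (hf : Measurable f) (ht : Measurable t)
    (hT : Measurable T) :
    MeasurableSet {x | PB.RegHit Φ ε L (W x) (f x) (t x) (T x)} := by
  have hq : Measurable fun x => ((f x).2.1, ln Φ ε (T x)) :=
    (measurable_fst.comp (measurable_snd.comp hf)).prodMk (meas_ln hΦ hε.ne' hT)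
  have hh : Measurable fun x => hitT ε ((f x).2.1, ln Φ ε (T x)) := measurable_hitT.comp hq
  have h1 := measurableSet_tree_alive hΦ hε hW hT ht (L := L)
  have h2 := measurableSet_lt (meas_ext hΦ hε.ne' hT) ht
  have h3 := measurableSet_lt hf.fst ht
  have h4 : MeasurableSet {x | Meets ε ((f x).2.1, ln Φ ε (T x))} :=
    measurableSet_meets.preimage hq
  have h5 := measurableSet_eq_fun hh ht
  convert h1.inter (h2.inter (h3.inter (h4.inter h5))) using 1
  ext x
  exact ⟨fun h => ⟨h.alive, h.ext_lt, h.birth, h.meets, h.time⟩,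
    fun h => ⟨h.1, h.2.1, h.2.2.1, h.2.2.2.1, h.2.2.2.2⟩⟩

/-- Existence of a tree which is regularly hit. -/
theorem measurableSet_exists_RegHit (hΦ : IsPotential Φ) (hε : 0 < ε)
    (hW : RS fun x => (W x : Set Src)) (hf : Measurable f) (ht : Measurable t)
    {Q : X → CTree → Prop} (hQ : MeasurableSet {p : X × CTree | Q p.1 p.2}) :
    MeasurableSet {x | ∃ T : CTree, ∃ s ≤ t x, PB.RegHit Φ ε L (W x) (f x) s T ∧ Q x T} := by
  have hf1 : Measurable fun p : X × CTree => f p.1 := hf.comp measurable_fst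
  have hq : Measurable fun p : X × CTree => ((f p.1).2.1, ln Φ ε p.2) :=
    (measurable_fst.comp (measurable_snd.comp hf1)).prodMk (meas_ln hΦ hε.ne' measurable_snd)
  have hh : Measurable fun p : X × CTree => hitT ε ((f p.1).2.1, ln Φ ε p.2) :=
    measurable_hitT.comp hq
  have h1 : MeasurableSet {p : X × CTree | hitT ε ((f p.1).2.1, ln Φ ε p.2) ≤ t p.1 ∧
      PB.RegHit Φ ε L (W p.1) (f p.1) (hitT ε ((f p.1).2.1, ln Φ ε p.2)) p.2 ∧ Q p.1 p.2} :=
    (measurableSet_le hh (ht.comp measurable_fst)).inter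
      ((measurableSet_RegHit hΦ hε (hW.comp measurable_fst) hf1 hh measurable_snd).inter hQ)
  have h2 := (RS.trees hW).measurableSet_exists h1
  convert h2 using 1
  ext x
  simp only [mem_ofPred_eq]
  constructor
  · rintro ⟨T, s, hs, h, hQT⟩
    have := h.time
    subst this
    exact ⟨T, (alive_pre h.alive).sub, hs, h, hQT⟩
  · rintro ⟨T, -, hs, h, hQT⟩
    exact ⟨T, _, hs, h, hQT⟩

/-- **Over-depth.** -/
theorem measurableSet_OvL (hΦ : IsPotential Φ) (hε : 0 < ε)
    (hW : RS fun x => (W x : Set Src)) (hf : Measurable f) (ht : Measurable t) :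
    MeasurableSet {x | OvL Φ ε L (W x) (f x) (t x)} := by
  refine measurableSet_exists_RegHit hΦ hε hW hf ht (Q := fun x T =>
    L < max (f x).2.2 T.depth + 1) ?_
  have h : Measurable fun p : X × CTree => max (f p.1).2.2 p.2.depth + 1 :=
    ((measurable_snd.comp (measurable_snd.comp (hf.comp measurable_fst))).max
      (M.measurable_depth.comp measurable_snd)).add_const 1
  exact h (measurableSet_Ioi (a := L))

theorem measurableSet_exits_pair (hΦ : IsPotential Φ) {l l' : X → Ph} (hl : Measurable l)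
    (hl' : Measurable l') : MeasurableSet {x | Exits Φ (rel ε (l x, l' x))} :=
  (measurableSet_exits hΦ).preimage (continuous_rel.measurable.comp (hl.prodMk hl'))

/-- **Pairs which do not separate.** -/
theorem measurableSet_NoEx (hΦ : IsPotential Φ) (hε : 0 < ε)
    (hW : RS fun x => (W x : Set Src)) (hf : Measurable f) (ht : Measurable t) :
    MeasurableSet {x | NoEx Φ ε L (W x) (f x) (t x)} := by
  refine measurableSet_exists_RegHit hΦ hε hW hf ht (Q := fun x T =>
    ¬Exits Φ (rel ε ((f x).2.1, ln Φ ε T))) ?_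
  exact (measurableSet_exits_pair hΦ (measurable_fst.comp (measurable_snd.comp
    (hf.comp measurable_fst))) (meas_ln hΦ hε.ne' measurable_snd)).compl

/-- **Ties.** -/
theorem measurableSet_TieL (hΦ : IsPotential Φ) (hε : 0 < ε)
    (hW : RS fun x => (W x : Set Src)) (hf : Measurable f) (ht : Measurable t) :
    MeasurableSet {x | TieL Φ ε L (W x) (f x) (t x)} := by
  -- everything at the time of the hit
  have h0 : MeasurableSet {p : X × CTree | ∃ S : CTree, S.root ≠ p.2.root ∧
      (PB.RegHit Φ ε L (W p.1) (f p.1) (hitT ε ((f p.1).2.1, ln Φ ε p.2)) S ∨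
        (alive Φ ε L (W p.1 : Set Src) S (hitT ε ((f p.1).2.1, ln Φ ε p.2)) ∧
          hit Φ ε p.2 S (hitT ε ((f p.1).2.1, ln Φ ε p.2))))} := by
    have hW2 : RS fun q : (X × CTree) × CTree => (W q.1.1 : Set Src) := hW.comp measurable_fst.fst
    have hf2 : Measurable fun q : (X × CTree) × CTree => f q.1.1 := hf.comp measurable_fst.fst
    have hT : Measurable fun q : (X × CTree) × CTree => q.1.2 := measurable_fst.snd
    have hS : Measurable fun q : (X × CTree) × CTree => q.2 := measurable_snd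
    have hq : Measurable fun q : (X × CTree) × CTree => ((f q.1.1).2.1, ln Φ ε q.1.2) :=
      (measurable_fst.comp (measurable_snd.comp hf2)).prodMk (meas_ln hΦ hε.ne' hT)
    have hh : Measurable fun q : (X × CTree) × CTree => hitT ε ((f q.1.1).2.1, ln Φ ε q.1.2) :=
      measurable_hitT.comp hq
    have h1 : MeasurableSet {q : (X × CTree) × CTree | q.2.root ≠ q.1.2.root ∧
        (PB.RegHit Φ ε L (W q.1.1) (f q.1.1) (hitT ε ((f q.1.1).2.1, ln Φ ε q.1.2)) q.2 ∨
        (alive Φ ε L (W q.1.1 : Set Src) q.2 (hitT ε ((f q.1.1).2.1, ln Φ ε q.1.2)) ∧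
          hit Φ ε q.1.2 q.2 (hitT ε ((f q.1.1).2.1, ln Φ ε q.1.2))))} :=
      (measurableSet_src_eq (meas_root hS) (meas_root hT)).compl.inter
        ((measurableSet_RegHit hΦ hε hW2 hf2 hh hS).union
          ((measurableSet_tree_alive hΦ hε hW2 hS hh).inter
            ((SC.tree_hit hΦ hε.ne' hT hS).mem hh)))
    have h2 := (RS.trees (hW.comp (measurable_fst (α := X) (β := CTree)))).measurableSet_exists h1
    convert h2 using 1
    ext p
    simp only [mem_ofPred_eq]
    constructor
    · rintro ⟨S, h3, h4⟩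
      refine ⟨S, ?_, h3, h4⟩
      rcases h4 with h4 | h4
      · exact (alive_pre h4.alive).sub
      · exact (alive_pre h4.1).sub
    · rintro ⟨S, -, h3, h4⟩
      exact ⟨S, h3, h4⟩
  have h := measurableSet_exists_RegHit hΦ hε hW hf ht (L := L) (Q := fun x T =>
    ∃ S : CTree, S.root ≠ T.root ∧
      (PB.RegHit Φ ε L (W x) (f x) (hitT ε ((f x).2.1, ln Φ ε T)) S ∨
        (alive Φ ε L (W x : Set Src) S (hitT ε ((f x).2.1, ln Φ ε T)) ∧
          hit Φ ε T S (hitT ε ((f x).2.1, ln Φ ε T))))) h0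
  convert h using 1
  ext x
  simp only [mem_ofPred_eq, TieL]
  constructor
  · rintro ⟨T, S, s, hs, h1, h2, h3⟩
    have := h1.time
    subst this
    exact ⟨T, _, hs, h1, S, h2, h3⟩
  · rintro ⟨T, s, hs, h1, S, h2, h3⟩
    have := h1.time
    subst this
    exact ⟨T, S, _, hs, h1, h2, h3⟩

theorem measurableSet_ExL (hΦ : IsPotential Φ) (hε : 0 < ε)
    (hW : RS fun x => (W x : Set Src)) (hf : Measurable f) (ht : Measurable t) :
    MeasurableSet {x | ExL Φ ε L (W x) (f x) (t x)} :=
  (measurableSet_Irr hΦ hε hW hf ht).union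
    ((measurableSet_NoEx hΦ hε hW hf ht).union (measurableSet_TieL hΦ hε hW hf ht))

/-! ### Three bodies -/

/-- The three paths of the hit of `T` by a line. -/
theorem SC.tri (hΦ : IsPotential Φ) (hε : 0 < ε) (hT : Measurable T) (hf : Measurable f)
    (hS : Measurable S) : SC fun x => {r | Ctc ε (KU.free r (ln Φ ε (T x))) (st Φ ε (S x) r) ∨
        Ctc ε (pairLine Φ ε (ln Φ ε (T x), (f x).2.1) r).1 (st Φ ε (S x) r) ∨
        Ctc ε (pairLine Φ ε (ln Φ ε (T x), (f x).2.1) r).2 (st Φ ε (S x) r)} := by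
  have hl : Measurable fun x => (f x).2.1 := measurable_fst.comp (measurable_snd.comp hf)
  have hln : Measurable fun x => ln Φ ε (T x) := meas_ln hΦ hε.ne' hT
  exact (SC.path_ctc (MPath.line hln) (MPath.tree hΦ hε hS)).or
    ((SC.path_ctc (MPath.pair₁ hΦ hln hl (ε := ε)) (MPath.tree hΦ hε hS)).or
      (SC.path_ctc (MPath.pair₂ hΦ hln hl (ε := ε)) (MPath.tree hΦ hε hS)))

/-- The three-body contact with a live tree with another root. -/
theorem measurableSet_Tri_ne (hΦ : IsPotential Φ) (hε : 0 < ε)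
    (hW : RS fun x => (W x : Set Src)) (hT : Measurable T) (hf : Measurable f)
    (ht : Measurable t) : MeasurableSet {x | ∃ r ≤ t x, sig Φ ε (node (T x) (leaf (f x))) ≤ r ∧
      r < ext Φ ε (node (T x) (leaf (f x))) ∧ ∃ S : CTree, live Φ ε L (W x : Set Src) S r ∧
        S.root ≠ (T x).root ∧
      (Ctc ε (KU.free r (ln Φ ε (T x))) (st Φ ε S r) ∨
        Ctc ε (pairLine Φ ε (ln Φ ε (T x), (f x).2.1) r).1 (st Φ ε S r) ∨
        Ctc ε (pairLine Φ ε (ln Φ ε (T x), (f x).2.1) r).2 (st Φ ε S r))} := by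
  have hn : Measurable fun x => node (T x) (leaf (f x)) := meas_node hT (meas_leaf hf)
  have h1 := SC.exists_live hΦ hε hW (L := L) (A := fun x S => {r | S.root ≠ (T x).root ∧
      (Ctc ε (KU.free r (ln Φ ε (T x))) (st Φ ε S r) ∨
        Ctc ε (pairLine Φ ε (ln Φ ε (T x), (f x).2.1) r).1 (st Φ ε S r) ∨
        Ctc ε (pairLine Φ ε (ln Φ ε (T x), (f x).2.1) r).2 (st Φ ε S r))}) fun S hS =>
    (SC.cond (measurableSet_src_eq (meas_root hS) (meas_root hT)).compl).and
      (SC.tri hΦ hε hT hf hS)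
  exact ((SC.ge (meas_sig hΦ hε.ne' hn)).and ((SC.lt (meas_ext hΦ hε.ne' hn)).and h1)).exists_le ht

end basic

end Vale.Agent.P119.RM
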