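import Vale.Agent.P119.RM.Exc2
import Vale.Agent.P119.PB.Def6
import Vale.Agent.P119.PB.Int5b

/-!
# P119: measurability of the terms of the second events (`helper758`)

For `PB/Def6.lean` (`helper178`): `TE`, `GGL`, `DirG`, `FelL`, `TEu`, `FelS`, `S6`, `PairG`,
`main6`, `ovr`, `I6`, `relHit`, `B6`, and `sumHit` with terms depending on a parameter.
-/

open MeasureTheory Filter Topology Set
open scoped ENNReal

noncomputable section

namespace Vale.Agent.P119.RM

open KU M CTree MM FB PB RB

variable {Φ : E3 → ℝ} {ε : ℝ} {L : ℕ} {hΦ : IsPotential Φ} {hε : 0 < ε}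

section def6

variable {X : Type} [MeasurableSpace X] {V W : X → Finset Src} {e m f : X → Src}
  {T : X → CTree} {z' : X → Ph} {η t w u θ : ℝ}

theorem measurable_hzc (hV : RS fun x => (V x : Set Src)) :
    Measurable fun x => PB.hz L hΦ hε η t (V x) :=
  measurable_hz hV measurable_const measurable_const

open Classical in
theorem rs_ins (hV : RS fun x => (V x : Set Src)) (he : Measurable e) :
    RS fun x => ((insert (e x) (V x) : Finset Src) : Set Src) := rs_insert hV he

theorem measurableSet_TE (hV : RS fun x => (V x : Set Src)) (he : Measurable e) :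
    MeasurableSet {x | TE L hΦ hε η t (V x) (e x)} :=
  measurableSet_touch hV (rs_ins hV he) (measurable_hzc (rs_ins hV he))

theorem measurable_GGL (hV : RS fun x => (V x : Set Src)) (he : Measurable e)
    (hm : Measurable m) : Measurable fun x => GGL L hΦ hε η t (V x) (e x) (m x) :=
  Measurable.ite (measurable_snd.comp (measurable_snd.comp hm) (measurableSet_Iic (a := L)))
    (measurable_ind (measurableSet_GG hV measurable_const measurable_const he hm))
    measurable_const

theorem measurableSet_DirG (hV : RS fun x => (V x : Set Src)) (he : Measurable e)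
    (hm : Measurable m) : MeasurableSet {x | DirG L hΦ hε η t w (V x) (e x) (m x)} :=
  (measurableSet_TE hV he).inter
    (measurableSet_DirC (rs_ins hV he) measurable_const measurable_const measurable_const hm)

theorem measurableSet_fl_lt (hV : RS fun x => (V x : Set Src)) {h : X → ℝ} (hh : Measurable h)
    (hT : Measurable T) : MeasurableSet {x | ∃ s < h x, fl L hΦ hε (V x) s (T x)} := by
  have he : Measurable fun x => CTree.ext Φ ε (T x) := meas_ext hΦ hε.ne' hT
  -- the conditions which do not depend on the time
  have h0 : MeasurableSet {x | (T x).leaves ⊆ (V x : Set Src)} :=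
    measurableSet_tree_leaves_subset hV hT
  have h1 : MeasurableSet {x | (T x).depth ≤ L} := meas_depth hT (measurableSet_Iic (a := L))
  have h2 : MeasurableSet {x | M.alive Φ ε L (V x : Set Src) (T x) (CTree.ext Φ ε (T x))} :=
    measurableSet_tree_alive hΦ hε hV hT he
  have h3 : MeasurableSet {x | ∃ s < CTree.ext Φ ε (T x),
      (RB.Y Φ ε L hΦ hε).Exp (V x) (T x).root s} :=
    (msys_Y hΦ hε).measurableSet_exp_lt hV (meas_root hT) he
  have h4 : MeasurableSet {x | ∃ s, s < h x ∧ s ∈ {s | CTree.ext Φ ε (T x) ≤ s ∧
      (RB.Y Φ ε L hΦ hε).Touch (rm (V x) (T x)) (V x) s}} :=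
    ((SC.ge he).and ((msys_Y hΦ hε (L := L)).touch (rs_rm hV hT) hV)).exists_lt hh
  convert h0.inter (h1.inter (h2.inter (h3.compl.inter h4))) using 1
  ext x
  simp only [mem_ofPred_eq, mem_inter_iff, mem_compl_iff, not_exists, not_and]
  constructor
  · rintro ⟨s, hs, h⟩
    exact ⟨h.sub, h.depth, h.alive, fun q hq => h.root q hq, s, hs, h.ext_le, h.touch⟩
  · rintro ⟨g0, g1, g2, g3, s, hs, g4, g5⟩
    exact ⟨s, hs, g0, g1, g4, g2, g3, g5⟩

theorem measurableSet_hitP (hm : Measurable m) (hT : Measurable T) (hΦ : IsPotential Φ)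
    (hε : 0 < ε) : MeasurableSet {x | Meets ε ((m x).2.1, ln Φ ε (T x)) ∧
      (m x).1 < hitT ε ((m x).2.1, ln Φ ε (T x))} := by
  have hq : Measurable fun x => ((m x).2.1, ln Φ ε (T x)) :=
    (measurable_fst.comp (measurable_snd.comp hm)).prodMk (meas_ln hΦ hε.ne' hT)
  exact (measurableSet_meets.preimage hq).inter
    (measurableSet_lt hm.fst (measurable_hitT.comp hq))

theorem measurable_hitm (hm : Measurable m) (hT : Measurable T) (hΦ : IsPotential Φ)
    (hε : 0 < ε) : Measurable fun x => hitT ε ((m x).2.1, ln Φ ε (T x)) :=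
  measurable_hitT.comp ((measurable_fst.comp (measurable_snd.comp hm)).prodMk
    (meas_ln hΦ hε.ne' hT))

theorem measurableSet_FelL (hV : RS fun x => (V x : Set Src)) (he : Measurable e)
    (hm : Measurable m) : MeasurableSet {x | FelL L hΦ hε η t u (V x) (e x) (m x)} := by
  have hV1 : RS fun p : X × CTree => (V p.1 : Set Src) := hV.comp measurable_fst
  have he1 : Measurable fun p : X × CTree => e p.1 := he.comp measurable_fst
  have hm1 : Measurable fun p : X × CTree => m p.1 := hm.comp measurable_fst
  have hh := measurable_hitm hm1 (measurable_snd (α := X) (β := CTree)) hΦ hε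
  have hz1 := measurable_hzc (hΦ := hΦ) (hε := hε) (L := L) (η := η) (t := t) (rs_ins hV1 he1)
  have h1 : MeasurableSet {p : X × CTree | Meets ε ((m p.1).2.1, ln Φ ε p.2) ∧
      (m p.1).1 < hitT ε ((m p.1).2.1, ln Φ ε p.2) ∧ u ≤ hitT ε ((m p.1).2.1, ln Φ ε p.2) ∧
      hitT ε ((m p.1).2.1, ln Φ ε p.2) ≤ PB.hz L hΦ hε η t (insert (e p.1) (V p.1)) ∧
      ∃ s < PB.hz L hΦ hε η t (insert (e p.1) (V p.1)),
        fl L hΦ hε (insert (e p.1) (V p.1)) s p.2} := by
    have g1 := measurableSet_hitP hm1 (measurable_snd (α := X) (β := CTree)) hΦ hε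
    have g2 : MeasurableSet {p : X × CTree | u ≤ hitT ε ((m p.1).2.1, ln Φ ε p.2)} :=
      measurableSet_le measurable_const hh
    have g3 : MeasurableSet {p : X × CTree | hitT ε ((m p.1).2.1, ln Φ ε p.2) ≤
        PB.hz L hΦ hε η t (insert (e p.1) (V p.1))} := measurableSet_le hh hz1
    have g4 := measurableSet_fl_lt (hΦ := hΦ) (hε := hε) (L := L) (rs_ins hV1 he1) hz1 (measurable_snd (α := X) (β := CTree))
    convert g1.inter (g2.inter (g3.inter g4)) using 1
    ext p
    simp only [mem_ofPred_eq, mem_inter_iff, and_assoc]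
  have h2 := (rs_trs (L := L) hV).measurableSet_exists h1
  exact (measurableSet_TE hV he).inter h2

theorem measurableSet_TEu (hV : RS fun x => (V x : Set Src)) (he : Measurable e)
    (hm : Measurable m) : MeasurableSet {x | TEu L hΦ hε η t u (V x) (e x) (m x)} :=
  (measurableSet_lt hm.fst measurable_const).inter
    (measurableSet_touch hV (rs_ins hV he) ((measurable_hzc (rs_ins hV he)).min measurable_const))

theorem measurableSet_FelS (hV : RS fun x => (V x : Set Src)) (he : Measurable e)
    (hm : Measurable m) : MeasurableSet {x | FelS L hΦ hε η t u (V x) (e x) (m x)} := by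
  have hV1 : RS fun p : X × CTree => (V p.1 : Set Src) := hV.comp measurable_fst
  have hm1 : Measurable fun p : X × CTree => m p.1 := hm.comp measurable_fst
  have hh := measurable_hitm hm1 (measurable_snd (α := X) (β := CTree)) hΦ hε
  have hz1 := measurable_hzc (hΦ := hΦ) (hε := hε) (L := L) (η := η) (t := t) hV1
  have h1 : MeasurableSet {p : X × CTree | Meets ε ((m p.1).2.1, ln Φ ε p.2) ∧
      (m p.1).1 < hitT ε ((m p.1).2.1, ln Φ ε p.2) ∧ hitT ε ((m p.1).2.1, ln Φ ε p.2) < u ∧
      hitT ε ((m p.1).2.1, ln Φ ε p.2) ≤ PB.hz L hΦ hε η t (V p.1) ∧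
      fl L hΦ hε (V p.1) (PB.hz L hΦ hε η t (V p.1)) p.2} := by
    have g1 := measurableSet_hitP hm1 (measurable_snd (α := X) (β := CTree)) hΦ hε
    have g2 : MeasurableSet {p : X × CTree | hitT ε ((m p.1).2.1, ln Φ ε p.2) < u} :=
      measurableSet_lt hh measurable_const
    have g3 : MeasurableSet {p : X × CTree | hitT ε ((m p.1).2.1, ln Φ ε p.2) ≤
        PB.hz L hΦ hε η t (V p.1)} := measurableSet_le hh hz1
    have g4 := measurableSet_fl (hΦ := hΦ) (hε := hε) (L := L) hV1 (measurable_snd (α := X) (β := CTree)) hz1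
    convert g1.inter (g2.inter (g3.inter g4)) using 1
    ext p
    simp only [mem_ofPred_eq, mem_inter_iff, and_assoc]
  have h2 := (rs_trs (L := L) hV).measurableSet_exists h1
  exact (measurableSet_TE hV he).inter h2

theorem measurable_S6 (hV : RS fun x => (V x : Set Src)) (he : Measurable e)
    (hm : Measurable m) : Measurable fun x => S6 L hΦ hε η t w u (V x) (e x) (m x) :=
  (((measurable_ind (measurableSet_DirG hV he hm)).add
    (measurable_ind (measurableSet_FelL hV he hm))).add
    (measurable_ind (measurableSet_TEu hV he hm))).add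
    (measurable_ind (measurableSet_FelS hV he hm))

theorem measurableSet_PairG (hV : RS fun x => (V x : Set Src)) (he : Measurable e)
    (hm : Measurable m) (hz : Measurable z') :
    MeasurableSet {x | PairG L hΦ hε η t w (V x) (e x) (m x) (z' x)} :=
  (measurableSet_TE hV he).inter
    (measurableSet_PairC (rs_ins hV he) measurable_const measurable_const measurable_const hm hz)

/-- The fresh lines, with a function which depends on a parameter. -/
theorem measurable_fresh' (hΦ : IsPotential Φ) (hε : 0 < ε) {Θ : X → Src → ℝ≥0∞}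
    (hΘ : Measurable fun p : X × Src => Θ p.1 p.2) (hm : Measurable m) (hz : Measurable z')
    {n : X → ℕ} (hn : Measurable n) :
    Measurable fun x => fresh Φ ε t (Θ x) (m x) (z' x) (n x) := by
  have hd : Measurable fun x => max (m x).2.2 (n x) + 1 :=
    ((measurable_snd.comp (measurable_snd.comp hm)).max hn).add_const 1
  have hq : Measurable fun x => (((m x).2.1, z' x) : Ph × Ph) :=
    (measurable_fst.comp (measurable_snd.comp hm)).prodMk hz
  have hsc := (measurable_sc2 hΦ hε.ne').comp hq
  have hsep := (measurable_sepT (ε := ε) hΦ).comp hq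
  have hhit := (measurable_hitT (ε := ε)).comp hq
  have key : ∀ (g : X → Src) (τ : X → ℝ), Measurable g → Measurable τ →
      (∀ q, (g q).1 = τ q) →
      Measurable fun q => (Iic t).indicator (fun r => Θ q (r, (g q).2.1, (g q).2.2)) (τ q) := by
    intro g τ hg hτ hgt
    have : (fun q => (Iic t).indicator (fun r => Θ q (r, (g q).2.1, (g q).2.2)) (τ q)) =
        (τ ⁻¹' (Iic t)).indicator (fun q => Θ q (g q)) := by
      funext q
      by_cases h : τ q ∈ Iic t
      · rw [indicator_of_mem h, indicator_of_mem (show q ∈ τ ⁻¹' (Iic t) from h), ← hgt q]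
      · rw [indicator_of_notMem h, indicator_of_notMem (show q ∉ τ ⁻¹' (Iic t) from h)]
    rw [this]
    exact (hΘ.comp (measurable_id.prodMk hg)).indicator (hτ measurableSet_Iic)
  exact ((key (fun x => (sepT Φ ε ((m x).2.1, z' x), (sc2 Φ ε ((m x).2.1, z' x)).1,
      max (m x).2.2 (n x) + 1)) _ (hsep.prodMk (hsc.fst.prodMk hd)) hsep fun _ => rfl).add
    (key (fun x => (sepT Φ ε ((m x).2.1, z' x), (sc2 Φ ε ((m x).2.1, z' x)).2,
      max (m x).2.2 (n x) + 1)) _ (hsep.prodMk (hsc.snd.prodMk hd)) hsep fun _ => rfl)).add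
    (key (fun x => (hitT ε ((m x).2.1, z' x), z' x, n x)) _ (hhit.prodMk (hz.prodMk hn)) hhit
      fun _ => rfl)

theorem measurable_main6 (hV : RS fun x => (V x : Set Src)) (he : Measurable e)
    (hm : Measurable m) (hz : Measurable z') {n : X → ℕ} (hn : Measurable n) :
    Measurable fun x => main6 L hΦ hε η t w u (V x) (e x) (m x) (z' x) (n x) := by
  have hh : Measurable fun x => hitT ε ((m x).2.1, z' x) :=
    measurable_hitT.comp ((measurable_fst.comp (measurable_snd.comp hm)).prodMk hz)
  have h1 : Measurable fun p : X × Src => GGL L hΦ hε η t (V p.1) (e p.1) p.2 :=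
    measurable_GGL (hV.comp measurable_fst) (he.comp measurable_fst) measurable_snd
  exact ((measurable_ind (measurableSet_PairG hV he hm hz)).add
    (measurable_fresh' hΦ hε (Θ := fun x σ => GGL L hΦ hε η t (V x) (e x) σ) h1 hm hz hn)).add
    (Measurable.ite (measurableSet_lt hh measurable_const)
      (measurable_ind (measurableSet_TE hV he)) measurable_const)

theorem measurable_ovr' (hm : Measurable m) (hT : Measurable T) :
    Measurable fun x => ovr L (m x) (T x) := by
  have h : Measurable fun x => max (m x).2.2 (T x).depth + 1 :=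
    ((measurable_snd.comp (measurable_snd.comp hm)).max (M.measurable_depth.comp hT)).add_const 1
  exact Measurable.ite (h (measurableSet_Ioi (a := L))) measurable_const measurable_const

open Classical in
theorem measurableSet_I6 (hV : RS fun x => (V x : Set Src)) (he : Measurable e)
    (hm : Measurable m) {I : X → Prop} (hI : MeasurableSet {x | I x}) :
    MeasurableSet {x | I6 L hΦ hε θ t (I x) (V x) (e x) (m x)} := by
  have hK : RS fun x => (({e x, m x} : Finset Src) : Set Src) := by
    refine ((RS.singleton he).union (RS.singleton hm)).congr fun x => ?_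
    ext a
    simp [or_comm]
  have h1 : MeasurableSet {x | M.Good Φ ε L (V x) (fun a : Src => ({a} : Finset Src))
      {e x, m x} t} :=
    measurableSet_MGood_sgl (L := L) hΦ hε hV (K := fun x => {e x, m x}) hK measurable_const
  exact hI.union (h1.compl.union (measurableSet_lt measurable_const
    (measurable_relW (rs_ins hV he) hV measurable_const)))

/-- Sums over the trees which are hit. -/
theorem measurable_sumHit' (hΦ : IsPotential Φ) (hε : 0 < ε)
    (hV : RS fun x => (V x : Set Src)) (hm : Measurable m) {G : X → Finset Src → CTree → ℝ≥0∞}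
    (hG : Measurable fun p : X × CTree => G p.1 (rm (V p.1) p.2) p.2) :
    Measurable fun x => sumHit Φ ε L t (m x) (G x) (V x) :=
  measurable_sum_trs hV (F := fun p : X × CTree =>
    ind (HitC Φ ε L t (V p.1) (m p.1) p.2) * G p.1 (rm (V p.1) p.2) p.2)
    ((measurable_ind (measurableSet_HitC hΦ hε (hV.comp measurable_fst) measurable_const
      (hm.comp measurable_fst) measurable_snd)).mul hG)

open Classical in
theorem measurableSet_Hit6 (hV : RS fun x => (V x : Set Src)) (he : Measurable e)
    (hm : Measurable m) (hT : Measurable T) :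
    MeasurableSet {x | Hit6 L hΦ hε t (V x) (e x) (m x) (T x)} := by
  have hK : RS fun x => (({e x, m x} : Finset Src) : Set Src) := by
    refine ((RS.singleton he).union (RS.singleton hm)).congr fun x => ?_
    ext a
    simp [or_comm]
  have h1 : MeasurableSet {x | M.Good Φ ε L (addT (V x) (T x)) (fun a : Src => ({a} : Finset Src))
      {e x, m x} t} :=
    measurableSet_MGood_sgl (L := L) hΦ hε (PB.rs_addT hV hT) (K := fun x => {e x, m x}) hK
      measurable_const
  have h2 : MeasurableSet {x | HitR L hΦ hε (m x) (insert (e x) (V x)) (T x)} :=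
    measurableSet_HitR (rs_ins hV he) hT hm
  have h3 : MeasurableSet {x | e x ∉ (T x).leaves} := (measurableSet_tree_mem_leaves he hT).compl
  have hh : Measurable fun x => hitT ε ((m x).2.1, ln Φ ε (T x)) :=
    measurable_hitT.comp ((measurable_fst.comp (measurable_snd.comp hm)).prodMk
      ((M.measurable_ln hΦ hε.ne').comp hT))
  have h4 := MM.measurableSet_tree_alive hΦ hε (PB.rs_addT hV hT) hT hh (L := L)
  convert h2.inter (h1.inter (h3.inter h4)) using 1
  ext x
  simp only [mem_ofPred_eq, mem_inter_iff]
  exact ⟨fun h => ⟨h.hit, h.good, h.notMem, h.al⟩, fun ⟨g1, g2, g3, g4⟩ => ⟨g1, g2, g3, g4⟩⟩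

open Classical in
theorem measurable_relHit (hV : RS fun x => (V x : Set Src)) (he : Measurable e)
    (hm : Measurable m) {E : X → Finset Src → CTree → Prop}
    (hE : MeasurableSet {p : X × CTree | E p.1 (insert (e p.1) (rm (V p.1) p.2)) p.2}) :
    Measurable fun x => relHit L hΦ hε t (E x) (V x) (e x) (m x) := by
  have hV1 : RS fun p : X × CTree => (rm (V p.1) p.2 : Set Src) :=
    rs_rm (hV.comp measurable_fst) measurable_snd
  have he1 : Measurable fun p : X × CTree => e p.1 := he.comp measurable_fst
  have hm1 : Measurable fun p : X × CTree => m p.1 := hm.comp measurable_fst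
  have hi := rs_ins hV1 he1
  refine measurable_sumHit' hΦ hε hV hm (G := fun x V T => ind (Hit6 L hΦ hε t V (e x) (m x) T ∧
    ¬E x (insert (e x) V) T ∧ ¬FB.Sys.Square (RB.Y Φ ε L hΦ hε) V (insert (e x) V) (addT V T)
      (addT (insert (e x) V) T) t)) (measurable_ind ?_)
  exact (measurableSet_Hit6 hV1 he1 hm1 measurable_snd).inter (hE.compl.inter
    (measurableSet_square hV1 hi (PB.rs_addT hV1 measurable_snd) (PB.rs_addT hi measurable_snd)
      measurable_const).compl)

theorem measurable_B6 (hV : RS fun x => (V x : Set Src)) (he : Measurable e)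
    (hm : Measurable m) (hT : Measurable T) {E : X → Finset Src → CTree → Prop}
    (hE : MeasurableSet {x | E x (insert (e x) (V x)) (T x)}) :
    Measurable fun x => B6 L hΦ hε θ t (E x) (e x) (m x) (V x) (T x) :=
  (measurable_ind ((measurableSet_Hit6 hV he hm hT).inter hE)).add
    (measurable_ind ((measurableSet_Hit6 hV he hm hT).inter (hE.compl.inter
      (measurableSet_lt measurable_const
        (measurable_relW (PB.rs_addT (rs_ins hV he) hT) (rs_ins hV he) measurable_const)))))

end def6

end Vale.Agent.P119.RM
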