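import Vale.Agent.P119.MM.SysMeas

/-!
# P119: measurable systems of worlds (`helper758`)

`MSys Y`: in the system `Y` of `FB/Sys.lean` the times at which a label is bad, at which two labels
are in contact, and at which the statuses in two worlds are different are time sets (`SC`), for all
random worlds (`RS`) and measurable labels.  Then the same holds for `Exp`, `D`, `Touch` and their
complements; the events are measurable at measurable times, the first times are measurable, the
exposed and the discrepant labels are random sets, and sums over them, and over the members of a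
random set which touch, are measurable.
-/

open MeasureTheory Filter Topology Set
open scoped ENNReal

noncomputable section

namespace Vale.Agent.P119.RM

open MM FB

section up

variable {X : Type*} [MeasurableSpace X] {A : X → Set ℝ}

/-- No point of the set up to now. -/
theorem not_up (hA : SC A) : SC fun x => {t | ∀ s ≤ t, s ∉ A x} :=
  SC.of_down (fun _ _ _ h hst r hr => h r (hr.trans hst)) fun t ht => by
    refine (hA.exists_le ht).compl.congr ?_
    ext x
    simp only [mem_compl_iff, mem_ofPred_eq, not_exists, not_and]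

theorem not_up_lt (hA : SC A) : SC fun x => {t | ∀ s < t, s ∉ A x} :=
  SC.of_down (fun _ _ _ h hst r hr => h r (hr.trans_le hst)) fun t ht => by
    refine (hA.exists_lt ht).compl.congr ?_
    ext x
    simp only [mem_compl_iff, mem_ofPred_eq, not_exists, not_and]

end up

variable {α S : Type} [MeasurableSpace α]

/-- The basic time sets of the system are measurable. -/
structure MSys (Y : Sys α S) : Prop where
  bad : ∀ {X : Type} [MeasurableSpace X] {W : X → Finset α} {f : X → α},
    RS (fun x => (W x : Set α)) → Measurable f → SC fun x => {s | Y.bad (W x) (f x) s}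
  con : ∀ {X : Type} [MeasurableSpace X] {W : X → Finset α} {f g : X → α},
    RS (fun x => (W x : Set α)) → Measurable f → Measurable g →
      SC fun x => {s | Y.con (W x) s (f x) (g x)}
  st : ∀ {X : Type} [MeasurableSpace X] {W₁ W₂ : X → Finset α} {f : X → α},
    RS (fun x => (W₁ x : Set α)) → RS (fun x => (W₂ x : Set α)) → Measurable f →
      SC fun x => {s | Y.st (W₁ x) (f x) s ≠ Y.st (W₂ x) (f x) s}

namespace MSys

variable {Y : Sys α S} {X : Type} [MeasurableSpace X] {W W₁ W₂ : X → Finset α} {f g : X → α}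
  {t : X → ℝ}

/-- **Exposure is a time set.** -/
theorem exp (hY : MSys Y) (hW : RS fun x => (W x : Set α)) (hf : Measurable f) :
    SC fun x => {t | Y.Exp (W x) (f x) t} :=
  SC.exp hW (fun _ hf => hY.bad hW hf) (fun _ _ hf hg => hY.con hW hf hg) hf

theorem not_exp (hY : MSys Y) (hW : RS fun x => (W x : Set α)) (hf : Measurable f) :
    SC fun x => {t | ¬Y.Exp (W x) (f x) t} :=
  SC.compl_up (hY.exp hW hf) fun _ _ _ h hst => h.mono hst

theorem mem_D (hY : MSys Y) (h₁ : RS fun x => (W₁ x : Set α)) (h₂ : RS fun x => (W₂ x : Set α))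
    (hf : Measurable f) : SC fun x => {t | f x ∈ Y.D (W₁ x) (W₂ x) t} :=
  SC.up (hY.st h₁ h₂ hf)

theorem not_mem_D (hY : MSys Y) (h₁ : RS fun x => (W₁ x : Set α))
    (h₂ : RS fun x => (W₂ x : Set α)) (hf : Measurable f) :
    SC fun x => {t | f x ∉ Y.D (W₁ x) (W₂ x) t} :=
  SC.compl_up (hY.mem_D h₁ h₂ hf) fun _ _ _ h hst => Sys.D_mono hst h

/-- **Touching is a time set.** -/
theorem touch (hY : MSys Y) (h₁ : RS fun x => (W₁ x : Set α)) (h₂ : RS fun x => (W₂ x : Set α)) :
    SC fun x => {t | Y.Touch (W₁ x) (W₂ x) t} :=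
  SC.touch h₁ h₂ (fun _ hf => hY.bad h₁ hf) (fun _ _ hf hg => hY.con h₁ hf hg)
    (fun _ hf => hY.bad h₂ hf) (fun _ _ hf hg => hY.con h₂ hf hg) fun _ hf => hY.st h₁ h₂ hf

theorem not_touch (hY : MSys Y) (h₁ : RS fun x => (W₁ x : Set α))
    (h₂ : RS fun x => (W₂ x : Set α)) : SC fun x => {t | ¬Y.Touch (W₁ x) (W₂ x) t} :=
  SC.compl_up (hY.touch h₁ h₂) fun _ _ _ h hst => Sys.Touch.mono h hst

/-! ### Events at measurable times, first times -/

theorem measurableSet_exp (hY : MSys Y) (hW : RS fun x => (W x : Set α)) (hf : Measurable f)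
    (ht : Measurable t) : MeasurableSet {x | Y.Exp (W x) (f x) (t x)} :=
  (hY.exp hW hf).mem ht

theorem measurableSet_mem_D (hY : MSys Y) (h₁ : RS fun x => (W₁ x : Set α))
    (h₂ : RS fun x => (W₂ x : Set α)) (hf : Measurable f) (ht : Measurable t) :
    MeasurableSet {x | f x ∈ Y.D (W₁ x) (W₂ x) (t x)} :=
  (hY.mem_D h₁ h₂ hf).mem ht

theorem measurableSet_touch (hY : MSys Y) (h₁ : RS fun x => (W₁ x : Set α))
    (h₂ : RS fun x => (W₂ x : Set α)) (ht : Measurable t) :
    MeasurableSet {x | Y.Touch (W₁ x) (W₂ x) (t x)} :=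
  (hY.touch h₁ h₂).mem ht

/-- Exposure strictly before a measurable time. -/
theorem measurableSet_exp_lt (hY : MSys Y) (hW : RS fun x => (W x : Set α)) (hf : Measurable f)
    (ht : Measurable t) : MeasurableSet {x | ∃ s < t x, Y.Exp (W x) (f x) s} :=
  (SC.up_lt (hY.exp hW hf)).mem ht

theorem measurableSet_touch_lt (hY : MSys Y) (h₁ : RS fun x => (W₁ x : Set α))
    (h₂ : RS fun x => (W₂ x : Set α)) (ht : Measurable t) :
    MeasurableSet {x | ∃ s < t x, Y.Touch (W₁ x) (W₂ x) s} :=
  (SC.up_lt (hY.touch h₁ h₂)).mem ht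

/-- The first exposure time. -/
theorem measurable_firstExp (hY : MSys Y) (hW : RS fun x => (W x : Set α)) (hf : Measurable f) :
    Measurable fun x => hT {t | Y.Exp (W x) (f x) t} :=
  (hY.exp hW hf).measurable_hT

theorem measurable_firstD (hY : MSys Y) (h₁ : RS fun x => (W₁ x : Set α))
    (h₂ : RS fun x => (W₂ x : Set α)) (hf : Measurable f) :
    Measurable fun x => hT {t | f x ∈ Y.D (W₁ x) (W₂ x) t} :=
  (hY.mem_D h₁ h₂ hf).measurable_hT

theorem measurable_firstTouch (hY : MSys Y) (h₁ : RS fun x => (W₁ x : Set α))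
    (h₂ : RS fun x => (W₂ x : Set α)) :
    Measurable fun x => hT {t | Y.Touch (W₁ x) (W₂ x) t} :=
  (hY.touch h₁ h₂).measurable_hT

/-! ### The exposed set and the discrepant set as random sets -/

theorem rs_exp (hY : MSys Y) (hW : RS fun x => (W x : Set α)) (ht : Measurable t) :
    RS fun x => {a | Y.Exp (W x) a (t x)} := by
  have h := hW.inter_pred (P := {p : X × α | Y.Exp (W p.1) p.2 (t p.1)})
    (hY.measurableSet_exp (hW.comp measurable_fst) measurable_snd (ht.comp measurable_fst))
  refine h.congr fun x => ?_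
  ext a
  exact ⟨fun h => ⟨h.mem, h⟩, fun h => h.2⟩

/-- The unexposed labels. -/
theorem rs_not_exp (hY : MSys Y) (hW : RS fun x => (W x : Set α)) (ht : Measurable t) :
    RS fun x => {a | a ∈ W x ∧ ¬Y.Exp (W x) a (t x)} :=
  hW.inter_pred (P := {p : X × α | Y.Exp (W p.1) p.2 (t p.1)}ᶜ)
    (hY.measurableSet_exp (hW.comp measurable_fst) measurable_snd
      (ht.comp measurable_fst)).compl

/-- The members of a random set which are discrepant. -/
theorem rs_D (hY : MSys Y) {V : X → Set α} (hV : RS V) (h₁ : RS fun x => (W₁ x : Set α))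
    (h₂ : RS fun x => (W₂ x : Set α)) (ht : Measurable t) :
    RS fun x => {a | a ∈ V x ∧ a ∈ Y.D (W₁ x) (W₂ x) (t x)} :=
  hV.inter_pred (P := {p : X × α | p.2 ∈ Y.D (W₁ p.1) (W₂ p.1) (t p.1)})
    (hY.measurableSet_mem_D (h₁.comp measurable_fst) (h₂.comp measurable_fst) measurable_snd
      (ht.comp measurable_fst))

/-- Sums over the exposed labels. -/
theorem measurable_sum_exp [MeasurableEq α] (hY : MSys Y) (hW : RS fun x => (W x : Set α))
    (ht : Measurable t) {F : X × α → ℝ≥0∞} (hF : Measurable F) :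
    Measurable fun x => ∑' a : {a | Y.Exp (W x) a (t x)}, F (x, a) :=
  (hY.rs_exp hW ht).measurable_tsum hF

/-- The number of exposed labels. -/
theorem measurable_card_exp [MeasurableEq α] (hY : MSys Y) (hW : RS fun x => (W x : Set α))
    (ht : Measurable t) : Measurable fun x => (({a | Y.Exp (W x) a (t x)}.encard : ℕ∞) : ℝ≥0∞) :=
  (hY.rs_exp hW ht).measurable_encard

section felt

variable {β : Type} [MeasurableSpace β] {V : X → Set β} {U₁ U₂ : X × β → Finset α}
  {u : X × β → ℝ}

/-- The members `b` of a random set with `Touch (U₁ (x, b)) (U₂ (x, b)) (u (x, b))`, for example the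
felt structures. -/
theorem rs_touch (hY : MSys Y) (hV : RS V) (h₁ : RS fun p => (U₁ p : Set α))
    (h₂ : RS fun p => (U₂ p : Set α)) (hu : Measurable u) :
    RS fun x => {b | b ∈ V x ∧ Y.Touch (U₁ (x, b)) (U₂ (x, b)) (u (x, b))} :=
  hV.inter_pred (P := {p : X × β | Y.Touch (U₁ p) (U₂ p) (u p)})
    (hY.measurableSet_touch h₁ h₂ hu)

theorem measurable_sum_touch [MeasurableEq β] (hY : MSys Y) (hV : RS V)
    (h₁ : RS fun p => (U₁ p : Set α)) (h₂ : RS fun p => (U₂ p : Set α)) (hu : Measurable u)
    {F : X × β → ℝ≥0∞} (hF : Measurable F) :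
    Measurable fun x => ∑' b : {b | b ∈ V x ∧ Y.Touch (U₁ (x, b)) (U₂ (x, b)) (u (x, b))},
      F (x, b) :=
  (hY.rs_touch hV h₁ h₂ hu).measurable_tsum hF

theorem measurable_card_touch [MeasurableEq β] (hY : MSys Y) (hV : RS V)
    (h₁ : RS fun p => (U₁ p : Set α)) (h₂ : RS fun p => (U₂ p : Set α)) (hu : Measurable u) :
    Measurable fun x => (({b | b ∈ V x ∧
      Y.Touch (U₁ (x, b)) (U₂ (x, b)) (u (x, b))}.encard : ℕ∞) : ℝ≥0∞) :=
  (hY.rs_touch hV h₁ h₂ hu).measurable_encard

/-- Integrals over an inserted structure: `θ`. -/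
theorem measurable_lintegral_touch (hY : MSys Y) (h₁ : RS fun p => (U₁ p : Set α))
    (h₂ : RS fun p => (U₂ p : Set α)) (hu : Measurable u) (ν : Measure β) [SFinite ν]
    {F : X × β → ℝ≥0∞} (hF : Measurable F) :
    Measurable fun x => ∫⁻ b, {b | Y.Touch (U₁ (x, b)) (U₂ (x, b)) (u (x, b))}.indicator
      (fun b => F (x, b)) b ∂ν := by
  have h := hF.indicator (hY.measurableSet_touch h₁ h₂ hu)
  exact h.lintegral_prod_right'

end felt

end MSys

end Vale.Agent.P119.RM
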