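import Vale.Agent.P119.RM.Rel
import Vale.Agent.P119.M.SupBad

/-!
# P119: measurability of the non-interaction events (`helper758`)

* `measurableSet_exists_pair`, `measurableSet_exists_triple`: there are two (three) elements of
  random sets and a time `≤ t` such that ...;
* `SC.altd`, `SC.not_altd`, `measurableSet_NI`, `measurableSet_NIB` (`helper472`).
-/

open MeasureTheory Filter Topology Set
open scoped ENNReal

noncomputable section

namespace Vale.Agent.P119.RM

open KU M CTree MM FB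

variable {Φ : E3 → ℝ} {ε : ℝ} {L : ℕ} {X : Type*} [MeasurableSpace X] {t : X → ℝ}

/-- There are elements of two random sets and a time. -/
theorem measurableSet_exists_pair {β γ : Type*} [MeasurableSpace β] [MeasurableSpace γ]
    {A : X → Set β} {B : X → Set γ} (hA : RS A) (hB : RS B) (ht : Measurable t)
    {E : X → β → γ → Set ℝ} (hE : SC fun q : (X × β) × γ => E q.1.1 q.1.2 q.2)
    (hp : ∀ x p y s, s ∈ E x p y → p ∈ A x) (hy : ∀ x p y s, s ∈ E x p y → y ∈ B x) :
    MeasurableSet {x | ∃ p y s, s ≤ t x ∧ s ∈ E x p y} := by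
  have h1 : MeasurableSet {q : (X × β) × γ | ∃ s ≤ t q.1.1, s ∈ E q.1.1 q.1.2 q.2} :=
    hE.exists_le (ht.comp measurable_fst.fst)
  have h2 := (hB.comp (measurable_fst (α := X) (β := β))).measurableSet_exists h1
  have h3 := hA.measurableSet_exists h2
  convert h3 using 1
  ext x
  simp only [mem_ofPred_eq]
  constructor
  · rintro ⟨p, y, s, hs, h⟩
    exact ⟨p, hp x p y s h, y, hy x p y s h, s, hs, h⟩
  · rintro ⟨p, -, y, -, s, hs, h⟩
    exact ⟨p, y, s, hs, h⟩

/-- There are elements of three random sets and a time. -/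
theorem measurableSet_exists_triple {β γ δ : Type*} [MeasurableSpace β] [MeasurableSpace γ]
    [MeasurableSpace δ] {A : X → Set β} {B : X → Set γ} {C : X → Set δ} (hA : RS A) (hB : RS B)
    (hC : RS C) (ht : Measurable t) {E : X → β → γ → δ → Set ℝ}
    (hE : SC fun q : ((X × β) × γ) × δ => E q.1.1.1 q.1.1.2 q.1.2 q.2)
    (hp : ∀ x p y z s, s ∈ E x p y z → p ∈ A x) (hy : ∀ x p y z s, s ∈ E x p y z → y ∈ B x)
    (hz : ∀ x p y z s, s ∈ E x p y z → z ∈ C x) :
    MeasurableSet {x | ∃ p y z s, s ≤ t x ∧ s ∈ E x p y z} := by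
  have h1 : MeasurableSet {q : ((X × β) × γ) × δ |
      ∃ s ≤ t q.1.1.1, s ∈ E q.1.1.1 q.1.1.2 q.1.2 q.2} :=
    hE.exists_le (ht.comp measurable_fst.fst.fst)
  have h2 := (hC.comp (measurable_fst.fst : Measurable fun q : (X × β) × γ => q.1.1)).measurableSet_exists h1
  have h3 := (hB.comp (measurable_fst (α := X) (β := β))).measurableSet_exists h2
  have h4 := hA.measurableSet_exists h3
  convert h4 using 1
  ext x
  simp only [mem_ofPred_eq]
  constructor
  · rintro ⟨p, y, z, s, hs, h⟩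
    exact ⟨p, hp x p y z s h, y, hy x p y z s h, z, hz x p y z s h, s, hs, h⟩
  · rintro ⟨p, -, y, -, z, -, s, hs, h⟩
    exact ⟨p, y, z, s, hs, h⟩

section altd

variable {ι : Type*} [DecidableEq ι] {W : X → Finset ι → Set Src} {K : Finset ι} {i : ι}
  {f : X → Src}

omit [DecidableEq ι] in
theorem altd_iff {W : Finset ι → Set Src} {i : ι} {a : Src} {t : ℝ} :
    altd Φ ε L W i a t ↔ (a ∈ W ∅ ∧ a ∉ W {i}) ∨ (a ∉ W ∅ ∧ a ∈ W {i}) ∨
      ∃ r ≤ t, stat Φ ε L (W ∅) a r ≠ stat Φ ε L (W {i}) a r := by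
  unfold altd
  constructor
  · intro h
    by_contra hcon
    push Not at hcon
    obtain ⟨h1, h2, h3⟩ := hcon
    exact h ⟨⟨h1, fun h4 => by_contra fun h5 => h2 h5 h4⟩, h3⟩
  · rintro h ⟨h1, h2⟩
    rcases h with h | h | ⟨r, hr, h⟩
    · exact h.2 (h1.1 h.1)
    · exact h.1 (h1.2 h.2)
    · exact h (h2 r hr)

omit [DecidableEq ι] in
theorem SC.altd (hΦ : IsPotential Φ) (hε : 0 < ε) (h0 : RS fun x => W x ∅)
    (f0 : ∀ x, (W x ∅).Finite) (h1 : RS fun x => W x {i}) (f1 : ∀ x, (W x {i}).Finite)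
    (hf : Measurable f) : SC fun x => {s | M.altd Φ ε L (W x) i (f x) s} := by
  have m0 := h0.measurableSet_mem_of hf
  have m1 := h1.measurableSet_mem_of hf
  refine ((SC.cond (m0.inter m1.compl)).or ((SC.cond (m0.compl.inter m1)).or
    (SC.up (SC.rs_stat_ne hΦ hε h0 f0 h1 f1 hf (L := L))))).congr fun x s => ?_
  exact altd_iff

omit [DecidableEq ι] in
theorem altd_mono {W : Finset ι → Set Src} {i : ι} {a : Src} {s t : ℝ} (h : altd Φ ε L W i a s)
    (hst : s ≤ t) : altd Φ ε L W i a t :=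
  fun h' => h ⟨h'.1, fun r hr => h'.2 r (hr.trans hst)⟩

omit [DecidableEq ι] in
theorem SC.not_altd (hΦ : IsPotential Φ) (hε : 0 < ε) (h0 : RS fun x => W x ∅)
    (f0 : ∀ x, (W x ∅).Finite) (h1 : RS fun x => W x {i}) (f1 : ∀ x, (W x {i}).Finite)
    (hf : Measurable f) : SC fun x => {s | ¬M.altd Φ ε L (W x) i (f x) s} :=
  SC.compl_up (SC.altd hΦ hε h0 f0 h1 f1 hf) fun _ _ _ h hst => altd_mono h hst

omit [DecidableEq ι] in
/-- **The event `NI` is measurable.** -/
theorem measurableSet_NI (hΦ : IsPotential Φ) (hε : 0 < ε) (h0 : RS fun x => W x ∅)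
    (f0 : ∀ x, (W x ∅).Finite) (h1 : ∀ i ∈ K, RS fun x => W x {i})
    (f1 : ∀ i ∈ K, ∀ x, (W x {i}).Finite) (ht : Measurable t) :
    MeasurableSet {x | NI Φ ε L (W x) K (t x)} := by
  classical
  -- the first condition
  have hA : ∀ i ∈ K, ∀ j ∈ K, MeasurableSet {x | ∃ T T' s, s ≤ t x ∧
      (¬(live Φ ε L (W x ∅) T s ↔ live Φ ε L (W x {i}) T s) ∧
      ¬(alive Φ ε L (W x ∅) T' s ↔ alive Φ ε L (W x {j}) T' s) ∧ hit Φ ε T T' s)} := by
    intro i hi j hj
    refine measurableSet_exists_pair (E := fun x T T' => {s |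
      ¬(live Φ ε L (W x ∅) T s ↔ live Φ ε L (W x {i}) T s) ∧
      ¬(alive Φ ε L (W x ∅) T' s ↔ alive Φ ε L (W x {j}) T' s) ∧ hit Φ ε T T' s})
      (h0.union (h1 i hi)).trees (h0.union (h1 j hj)).trees ht ?_ ?_ ?_
    · have hT : Measurable fun q : (X × CTree) × CTree => q.1.2 := measurable_fst.snd
      have hT' : Measurable fun q : (X × CTree) × CTree => q.2 := measurable_snd
      have hx : Measurable fun q : (X × CTree) × CTree => q.1.1 := measurable_fst.fst
      exact (SC.tree_ne_live hΦ hε (h0.comp hx) ((h1 i hi).comp hx) hT).and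
        ((SC.tree_ne_alive hΦ hε (h0.comp hx) (fun q => f0 _) ((h1 j hj).comp hx)
          (fun q => f1 j hj _) hT').and (SC.tree_hit hΦ hε.ne' hT hT'))
    · rintro x T T' s ⟨h2, -, -⟩
      by_cases h3 : live Φ ε L (W x ∅) T s
      · exact h3.sub.trans subset_union_left
      · have h4 : live Φ ε L (W x {i}) T s := by tauto
        exact h4.sub.trans subset_union_right
    · rintro x T T' s ⟨-, h2, -⟩
      by_cases h3 : alive Φ ε L (W x ∅) T' s
      · exact (alive_pre h3).sub.trans subset_union_left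
      · have h4 : alive Φ ε L (W x {j}) T' s := by tauto
        exact (alive_pre h4).sub.trans subset_union_right
  -- the second condition
  have hB : ∀ i ∈ K, ∀ j ∈ K, MeasurableSet {x | ∃ T T₁ T₂ s, s ≤ t x ∧
      (live Φ ε L (W x ∅) T s ∧
      ¬(alive Φ ε L (W x ∅) T₁ s ↔ alive Φ ε L (W x {i}) T₁ s) ∧
      ¬(alive Φ ε L (W x ∅) T₂ s ↔ alive Φ ε L (W x {j}) T₂ s) ∧
      hit Φ ε T T₁ s ∧ hit Φ ε T T₂ s)} := by
    intro i hi j hj
    refine measurableSet_exists_triple (E := fun x T T₁ T₂ => {s |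
      live Φ ε L (W x ∅) T s ∧
      ¬(alive Φ ε L (W x ∅) T₁ s ↔ alive Φ ε L (W x {i}) T₁ s) ∧
      ¬(alive Φ ε L (W x ∅) T₂ s ↔ alive Φ ε L (W x {j}) T₂ s) ∧
      hit Φ ε T T₁ s ∧ hit Φ ε T T₂ s})
      h0.trees (h0.union (h1 i hi)).trees (h0.union (h1 j hj)).trees ht ?_ ?_ ?_ ?_
    · have hT : Measurable fun q : ((X × CTree) × CTree) × CTree => q.1.1.2 :=
        measurable_fst.fst.snd
      have hT₁ : Measurable fun q : ((X × CTree) × CTree) × CTree => q.1.2 := measurable_fst.snd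
      have hT₂ : Measurable fun q : ((X × CTree) × CTree) × CTree => q.2 := measurable_snd
      have hx : Measurable fun q : ((X × CTree) × CTree) × CTree => q.1.1.1 :=
        measurable_fst.fst.fst
      exact (SC.tree_live hΦ hε (h0.comp hx) hT).and
        ((SC.tree_ne_alive hΦ hε (h0.comp hx) (fun q => f0 _) ((h1 i hi).comp hx)
          (fun q => f1 i hi _) hT₁).and
        ((SC.tree_ne_alive hΦ hε (h0.comp hx) (fun q => f0 _) ((h1 j hj).comp hx)
          (fun q => f1 j hj _) hT₂).and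
        ((SC.tree_hit hΦ hε.ne' hT hT₁).and (SC.tree_hit hΦ hε.ne' hT hT₂))))
    · rintro x T T₁ T₂ s ⟨h2, -, -⟩
      exact h2.sub
    · rintro x T T₁ T₂ s ⟨-, h2, -⟩
      by_cases h3 : alive Φ ε L (W x ∅) T₁ s
      · exact (alive_pre h3).sub.trans subset_union_left
      · have h4 : alive Φ ε L (W x {i}) T₁ s := by tauto
        exact (alive_pre h4).sub.trans subset_union_right
    · rintro x T T₁ T₂ s ⟨-, -, h2, -⟩
      by_cases h3 : alive Φ ε L (W x ∅) T₂ s
      · exact (alive_pre h3).sub.trans subset_union_left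
      · have h4 : alive Φ ε L (W x {j}) T₂ s := by tauto
        exact (alive_pre h4).sub.trans subset_union_right
  -- conclusion
  have hmain : MeasurableSet (⋂ i ∈ K, ⋂ j ∈ K, {x | i ≠ j →
      (¬∃ T T' s, s ≤ t x ∧
        (¬(live Φ ε L (W x ∅) T s ↔ live Φ ε L (W x {i}) T s) ∧
        ¬(alive Φ ε L (W x ∅) T' s ↔ alive Φ ε L (W x {j}) T' s) ∧ hit Φ ε T T' s)) ∧
      ¬∃ T T₁ T₂ s, s ≤ t x ∧
        (live Φ ε L (W x ∅) T s ∧
        ¬(alive Φ ε L (W x ∅) T₁ s ↔ alive Φ ε L (W x {i}) T₁ s) ∧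
        ¬(alive Φ ε L (W x ∅) T₂ s ↔ alive Φ ε L (W x {j}) T₂ s) ∧
        hit Φ ε T T₁ s ∧ hit Φ ε T T₂ s)}) := by
    refine K.measurableSet_biInter fun i hi => K.measurableSet_biInter fun j hj => ?_
    by_cases hij : i = j
    · simp [hij]
    · simp only [ne_eq, hij, not_false_eq_true, true_implies]
      exact (hA i hi j hj).compl.inter (hB i hi j hj).compl
  convert hmain using 1
  ext x
  simp only [mem_ofPred_eq, mem_iInter]
  constructor
  · intro h i hi j hj hij
    refine ⟨?_, ?_⟩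
    · rintro ⟨T, T', s, hs, h1, h2, h3⟩
      exact h.nohit i hi j hj hij s hs T T' h1 h2 h3
    · rintro ⟨T, T₁, T₂, s, hs, h1, h2, h3, h4, h5⟩
      exact h.notie i hi j hj hij s hs T T₁ T₂ h1 h2 h3 h4 h5
  · intro h
    refine ⟨fun i hi j hj hij s hs T T' h1 h2 h3 => ?_,
      fun i hi j hj hij s hs T T₁ T₂ h1 h2 h3 h4 h5 => ?_⟩
    · exact (h i hi j hj hij).1 ⟨T, T', s, hs, h1, h2, h3⟩
    · exact (h i hi j hj hij).2 ⟨T, T₁, T₂, s, hs, h1, h2, h3, h4, h5⟩

/-- **The event `NIB` is measurable.** -/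
theorem measurableSet_NIB (hΦ : IsPotential Φ) (hε : 0 < ε) (h0 : RS fun x => W x ∅)
    (f0 : ∀ x, (W x ∅).Finite) (h1 : ∀ i ∈ K, RS fun x => W x {i})
    (f1 : ∀ i ∈ K, ∀ x, (W x {i}).Finite) (ht : Measurable t) :
    MeasurableSet {x | NIB Φ ε L (W x) K (t x)} := by
  classical
  have hI : ∀ i ∈ K, ∀ I ∈ ({i} : Finset ι).powerset, RS fun x => W x I := by
    intro i hi I hI
    rw [Finset.mem_powerset, Finset.subset_singleton_iff] at hI
    rcases hI with rfl | rfl
    · exact h0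
    · exact h1 i hi
  have hF : ∀ i ∈ K, ∀ I ∈ ({i} : Finset ι).powerset, ∀ x, (W x I).Finite := by
    intro i hi I hI
    rw [Finset.mem_powerset, Finset.subset_singleton_iff] at hI
    rcases hI with rfl | rfl
    · exact f0
    · exact f1 i hi
  have hA : ∀ i ∈ K, ∀ j ∈ K, ∀ I ∈ ({i} : Finset ι).powerset, ∀ J ∈ ({j} : Finset ι).powerset,
      MeasurableSet {x | ∃ T T' s, s ≤ t x ∧
      (T.root ≠ T'.root ∧ M.altd Φ ε L (W x) i T.root s ∧ M.altd Φ ε L (W x) j T'.root s ∧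
      live Φ ε L (W x I) T s ∧ live Φ ε L (W x J) T' s ∧ Ctc ε (st Φ ε T s) (st Φ ε T' s))} := by
    intro i hi j hj I hI' J hJ'
    refine measurableSet_exists_pair (E := fun x T T' => {s |
      T.root ≠ T'.root ∧ M.altd Φ ε L (W x) i T.root s ∧ M.altd Φ ε L (W x) j T'.root s ∧
      live Φ ε L (W x I) T s ∧ live Φ ε L (W x J) T' s ∧ Ctc ε (st Φ ε T s) (st Φ ε T' s)})
      (hI i hi I hI').trees (hI j hj J hJ').trees ht ?_ (fun x T T' s h => h.2.2.2.1.sub)
      (fun x T T' s h => h.2.2.2.2.1.sub)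
    have hT : Measurable fun q : (X × CTree) × CTree => q.1.2 := measurable_fst.snd
    have hT' : Measurable fun q : (X × CTree) × CTree => q.2 := measurable_snd
    have hx : Measurable fun q : (X × CTree) × CTree => q.1.1 := measurable_fst.fst
    refine (SC.cond (measurableSet_src_eq (meas_root hT) (meas_root hT')).compl).and ?_
    refine (SC.altd (W := fun q : (X × CTree) × CTree => W q.1.1) hΦ hε (h0.comp hx)
      (fun q => f0 _) ((h1 i hi).comp hx) (fun q => f1 i hi _) (meas_root hT)).and ?_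
    refine (SC.altd (W := fun q : (X × CTree) × CTree => W q.1.1) hΦ hε (h0.comp hx)
      (fun q => f0 _) ((h1 j hj).comp hx) (fun q => f1 j hj _) (meas_root hT')).and ?_
    exact (SC.tree_live hΦ hε ((hI i hi I hI').comp hx) hT).and
      ((SC.tree_live hΦ hε ((hI j hj J hJ').comp hx) hT').and
        (SC.path_ctc (MPath.tree hΦ hε hT) (MPath.tree hΦ hε hT')))
  have hB : ∀ i ∈ K, ∀ I ∈ ({i} : Finset ι).powerset, MeasurableSet {x | ∃ a b s, s ≤ t x ∧
      (¬M.altd Φ ε L (W x) i a s ∧ M.altd Φ ε L (W x) i b s ∧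
        stat Φ ε L (W x I) a s ≠ none ∧ RB.mcon Φ ε L (W x I) s a b)} := by
    intro i hi I hI'
    refine measurableSet_exists_pair (E := fun x a b => {s |
      ¬M.altd Φ ε L (W x) i a s ∧ M.altd Φ ε L (W x) i b s ∧
        stat Φ ε L (W x I) a s ≠ none ∧ RB.mcon Φ ε L (W x I) s a b})
      (hI i hi I hI') (hI i hi I hI') ht ?_ (fun x a b s h => h.2.2.2.mem.1)
      (fun x a b s h => h.2.2.2.mem.2)
    have ha : Measurable fun q : (X × Src) × Src => q.1.2 := measurable_fst.snd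
    have hb : Measurable fun q : (X × Src) × Src => q.2 := measurable_snd
    have hx : Measurable fun q : (X × Src) × Src => q.1.1 := measurable_fst.fst
    refine (SC.not_altd (W := fun q : (X × Src) × Src => W q.1.1) hΦ hε (h0.comp hx)
      (fun q => f0 _) ((h1 i hi).comp hx) (fun q => f1 i hi _) ha).and ?_
    refine (SC.altd (W := fun q : (X × Src) × Src => W q.1.1) hΦ hε (h0.comp hx)
      (fun q => f0 _) ((h1 i hi).comp hx) (fun q => f1 i hi _) hb).and ?_
    exact (SC.rs_stat_ne_none hΦ hε ((hI i hi I hI').comp hx) (fun q => hF i hi I hI' _) ha).and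
      (SC.mcon hΦ hε ((hI i hi I hI').comp hx) ha hb)
  have hA' : MeasurableSet (⋂ i ∈ K, ⋂ j ∈ K, ⋂ I ∈ ({i} : Finset ι).powerset,
      ⋂ J ∈ ({j} : Finset ι).powerset, {x | i ≠ j → ¬∃ T T' s, s ≤ t x ∧
      (T.root ≠ T'.root ∧ M.altd Φ ε L (W x) i T.root s ∧ M.altd Φ ε L (W x) j T'.root s ∧
      live Φ ε L (W x I) T s ∧ live Φ ε L (W x J) T' s ∧ Ctc ε (st Φ ε T s) (st Φ ε T' s))}) := by
    refine K.measurableSet_biInter fun i hi => K.measurableSet_biInter fun j hj =>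
      Finset.measurableSet_biInter _ fun I hI' => Finset.measurableSet_biInter _ fun J hJ' => ?_
    by_cases hij : i = j
    · simp [hij]
    · simp only [ne_eq, hij, not_false_eq_true, true_implies]
      exact (hA i hi j hj I hI' J hJ').compl
  have hB' : MeasurableSet (⋂ i ∈ K, ⋂ I ∈ ({i} : Finset ι).powerset, {x | ¬∃ a b s, s ≤ t x ∧
      (¬M.altd Φ ε L (W x) i a s ∧ M.altd Φ ε L (W x) i b s ∧
        stat Φ ε L (W x I) a s ≠ none ∧ RB.mcon Φ ε L (W x I) s a b)}) :=
    K.measurableSet_biInter fun i hi => Finset.measurableSet_biInter _ fun I hI' =>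
      (hB i hi I hI').compl
  convert hA'.inter hB' using 1
  ext x
  simp only [mem_ofPred_eq, mem_iInter, mem_inter_iff, Finset.mem_powerset]
  constructor
  · intro h
    refine ⟨fun i hi j hj I hI' J hJ' hij => ?_, fun i hi I hI' => ?_⟩
    · rintro ⟨T, T', s, hs, h1, h2, h3, h4, h5, h6⟩
      exact h.nocon i hi j hj hij s hs _ _ h1 h2 h3 I hI' J hJ' T T' rfl rfl h4 h5 h6
    · rintro ⟨a, b, s, hs, h1, h2, h3, h4⟩
      exact h.nobad i hi s hs a b h1 h2 I hI' h3 h4
  · rintro ⟨h1, h2⟩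
    refine ⟨?_, ?_⟩
    · rintro i hi j hj hij s hs a b hab ha hb I hI' J hJ' T T' rfl rfl h3 h4 h5
      exact h1 i hi j hj I hI' J hJ' hij ⟨T, T', s, hs, hab, ha, hb, h3, h4, h5⟩
    · intro i hi s hs a b ha hb I hI' h3 h4
      exact h2 i hi I hI' ⟨a, b, s, hs, ha, hb, h3, h4⟩

end altd

end Vale.Agent.P119.RM
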