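import Vale.Agent.P119.RM.Status
import Vale.Agent.P119.RB.Transfer

/-!
# P119: the system of the real worlds is measurable (`helper758`)

`RB.Y Φ ε L hΦ hε`: the system of `helper909` for the real worlds `XR Φ ε` of `helper178`;
`msys_Y`.
-/

open MeasureTheory Filter Topology Set
open scoped ENNReal

noncomputable section

namespace Vale.Agent.P119.RM

open KU M CTree MM FB

variable {Φ : E3 → ℝ} {ε : ℝ} {L : ℕ}

theorem mfam_XR (hΦ : IsPotential Φ) (hε : 0 < ε) : MFam (RB.XR Φ ε) where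
  cont W a := RB.XR_continuous hΦ hε W a
  meas hW hf t := RB.measurable_XR hΦ hε hW hf (t := fun _ => t) measurable_const

/-- **The system of the real worlds is measurable.** -/
theorem msys_Y (hΦ : IsPotential Φ) (hε : 0 < ε) : MSys (RB.Y Φ ε L hΦ hε) :=
  msys hΦ hε (RB.XR_isFam hΦ hε) (mfam_XR hΦ hε)

/-- The system of the real worlds (another name for `RB.Y`). -/
abbrev Yr (Φ : E3 → ℝ) (ε : ℝ) (L : ℕ) (hΦ : IsPotential Φ) (hε : 0 < ε) :
    FB.Sys Src (Prop × Option CTree × Prop) := RB.Y Φ ε L hΦ hε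

theorem msys_Yr (hΦ : IsPotential Φ) (hε : 0 < ε) : MSys (Yr Φ ε L hΦ hε) := msys_Y hΦ hε

end Vale.Agent.P119.RM
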