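import Vale.Agent.P119.RM.Exp
import Vale.Agent.P119.MM.Alive
import Vale.Agent.P119.RB.Sys

/-!
# P119: measurability of the statuses and contacts of the system of worlds (`helper758`)

The time sets of `RB/Status.lean` and `RB/Sys.lean` (`mcon`, `part`, `badi`, `badc`, `sta`, `rcon`,
`con`) for random worlds and measurable sources, and `MSys` for the system `RB.sys`, if the family of
real worlds is measurable (`MFam`).
-/

open MeasureTheory Filter Topology Set
open scoped ENNReal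

noncomputable section

namespace Vale.Agent.P119.RM

open KU M CTree MM FB

variable {Φ : E3 → ℝ} {ε : ℝ} {L : ℕ}

/-! ### Labelled worlds -/

section labels

variable {ι : Type} [Countable ι] {X : Type*} [MeasurableSpace X] {z : X → ι → Src}
  {I J : X → Set ι} {f g : X → Src}

theorem SC.mcon' (hΦ : IsPotential Φ) (hε : 0 < ε) (hz : ∀ i, Measurable fun x => z x i)
    (hI : ∀ i, MeasurableSet {x | i ∈ I x}) (hf : Measurable f) (hg : Measurable g) :
    SC fun x => {s | RB.mcon Φ ε L (wd z I x) s (f x) (g x)} := by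
  have h1 : SC fun x => {s | ∃ p : MM.LT ι × MM.LT ι, s ∈ {s | (p.1.tree (z x)).root = f x ∧
      (p.2.tree (z x)).root = g x ∧ live Φ ε L (wd z I x) (p.1.tree (z x)) s ∧
      live Φ ε L (wd z I x) (p.2.tree (z x)) s ∧
      Ctc ε (st Φ ε (p.1.tree (z x)) s) (st Φ ε (p.2.tree (z x)) s)}} := by
    refine SC.iUnion fun p => ?_
    exact ((SC.cond (measurableSet_src_eq (measurable_root hz p.1) hf)).and
      ((SC.cond (measurableSet_src_eq (measurable_root hz p.2) hg)).and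
      ((SC.live hΦ hε hz hI p.1 (L := L)).and ((SC.live hΦ hε hz hI p.2 (L := L)).and
        (SC.st_ctc hΦ hε hz p.1 p.2))))).congr fun x s => Iff.rfl
  refine ((SC.cond (measurableSet_src_eq hf hg).compl).and h1).congr fun x s => ?_
  simp only [mem_ofPred_eq, RB.mcon, mem_compl_iff]
  refine and_congr_right fun _ => ?_
  constructor
  · rintro ⟨T, T', h2, h3, h4, h5, h6⟩
    obtain ⟨τ, -, rfl⟩ := MM.LT.exists_tree h4.sub
    obtain ⟨υ, -, rfl⟩ := MM.LT.exists_tree h5.sub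
    exact ⟨(τ, υ), h2, h3, h4, h5, h6⟩
  · rintro ⟨p, h2, h3, h4, h5, h6⟩
    exact ⟨_, _, h2, h3, h4, h5, h6⟩

theorem SC.part' (hΦ : IsPotential Φ) (hε : 0 < ε) (hz : ∀ i, Measurable fun x => z x i)
    (hI : ∀ i, MeasurableSet {x | i ∈ I x}) (hW : ∀ x, (wd z I x).Finite) (hf : Measurable f)
    (hg : Measurable g) : SC fun x => {s | RB.part Φ ε L (wd z I x) s (f x) (g x)} := by
  have h1 : SC fun x => {s | ∃ p : MM.LT ι × MM.LT ι, s ∈ {s |
      stat Φ ε L (wd z I x) (f x) s = some (p.1.tree (z x)) ∧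
      stat Φ ε L (wd z I x) (g x) s = some (p.2.tree (z x)) ∧
      M.partner Φ ε (p.1.tree (z x)) (p.2.tree (z x)) s}} := by
    refine SC.iUnion fun p => ?_
    exact ((SC.stat_some hΦ hε hz hI hW hf p.1 (L := L)).and
      ((SC.stat_some hΦ hε hz hI hW hg p.2 (L := L)).and
        (SC.partner hΦ hε hz p.1 p.2))).congr fun x s => Iff.rfl
  refine h1.congr fun x s => ?_
  simp only [mem_ofPred_eq, RB.part]
  constructor
  · rintro ⟨T, T', h2, h3, h4⟩
    obtain ⟨τ, -, rfl⟩ := MM.LT.exists_tree ((stat_eq_some_iff hΦ hε (hW x)).1 h2).2.sub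
    obtain ⟨υ, -, rfl⟩ := MM.LT.exists_tree ((stat_eq_some_iff hΦ hε (hW x)).1 h3).2.sub
    exact ⟨(τ, υ), h2, h3, h4⟩
  · rintro ⟨p, h2, h3, h4⟩
    exact ⟨_, _, h2, h3, h4⟩

theorem SC.not_part' (hΦ : IsPotential Φ) (hε : 0 < ε) (hz : ∀ i, Measurable fun x => z x i)
    (hI : ∀ i, MeasurableSet {x | i ∈ I x}) (hW : ∀ x, (wd z I x).Finite) (hf : Measurable f)
    (hg : Measurable g) : SC fun x => {s | ¬RB.part Φ ε L (wd z I x) s (f x) (g x)} := by
  have h1 : SC fun x => {s | ∃ p : MM.LT ι × MM.LT ι, s ∈ {s |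
      stat Φ ε L (wd z I x) (f x) s = some (p.1.tree (z x)) ∧
      stat Φ ε L (wd z I x) (g x) s = some (p.2.tree (z x)) ∧
      ¬M.partner Φ ε (p.1.tree (z x)) (p.2.tree (z x)) s}} := by
    refine SC.iUnion fun p => ?_
    exact ((SC.stat_some hΦ hε hz hI hW hf p.1 (L := L)).and
      ((SC.stat_some hΦ hε hz hI hW hg p.2 (L := L)).and
        (SC.not_partner hΦ hε hz p.1 p.2))).congr fun x s => Iff.rfl
  refine ((SC.stat_none hΦ hε hz hI hW hf (L := L)).or
    ((SC.stat_none hΦ hε hz hI hW hg (L := L)).or h1)).congr fun x s => ?_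
  simp only [mem_ofPred_eq, RB.part]
  constructor
  · intro h
    by_cases h2 : stat Φ ε L (wd z I x) (f x) s = none
    · exact Or.inl h2
    by_cases h3 : stat Φ ε L (wd z I x) (g x) s = none
    · exact Or.inr (Or.inl h3)
    obtain ⟨τ, hτ⟩ := (stat_ne_none_iff hΦ hε hW).1 h2
    obtain ⟨υ, hυ⟩ := (stat_ne_none_iff hΦ hε hW).1 h3
    exact Or.inr (Or.inr ⟨(τ, υ), hτ, hυ, fun h4 => h ⟨_, _, hτ, hυ, h4⟩⟩)
  · rintro (h2 | h2 | ⟨p, h2, h3, h4⟩) ⟨T, T', h5, h6, h7⟩
    · rw [h2] at h5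
      exact absurd h5 (by simp)
    · rw [h2] at h6
      exact absurd h6 (by simp)
    · rw [h2, Option.some_inj] at h5
      rw [h3, Option.some_inj] at h6
      rw [h5, h6] at h4
      exact h4 h7

theorem SC.badi' (hΦ : IsPotential Φ) (hε : 0 < ε) (hz : ∀ i, Measurable fun x => z x i)
    (hI : ∀ i, MeasurableSet {x | i ∈ I x}) (hW : ∀ x, (wd z I x).Finite) (hf : Measurable f) :
    SC fun x => {s | RB.badi Φ ε L (wd z I x) (f x) s} := by
  have h1 : SC fun x => {s | ∃ i : ι, s ∈ {s | RB.mcon Φ ε L (wd z I x) s (f x) (z x i) ∧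
      ¬RB.part Φ ε L (wd z I x) s (f x) (z x i)}} :=
    SC.iUnion fun i => (SC.mcon' hΦ hε hz hI hf (hz i)).and (SC.not_part' hΦ hε hz hI hW hf (hz i))
  refine ((SC.cond (measurableSet_mem_wd hz hI hf)).and ((SC.ge (l := fun _ => (0 : ℝ)) measurable_const).and
    ((SC.ge hf.fst).and ((SC.stat_none hΦ hε hz hI hW hf (L := L)).or h1)))).congr
      fun x s => ?_
  simp only [mem_ofPred_eq, RB.badi]
  refine and_congr_right fun _ => and_congr_right fun _ => and_congr_right fun _ =>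
    or_congr_right ?_
  constructor
  · rintro ⟨c, h2, h3⟩
    obtain ⟨i, -, rfl⟩ := h2.mem.2
    exact ⟨i, h2, h3⟩
  · rintro ⟨i, h2, h3⟩
    exact ⟨_, h2, h3⟩

theorem SC.badc' (hΦ : IsPotential Φ) (hε : 0 < ε) (hz : ∀ i, Measurable fun x => z x i)
    (hI : ∀ i, MeasurableSet {x | i ∈ I x}) (hW : ∀ x, (wd z I x).Finite) (hf : Measurable f) :
    SC fun x => {s | RB.badc Φ ε L (wd z I x) (f x) s} :=
  SC.up (SC.badi' hΦ hε hz hI hW hf)

theorem SC.not_badc' (hΦ : IsPotential Φ) (hε : 0 < ε) (hz : ∀ i, Measurable fun x => z x i)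
    (hI : ∀ i, MeasurableSet {x | i ∈ I x}) (hW : ∀ x, (wd z I x).Finite) (hf : Measurable f) :
    SC fun x => {s | ¬RB.badc Φ ε L (wd z I x) (f x) s} :=
  SC.compl_up (SC.badc' hΦ hε hz hI hW hf) fun _ _ _ h hst => RB.badc.mono h hst

theorem sta_ne_iff {W₁ W₂ : Set Src} {a : Src} {s : ℝ} :
    RB.sta Φ ε L W₁ a s ≠ RB.sta Φ ε L W₂ a s ↔ (¬(a ∈ W₁ ↔ a ∈ W₂) ∨
      stat Φ ε L W₁ a s ≠ stat Φ ε L W₂ a s ∨
      ((RB.badc Φ ε L W₁ a s ∧ ¬RB.badc Φ ε L W₂ a s) ∨
        (¬RB.badc Φ ε L W₁ a s ∧ RB.badc Φ ε L W₂ a s))) := by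
  simp only [RB.sta, ne_eq, Prod.mk.injEq, eq_iff_iff]
  tauto

theorem SC.sta_ne' (hΦ : IsPotential Φ) (hε : 0 < ε) (hz : ∀ i, Measurable fun x => z x i)
    (hI : ∀ i, MeasurableSet {x | i ∈ I x}) (hW : ∀ x, (wd z I x).Finite)
    (hJ : ∀ i, MeasurableSet {x | i ∈ J x}) (hW' : ∀ x, (wd z J x).Finite) (hf : Measurable f) :
    SC fun x => {s | RB.sta Φ ε L (wd z I x) (f x) s ≠ RB.sta Φ ε L (wd z J x) (f x) s} := by
  have h1 : MeasurableSet {x | ¬(f x ∈ wd z I x ↔ f x ∈ wd z J x)} := by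
    have h2 := measurableSet_mem_wd hz hI hf
    have h3 := measurableSet_mem_wd hz hJ hf
    refine ((h2.diff h3).union (h3.diff h2)).congr ?_
    ext x
    simp only [mem_union, Set.mem_sdiff, mem_ofPred_eq]
    tauto
  refine ((SC.cond h1).or ((SC.stat_ne hΦ hε hz hI hW hJ hW' hf (L := L)).or
    (((SC.badc' hΦ hε hz hI hW hf (L := L)).and (SC.not_badc' hΦ hε hz hJ hW' hf (L := L))).or
    ((SC.not_badc' hΦ hε hz hI hW hf (L := L)).and
      (SC.badc' hΦ hε hz hJ hW' hf (L := L)))))).congr fun x s => ?_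
  simp only [mem_ofPred_eq]
  exact sta_ne_iff

end labels

/-! ### Random worlds -/

section random

variable {X : Type*} [MeasurableSpace X] {W W₁ W₂ : X → Finset Src} {f g : X → Src}

/-- Labels of a random world. -/
theorem exists_wd {W : X → Set Src} (hW : RS W) : ∃ (ι : Type) (_ : Countable ι) (z : X → ι → Src)
    (I : X → Set ι), (∀ i, Measurable fun x => z x i) ∧ (∀ i, MeasurableSet {x | i ∈ I x}) ∧
      ∀ x, W x = wd z I x := by
  obtain ⟨ι, hι, z, I, hz, hI, h⟩ := hW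
  refine ⟨ι, hι, fun x i => z i x, fun x => {i | x ∈ I i}, hz, hI, fun x => ?_⟩
  ext a
  rw [h x a]
  rfl

/-- Common labels of two random worlds. -/
theorem exists_wd₂ {W V : X → Set Src} (hW : RS W) (hV : RS V) :
    ∃ (ι : Type) (_ : Countable ι) (z : X → ι → Src) (I J : X → Set ι),
      (∀ i, Measurable fun x => z x i) ∧ (∀ i, MeasurableSet {x | i ∈ I x}) ∧
      (∀ i, MeasurableSet {x | i ∈ J x}) ∧ (∀ x, W x = wd z I x) ∧ ∀ x, V x = wd z J x := by
  obtain ⟨ι, hι, z, I, hz, hI, h⟩ := hW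
  obtain ⟨κ, hκ, y, J, hy, hJ, h'⟩ := hV
  refine ⟨ι ⊕ κ, inferInstance, fun x => Sum.elim (fun i => z i x) (fun k => y k x),
    fun x => Sum.inl '' {i | x ∈ I i}, fun x => Sum.inr '' {k | x ∈ J k}, ?_, ?_, ?_,
    fun x => ?_, fun x => ?_⟩
  · rintro (i | k)
    · exact hz i
    · exact hy k
  · rintro (i | k)
    · convert hI i using 1
      ext x
      simp
    · convert MeasurableSet.empty using 1
      ext x
      simp
  · rintro (i | k)
    · convert MeasurableSet.empty using 1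
      ext x
      simp
    · convert hJ k using 1
      ext x
      simp
  · ext a
    rw [h x a]
    unfold wd
    simp only [mem_image, mem_ofPred_eq]
    constructor
    · rintro ⟨i, hi, rfl⟩
      exact ⟨Sum.inl i, ⟨i, hi, rfl⟩, rfl⟩
    · rintro ⟨-, ⟨i, hi, rfl⟩, rfl⟩
      exact ⟨i, hi, rfl⟩
  · ext a
    rw [h' x a]
    unfold wd
    simp only [mem_image, mem_ofPred_eq]
    constructor
    · rintro ⟨i, hi, rfl⟩
      exact ⟨Sum.inr i, ⟨i, hi, rfl⟩, rfl⟩
    · rintro ⟨-, ⟨i, hi, rfl⟩, rfl⟩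
      exact ⟨i, hi, rfl⟩

theorem SC.mcon (hΦ : IsPotential Φ) (hε : 0 < ε) {W : X → Set Src} (hW : RS W)
    (hf : Measurable f) (hg : Measurable g) :
    SC fun x => {s | RB.mcon Φ ε L (W x) s (f x) (g x)} := by
  obtain ⟨ι, hι, z, I, hz, hI, h⟩ := exists_wd hW
  simpa only [h] using SC.mcon' hΦ hε hz hI hf hg

theorem SC.part (hΦ : IsPotential Φ) (hε : 0 < ε) (hW : RS fun x => (W x : Set Src))
    (hf : Measurable f) (hg : Measurable g) :
    SC fun x => {s | RB.part Φ ε L (W x : Set Src) s (f x) (g x)} := by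
  obtain ⟨ι, hι, z, I, hz, hI, h⟩ := exists_wd hW
  have hfin : ∀ x, (wd z I x).Finite := fun x => h x ▸ (W x).finite_toSet
  simpa only [h] using SC.part' hΦ hε hz hI hfin hf hg

theorem SC.not_part (hΦ : IsPotential Φ) (hε : 0 < ε) (hW : RS fun x => (W x : Set Src))
    (hf : Measurable f) (hg : Measurable g) :
    SC fun x => {s | ¬RB.part Φ ε L (W x : Set Src) s (f x) (g x)} := by
  obtain ⟨ι, hι, z, I, hz, hI, h⟩ := exists_wd hW
  have hfin : ∀ x, (wd z I x).Finite := fun x => h x ▸ (W x).finite_toSet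
  simpa only [h] using SC.not_part' hΦ hε hz hI hfin hf hg

theorem SC.badi (hΦ : IsPotential Φ) (hε : 0 < ε) (hW : RS fun x => (W x : Set Src))
    (hf : Measurable f) : SC fun x => {s | RB.badi Φ ε L (W x : Set Src) (f x) s} := by
  obtain ⟨ι, hι, z, I, hz, hI, h⟩ := exists_wd hW
  have hfin : ∀ x, (wd z I x).Finite := fun x => h x ▸ (W x).finite_toSet
  simpa only [h] using SC.badi' hΦ hε hz hI hfin hf

theorem SC.badc (hΦ : IsPotential Φ) (hε : 0 < ε) (hW : RS fun x => (W x : Set Src))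
    (hf : Measurable f) : SC fun x => {s | RB.badc Φ ε L (W x : Set Src) (f x) s} := by
  obtain ⟨ι, hι, z, I, hz, hI, h⟩ := exists_wd hW
  have hfin : ∀ x, (wd z I x).Finite := fun x => h x ▸ (W x).finite_toSet
  simpa only [h] using SC.badc' hΦ hε hz hI hfin hf

theorem SC.not_badc (hΦ : IsPotential Φ) (hε : 0 < ε) (hW : RS fun x => (W x : Set Src))
    (hf : Measurable f) : SC fun x => {s | ¬RB.badc Φ ε L (W x : Set Src) (f x) s} := by
  obtain ⟨ι, hι, z, I, hz, hI, h⟩ := exists_wd hW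
  have hfin : ∀ x, (wd z I x).Finite := fun x => h x ▸ (W x).finite_toSet
  simpa only [h] using SC.not_badc' hΦ hε hz hI hfin hf

/-- **Different statuses.** -/
theorem SC.sta_ne (hΦ : IsPotential Φ) (hε : 0 < ε) (h₁ : RS fun x => (W₁ x : Set Src))
    (h₂ : RS fun x => (W₂ x : Set Src)) (hf : Measurable f) :
    SC fun x => {s | RB.sta Φ ε L (W₁ x : Set Src) (f x) s ≠
      RB.sta Φ ε L (W₂ x : Set Src) (f x) s} := by
  obtain ⟨ι, hι, z, I, J, hz, hI, hJ, h, h'⟩ := exists_wd₂ h₁ h₂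
  have hfin : ∀ x, (wd z I x).Finite := fun x => h x ▸ (W₁ x).finite_toSet
  have hfin' : ∀ x, (wd z J x).Finite := fun x => h' x ▸ (W₂ x).finite_toSet
  simpa only [h, h'] using SC.sta_ne' hΦ hε hz hI hfin hJ hfin' hf

end random

/-! ### The real world -/

/-- A measurable family of real worlds with continuous paths. -/
structure MFam (x : Finset Src → ℝ → Src → Ph) : Prop where
  cont : ∀ W a, Continuous fun t => x W t a
  meas : ∀ {X : Type} [MeasurableSpace X] {W : X → Finset Src} {f : X → Src},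
    RS (fun y => (W y : Set Src)) → Measurable f → ∀ t : ℝ, Measurable fun y => x (W y) t (f y)

section real

variable {P : Finset Src → ℝ → Src → Ph} {X : Type} [MeasurableSpace X]
  {W : X → Finset Src} {f g : X → Src}

theorem SC.rcon (hP : MFam P) (hW : RS fun x => (W x : Set Src)) (hf : Measurable f)
    (hg : Measurable g) : SC fun x => {s | RB.rcon ε P (W x) s (f x) (g x)} := by
  have h1 : SC fun x => {s | Ctc ε (P (W x) s (f x)) (P (W x) s (g x))} :=
    SC.ctc (P := fun x s => P (W x) s (f x)) (Q := fun x s => P (W x) s (g x))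
      (fun s => hP.meas hW hf s) (fun s => hP.meas hW hg s) (fun _ => hP.cont _ _)
      (fun _ => hP.cont _ _)
  refine ((SC.cond (measurableSet_src_eq hf hg).compl).and
    ((SC.cond (hW.measurableSet_mem_of hf)).and ((SC.cond (hW.measurableSet_mem_of hg)).and
    ((SC.ge (l := fun _ => (0 : ℝ)) measurable_const).and ((SC.ge hf.fst).and ((SC.ge hg.fst).and h1)))))).congr
      fun x s => ?_
  simp only [mem_ofPred_eq, RB.rcon, mem_compl_iff, Finset.mem_coe, ne_eq]

theorem SC.con (hΦ : IsPotential Φ) (hε : 0 < ε) (hP : MFam P)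
    (hW : RS fun x => (W x : Set Src)) (hf : Measurable f) (hg : Measurable g) :
    SC fun x => {s | RB.con Φ ε L P (W x) s (f x) (g x)} :=
  (SC.mcon hΦ hε hW hf hg).or (SC.rcon hP hW hf hg)

/-- **The system of worlds is measurable.** -/
theorem msys (hΦ : IsPotential Φ) (hε : 0 < ε) (hX : RB.IsFam P) (hP : MFam P) :
    MSys (RB.sys Φ ε L P hΦ hε hX) where
  bad hW hf := SC.badc hΦ hε hW hf
  con hW hf hg := SC.con hΦ hε hP hW hf hg
  st h₁ h₂ hf := SC.sta_ne hΦ hε h₁ h₂ hf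

end real

end Vale.Agent.P119.RM
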