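import Vale.Agent.P119.RM.Count
import Vale.Agent.P119.EN.Inst

/-!
# P119: measurability of the energy functional `DD` and of the stopping times (`helper758`)

* `meas_cw`, `meas_mw`, `meas_ptree`, `meas_wt`: the weights of `helper456`;
* `measurableSet_AX`, `rs_AX`, `inc_DD`: the exposed sources and the functional `EN.DD`.
-/

open MeasureTheory Filter Topology Set
open scoped ENNReal

noncomputable section

namespace Vale.Agent.P119.RM

open KU M CTree MM FB

variable {Φ : E3 → ℝ} {ε : ℝ} {L : ℕ}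

section weights

variable {X : Type*} [MeasurableSpace X] {T : X → CTree} {t : X → ℝ} {W : X → Set Src}
  {f : X → Src}

theorem measurable_nv (hΦ : IsPotential Φ) (hε : 0 < ε) {ι : Type} {z : X → ι → Src}
    (hz : ∀ i, Measurable fun x => z x i) (τ : MM.LT ι) :
    Measurable fun x => ‖(CTree.ln Φ ε (τ.tree (z x))).2‖ ^ 2 :=
  (measurable_snd.comp (measurable_ln hΦ hε.ne' hz τ)).norm.pow_const 2

theorem meas_cw (hΦ : IsPotential Φ) (hε : 0 < ε) (hT : Measurable T) (ht : Measurable t) :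
    Measurable fun x => EN.cw Φ ε (T x) (t x) := by
  refine measurable_of_lt (g := fun x T => EN.cw Φ ε T (t x)) hT fun τ => ?_
  have hz : ∀ p : List Bool, Measurable fun x => atp (T x) p := fun p => (measurable_atp p).comp hT
  cases τ with
  | leaf i => exact measurable_nv hΦ hε hz (MM.LT.leaf i)
  | node a b =>
    exact Measurable.ite (measurableSet_lt ht (measurable_ext hΦ hε.ne' hz (MM.LT.node a b)))
      ((measurable_nv hΦ hε hz a).add (measurable_nv hΦ hε hz b))
      (measurable_nv hΦ hε hz (MM.LT.node a b))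

theorem meas_mw (hΦ : IsPotential Φ) (hε : 0 < ε) (hT : Measurable T) (ht : Measurable t) :
    Measurable fun x => EN.mw Φ ε (T x) (t x) := by
  refine measurable_of_lt (g := fun x T => EN.mw Φ ε T (t x)) hT fun τ => ?_
  have hz : ∀ p : List Bool, Measurable fun x => atp (T x) p := fun p => (measurable_atp p).comp hT
  cases τ with
  | leaf i => exact measurable_nv hΦ hε hz (MM.LT.leaf i)
  | node a b =>
    exact Measurable.ite (measurableSet_lt ht (measurable_ext hΦ hε.ne' hz (MM.LT.node a b)))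
      (measurable_nv hΦ hε hz a) (measurable_nv hΦ hε hz (MM.LT.node a b))

theorem measurableSet_PS (hΦ : IsPotential Φ) (hε : 0 < ε) (hW : RS W) (hf : Measurable f)
    (ht : Measurable t) (hT : Measurable T) :
    MeasurableSet {x | EN.PS Φ ε L (W x) (f x) (t x) (T x)} := by
  refine (measurableSet_eq_fun (meas_root hT) hf).inter
    ((measurableSet_tree_live hΦ hε hW hT ht).inter ?_)
  exact (measurableSet_eq_fun hT (meas_leaf hf)).union
    (measurableSet_lt (meas_sig hΦ hε.ne' hT) ht)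

/-- **The tree just before a time is measurable.** -/
theorem meas_ptree (hΦ : IsPotential Φ) (hε : 0 < ε) (hW : RS W) (hfin : ∀ x, (W x).Finite)
    (hf : Measurable f) (ht : Measurable t) :
    Measurable fun x => EN.ptree Φ ε L (W x) (f x) (t x) := by
  intro B hB
  have h1 : ∀ C : Set CTree, MeasurableSet C → MeasurableSet {x | ∃ T ∈ {T : CTree | T.leaves ⊆ W x},
      (x, T) ∈ {p : X × CTree | EN.PS Φ ε L (W p.1) (f p.1) (t p.1) p.2 ∧ p.2 ∈ C}} := fun C hC =>
    hW.trees.measurableSet_exists ((measurableSet_PS hΦ hε (hW.comp measurable_fst)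
      (hf.comp measurable_fst) (ht.comp measurable_fst) measurable_snd).inter (measurable_snd hC))
  have h2 := h1 B hB
  have h3 := (h1 univ MeasurableSet.univ).compl
  have h4 : MeasurableSet {x | CTree.leaf (f x) ∈ B} := meas_leaf hf hB
  convert h2.union (h3.inter h4) using 1
  ext x
  simp only [mem_preimage, mem_union, mem_inter_iff, mem_compl_iff, mem_ofPred_eq, mem_univ,
    and_true]
  by_cases hex : ∃ T, EN.PS Φ ε L (W x) (f x) (t x) T
  · obtain ⟨T, hT⟩ := hex
    rw [EN.ptree_eq hΦ hε (hfin x) hT]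
    constructor
    · intro h
      exact Or.inl ⟨T, hT.2.1.sub, hT, h⟩
    · rintro (⟨T', -, h5, h6⟩ | ⟨h5, -⟩)
      · rwa [hT.unique hΦ hε (hfin x) h5]
      · exact absurd ⟨T, hT.2.1.sub, hT⟩ h5
  · have h5 : EN.ptree Φ ε L (W x) (f x) (t x) = CTree.leaf (f x) := by
      unfold EN.ptree
      rw [dif_neg hex]
    rw [h5]
    constructor
    · intro h
      exact Or.inr ⟨fun ⟨T', _, h6⟩ => hex ⟨T', h6⟩, h⟩
    · rintro (⟨T', -, h6, -⟩ | ⟨-, h6⟩)
      · exact absurd ⟨T', h6⟩ hex
      · exact h6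

end weights

/-! ### The exposed sources -/

section exposed

variable {X : Type} [MeasurableSpace X] {W : X → Finset Src} {f : X → Src} {t : X → ℝ}

theorem measurableSet_mem_AX (hΦ : IsPotential Φ) (hε : 0 < ε)
    (hW : RS fun x => (W x : Set Src)) (hf : Measurable f) (ht : Measurable t) :
    MeasurableSet {x | f x ∈ EN.AX Φ ε L hΦ hε (W x) (t x)} := by
  have h := (msys_Y hΦ hε (L := L)).measurableSet_exp hW hf ht
  convert h using 1
  ext x
  exact EN.mem_AX

theorem rs_AX (hΦ : IsPotential Φ) (hε : 0 < ε) (hW : RS fun x => (W x : Set Src))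
    (ht : Measurable t) : RS fun x => (EN.AX Φ ε L hΦ hε (W x) (t x) : Set Src) := by
  refine ((msys_Y hΦ hε (L := L)).rs_exp hW ht).congr fun x => ?_
  ext a
  exact EN.mem_AX

theorem measurable_tau_AX (hΦ : IsPotential Φ) (hε : 0 < ε)
    (hW : RS fun x => (W x : Set Src)) (hf : Measurable f) :
    Measurable fun x => EN.tau (EN.AX Φ ε L hΦ hε (W x)) (f x) := by
  have h := ((msys_Y hΦ hε (L := L)).exp hW hf).measurable_sInf
  convert h using 2 with x
  unfold EN.tau
  congr 1
  ext s
  exact EN.mem_AX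

/-- **The energy of a source when it is exposed is measurable.** -/
theorem meas_wt (hΦ : IsPotential Φ) (hε : 0 < ε) (hW : RS fun x => (W x : Set Src))
    (hf : Measurable f) :
    Measurable fun x => EN.wt Φ ε L (W x) (EN.AX Φ ε L hΦ hε (W x)) (f x) := by
  have h1 := measurable_tau_AX hΦ hε hW hf (L := L)
  exact meas_cw hΦ hε (meas_ptree hΦ hε hW (fun x => (W x).finite_toSet) hf h1) h1

/-- The weight `1 + wt` in `[0, ∞]`. -/
def wE (Φ : E3 → ℝ) (ε : ℝ) (L : ℕ) (hΦ : IsPotential Φ) (hε : 0 < ε) (W : Finset Src) (a : Src) :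
    ℝ≥0∞ := ENNReal.ofReal (1 + EN.wt Φ ε L W (EN.AX Φ ε L hΦ hε W) a)

theorem mwt_wE (hΦ : IsPotential Φ) (hε : 0 < ε) : MWt (wE Φ ε L hΦ hε) where
  meas hW hf := (measurable_const.add (meas_wt hΦ hε hW hf)).ennreal_ofReal

theorem ofReal_DD (hΦ : IsPotential Φ) (hε : 0 < ε) (W : Finset Src) (s : ℝ) :
    ENNReal.ofReal (EN.DD Φ ε L hΦ hε W s) = Cnt (RB.Y Φ ε L hΦ hε) (wE Φ ε L hΦ hε) W s := by
  classical
  rw [cnt_eq_sum]
  unfold EN.DD
  rw [ENNReal.ofReal_sum_of_nonneg]
  · refine Finset.sum_congr ?_ fun _ _ => rfl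
    ext a
    rw [EN.mem_AX, Finset.mem_filter]
    exact ⟨fun h => ⟨Sys.Exp.mem h, h⟩, fun h => h.2⟩
  · intro a _
    have := EN.wt_nonneg (Φ := Φ) (ε := ε) (L := L) W (EN.AX Φ ε L hΦ hε W) a
    linarith

/-- **`DD` is an increasing measurable process.** -/
theorem inc_DD (hΦ : IsPotential Φ) (hε : 0 < ε) (hW : RS fun x => (W x : Set Src)) :
    Inc fun x s => ENNReal.ofReal (EN.DD Φ ε L hΦ hε (W x) s) := by
  simp only [ofReal_DD]
  exact inc_cnt (msys_Y hΦ hε) (mwt_wE hΦ hε) hW

theorem measurable_DD (hΦ : IsPotential Φ) (hε : 0 < ε) (hW : RS fun x => (W x : Set Src))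
    (ht : Measurable t) : Measurable fun x => EN.DD Φ ε L hΦ hε (W x) (t x) := by
  have h := ((inc_DD hΦ hε hW (L := L)).at ht).ennreal_toReal
  convert h using 2 with x
  exact (ENNReal.toReal_ofReal (EN.DD_nonneg hΦ hε _ _)).symm

end exposed

end Vale.Agent.P119.RM
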